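import Crest.Agent.R182.B.Basic

/-! R182/B/Al: ideals, the finite group W1, directions (public statements FROZEN). -/

set_option autoImplicit false
set_option linter.unusedVariables false
set_option linter.unusedSectionVars false
open Set Filter Topology MeasureTheory ProbabilityTheory Matrix Crest.GroupTheory
open scoped Pointwise commutatorElement ENNReal

noncomputable section
namespace Crest.Agent.R182

namespace Model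
variable {h k : ℕ} (M : Model h k)

theorem isIdl_idl (𝒜 : Set (Fin k → ℝ)) : M.IsIdl (M.idl 𝒜) := by
  exact fun X Y hY => Submodule.mem_sInf.2 fun U hU => hU.1 X Y (Submodule.mem_sInf.1 hY U hU)
theorem W_le_idl {𝒜 : Set (Fin k → ℝ)} {α : Fin k → ℝ} (hα : α ∈ 𝒜) : M.W α ≤ M.idl 𝒜 := by
  exact le_sInf fun U hU => hU.2 α hα
theorem idl_le {𝒜 : Set (Fin k → ℝ)} {U : Submodule ℝ (V h)} (hU : M.IsIdl U) (h𝒜 : ∀ α ∈ 𝒜, M.W α ≤ U) : M.idl 𝒜 ≤ U := by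
  exact sInf_le ⟨hU, h𝒜⟩
theorem ala_Ad (𝒜 : Set (Fin k → ℝ)) (g : M.G) {X : V h} (hX : X ∈ M.idl 𝒜) : M.Ad g X ∈ M.idl 𝒜 := by
  obtain ⟨c, hc, e⟩ := M.gr.C_surj (M.tv g)
  obtain ⟨Y, rfl⟩ := M.exists_exp_mul e.symm
  rw [map_mul]
  refine M.isIdl_iff.1 (M.isIdl_idl 𝒜) Y _ ((show M.idl 𝒜 ≤ (M.idl 𝒜).comap (M.Ad c) from
    M.idl_le (fun A B hB => ?_) fun α hα A hA => ?_) hX)
  · rw [Submodule.mem_comap, M.Ad_br]
    exact M.isIdl_idl 𝒜 _ _ hB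
  · exact M.W_le_idl hα (M.gr.C_W c hc α A hA)
/-- `g = exp X * c`; ideals are `Ad (exp X)`-invariant (`isIdl_iff`), `(idl 𝒜).comap (Ad c)` is an ideal containing the `W α` -/
theorem gi_idl {𝒜 : Set (Fin k → ℝ)} (h0 : (0 : Fin k → ℝ) ∉ 𝒜) : M.GI (M.idl 𝒜) := by
  exact ⟨M.isIdl_idl 𝒜, M.idl_le M.isIdl_E fun α hα => M.W_le_E fun e => h0 (e ▸ hα),
    fun g X hX => M.ala_Ad 𝒜 g hX⟩
theorem gi_E : M.GI M.E := ⟨M.isIdl_E, le_rfl, fun g X hX => M.Ad_E g hX⟩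
theorem gi_mI (v : Fin k → ℝ) : M.GI (M.mI v) := M.gi_idl (by simp)
theorem mI_congr {v v' : Fin k → ℝ} (hs : M.Sim v v') : M.mI v = M.mI v' := by
  have key : ∀ {v v' : Fin k → ℝ}, (∀ j, M.wt j ⬝ᵥ v < 0 → M.wt j ⬝ᵥ v' < 0) → M.mI v ≤ M.mI v' := fun hs =>
    M.idl_le (M.isIdl_idl _) fun α hα => by
      by_cases e : M.W α = ⊥
      · exact e ▸ bot_le
      · obtain ⟨j, rfl⟩ := M.W_ne_bot.1 e
        exact M.W_le_idl (hs j hα)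
  exact le_antisymm (key fun j => (hs j).2.1) (key fun j => (hs j).2.2)
theorem npos_congr {v v' : Fin k → ℝ} (hs : M.Sim v v') : M.npos v = M.npos v' := by
  have key : ∀ {v v' : Fin k → ℝ}, (∀ j, 0 < M.wt j ⬝ᵥ v → 0 < M.wt j ⬝ᵥ v') → M.npos v ≤ M.npos v' :=
    fun {v v'} hs => iSup_le fun α => by
      by_cases e : M.W α = ⊥
      · exact e ▸ bot_le
      · obtain ⟨j, hj⟩ := M.W_ne_bot.1 e
        exact le_iSup (fun α : {α : Fin k → ℝ // 0 < α ⬝ᵥ v'} => M.W α) ⟨α, hj ▸ hs j (hj ▸ α.2)⟩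
  exact le_antisymm (key fun j => (hs j).1.1) (key fun j => (hs j).1.2)
theorem Sim.symm {M : Model h k} {v v' : Fin k → ℝ} (hs : M.Sim v v') : M.Sim v' v := fun j => ⟨(hs j).1.symm, (hs j).2.symm⟩
theorem Sim.trans {M : Model h k} {v v' v'' : Fin k → ℝ} (hs : M.Sim v v') (hs' : M.Sim v' v'') : M.Sim v v'' :=
  fun j => ⟨(hs j).1.trans (hs' j).1, (hs j).2.trans (hs' j).2⟩
theorem Sim.regV {M : Model h k} {v v' : Fin k → ℝ} (hs : M.Sim v v') (hv : M.RegV v) : M.RegV v' := by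
  intro j hj
  rcases (hv j hj).lt_or_gt with h1 | h1
  · exact ((hs j).2.1 h1).ne
  · exact ((hs j).1.1 h1).ne'
/-- `idl R1 ⊔ W 0` is a subalgebra containing the depth one basis vectors (`IsSub.eq_top`), and `idl R1` is graded -/
theorem idl_R1 : M.idl M.R1 = M.E := by
  refine le_antisymm (M.idl_le M.isIdl_E fun α hα => M.W_le_E hα.1) (sInf_le ⟨M.isIdl_idl _, fun α hα X hX => ?_⟩)
  have hI := M.isIdl_idl M.R1
  have hsub : M.IsSub (M.idl M.R1 ⊔ M.W 0) := by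
    intro A hA B hB
    obtain ⟨a, ha, b, hb, rfl⟩ := Submodule.mem_sup.1 hA
    obtain ⟨a', ha', b', hb', rfl⟩ := Submodule.mem_sup.1 hB
    have e : M.br (a + b) (a' + b') = (M.br (a + b) a' + -M.br b' a) + M.br b b' := by
      rw [← M.br_anti]
      simp only [map_add, LinearMap.add_apply]
      abel
    rw [e]
    refine Submodule.add_mem_sup (add_mem (hI _ _ ha') (neg_mem (hI _ _ ha))) ?_
    simpa using M.grading.br_W 0 0 b hb b' hb'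
  have htop : M.idl M.R1 ⊔ M.W 0 = ⊤ := by
    refine Core.IsSub.eq_top _ hsub (eq_top_iff.2 fun Y _ => ?_)
    rw [← Finset.univ_sum_single Y]
    refine Submodule.sum_mem _ fun j _ => ?_
    by_cases h1 : M.dep j = 1
    · by_cases h0 : M.wt j = 0
      · exact Submodule.mem_sup_left (Submodule.mem_sup_right (h0 ▸ M.single_mem_W j _))
      · exact Submodule.mem_sup_left (Submodule.mem_sup_left (M.W_le_idl (𝒜 := M.R1) (α := M.wt j) ⟨h0, j, h1, rfl⟩ (M.single_mem_W j _)))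
    · exact Submodule.mem_sup_right (M.F_anti (by have := M.one_le_dep j; omega) (M.single_mem_F j _))
  obtain ⟨a, ha, b, hb, rfl⟩ := Submodule.mem_sup.1 (htop.ge (Submodule.mem_top : X ∈ ⊤))
  obtain ⟨P, hP⟩ : ∃ P : V h →ₗ[ℝ] V h, ∀ Y j, P Y j = if M.wt j = α then Y j else 0 :=
    ⟨LinearMap.pi fun j => if M.wt j = α then LinearMap.proj j else 0, fun Y j => by
      rw [LinearMap.pi_apply]
      split_ifs <;> rfl⟩
  have h1 : P a ∈ M.idl M.R1 := by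
    have h2 := M.grading.graded _ (fun g _ Y hY => M.ala_Ad _ g hY) ha
    refine Submodule.mem_comap.1 ((iSup_le fun β y hy => ?_ : _ ≤ Submodule.comap P _) h2)
    by_cases e : β = α
    · have h3 : P y = y := funext fun j => by
        rw [hP]
        split_ifs with h4
        exacts [rfl, (M.mem_W.1 hy.2 j (e ▸ h4)).symm]
      rw [Submodule.mem_comap, h3]
      exact hy.1
    · have h3 : P y = 0 := funext fun j => by
        rw [hP]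
        split_ifs with h4
        exacts [M.mem_W.1 hy.2 j fun h5 => e (h5.symm.trans h4), rfl]
      rw [Submodule.mem_comap, h3]
      exact zero_mem _
  have h2 : a + b = P a := funext fun j => by
    rw [hP]
    split_ifs with h4
    · rw [Pi.add_apply, M.mem_W.1 hb j (h4 ▸ hα), add_zero]
    · exact M.mem_W.1 hX j h4
  rw [h2]
  exact h1
theorem idl_ne : M.idl {α | α ≠ 0} = M.E := by
  rfl
/-- `(⨆ α ∈ 𝒜, W α) ⊔ F 2` is an ideal -/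
theorem Aff.idl_zero {M : Model h k} {β : Fin k → ℝ} (A : M.Aff β) {𝒜 : Set (Fin k → ℝ)} (hβ : β ∉ 𝒜) {X : V h}
    (hX : X ∈ M.idl 𝒜) : A.ℓ X = 0 := by
  have h1 : M.idl 𝒜 ≤ LinearMap.ker A.ℓ := sInf_le ⟨fun Y Z _ => A.F2 _ (M.br_mem_F_succ (i := 1) Y Submodule.mem_top),
    fun α hα Y hY => A.oth α (fun e => hβ (e ▸ hα)) Y hY⟩
  exact h1 hX
theorem exists_Aff {β : Fin k → ℝ} (hβ : β ∈ M.R1) : Nonempty (M.Aff β) := by
  obtain ⟨h0, j, h1, rfl⟩ := hβ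
  obtain ⟨ℓ, lam, h2, h3, ⟨X, hX, h4⟩, h5, h6, h7⟩ := M.exists_aff h1 h0
  have h8 : ‖X‖ ≠ 0 := fun e => h4 (by rw [norm_eq_zero.1 e, map_zero])
  refine ⟨⟨ℓ, lam, ‖X‖⁻¹ • X, h0, h2, h3, Submodule.smul_mem _ _ hX, ?_, ?_, h5, h6, h7⟩⟩
  · rw [norm_smul, norm_inv, norm_norm, inv_mul_cancel₀ h8]
  · rw [map_smul]
    exact smul_ne_zero (inv_ne_zero h8) h4
theorem Aff.bb_mul {M : Model h k} {β : Fin k → ℝ} (A : M.Aff β) (g g' : M.G) : A.bb (g * g') = A.bb g + A.lam g * A.bb g' :=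
  A.mul g g'
theorem Aff.bb_exp {M : Model h k} {β : Fin k → ℝ} (A : M.Aff β) (X : V h) : A.bb (M.exp X) = A.ℓ X := by
  rw [Aff.bb, M.lgm_exp]
theorem Aff.bb_C {M : Model h k} {β : Fin k → ℝ} (A : M.Aff β) {c : M.G} (hc : c ∈ M.C) : A.bb c = 0 := by
  exact A.oth 0 A.ne.symm _ (M.mem_C.1 hc)
/-- `lam (exp X) = 1` because `Ad (exp X) Y - Y ∈ F 2` -/
theorem Aff.lam_congr {M : Model h k} {β : Fin k → ℝ} (A : M.Aff β) {g g' : M.G} (hg : M.tv g = M.tv g') : A.lam g = A.lam g' := by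
  obtain ⟨X, rfl⟩ := M.exists_exp_mul hg
  have h1 := A.F2 _ (M.Ad_exp_sub_mem (Y := A.X0) (M.br_mem_F_succ (i := 1) X Submodule.mem_top) (M.isIdl_F 2 X))
  rw [map_sub, A.Ad, sub_eq_zero] at h1
  have h2 : A.lam (M.exp X) = 1 := Units.ext ((mul_eq_right₀ A.X0_ne).1 h1)
  rw [map_mul, h2, one_mul]
theorem Aff.continuous_bb {M : Model h k} {β : Fin k → ℝ} (A : M.Aff β) : Continuous A.bb := by
  exact A.ℓ.continuous_of_finiteDimensional.comp M.continuous_lgm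
theorem finite_R1 : M.R1.Finite := by
  exact (Set.finite_range M.wt).subset fun α ⟨_, j, _, hj⟩ => ⟨j, hj⟩
theorem exists_norm_le_R1 : ∃ B : ℝ, 0 < B ∧ ∀ (a : Fin k → ℝ) (H : ℝ), 0 ≤ H → (∀ β ∈ M.R1, β ⬝ᵥ a ≤ H) → ‖a‖ ≤ B * H := by
  obtain ⟨B, hB, h1⟩ := M.exists_norm_le_wt
  refine ⟨B, hB, fun a H hH ha => h1 a H hH fun j hj => ?_⟩
  by_cases h0 : M.wt j = 0
  · rw [h0, zero_dotProduct]; exact hH
  · exact ha _ ⟨h0, j, hj, rfl⟩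
/-- the roots of depth one off a ray still span: `sum_wt 1` expresses the ray through the others; finitely many subsets of `R1` -/
theorem exists_norm_le_offray : ∃ B : ℝ, 0 < B ∧ ∀ (γ a : Fin k → ℝ) (H : ℝ), 0 ≤ H →
    (∀ β ∈ M.R1, (¬∃ c : ℝ, 0 < c ∧ β = c • γ) → |β ⬝ᵥ a| ≤ H) → ‖a‖ ≤ B * H := by
  classical
  obtain ⟨B, hB, h1⟩ := M.exists_norm_le_wt
  refine ⟨B * (h + 1), by positivity, fun γ a H hH ha => ?_⟩
  rw [mul_assoc]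
  have hh : 0 ≤ (h : ℝ) * H := by positivity
  have off : ∀ j, M.dep j = 1 → (¬∃ c : ℝ, 0 < c ∧ M.wt j = c • γ) → |M.wt j ⬝ᵥ a| ≤ H := fun j hj hn => by
    by_cases h0 : M.wt j = 0
    · rw [h0, zero_dotProduct, abs_zero]; exact hH
    · exact ha _ ⟨h0, j, hj, rfl⟩ hn
  refine h1 a _ (by positivity) fun j hj => ?_
  by_cases hr : ∃ c : ℝ, 0 < c ∧ M.wt j = c • γ
  · rcases le_total (γ ⬝ᵥ a) 0 with hg | hg
    · obtain ⟨c, hc, e⟩ := hr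
      rw [e, smul_dotProduct, smul_eq_mul]
      nlinarith
    · have h2 := Finset.single_le_sum (s := Finset.univ.filter fun l => M.dep l = 1) (f := fun l => H + M.wt l ⬝ᵥ a)
        (fun l hl => by
          by_cases hl' : ∃ c : ℝ, 0 < c ∧ M.wt l = c • γ
          · obtain ⟨c, hc, e⟩ := hl'
            rw [e, smul_dotProduct, smul_eq_mul]
            positivity
          · linarith [(abs_le.1 (off l (Finset.mem_filter.1 hl).2 hl')).1]) (Finset.mem_filter.2 ⟨Finset.mem_univ j, hj⟩)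
      rw [Finset.sum_add_distrib, ← sum_dotProduct, M.sum_wt 1, zero_dotProduct, add_zero, Finset.sum_const,
        nsmul_eq_mul] at h2
      have h3 : ((Finset.univ.filter fun l => M.dep l = 1).card : ℝ) ≤ h :=
        Nat.cast_le.2 ((Finset.card_filter_le _ _).trans (Finset.card_fin h).le)
      have h4 := mul_le_mul_of_nonneg_right h3 hH
      linarith
  · linarith [(abs_le.1 (off j hj hr)).2]
theorem ald_finrank (α : Fin k → ℝ) : Module.finrank ℝ (M.W α) = (Finset.univ.filter fun j => M.wt j = α).card := by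
  classical
  let r : M.W α →ₗ[ℝ] ({j // M.wt j = α} → ℝ) := (LinearMap.funLeft ℝ ℝ Subtype.val).comp (M.W α).subtype
  have hr : Function.Bijective r := by
    refine ⟨(injective_iff_map_eq_zero r).2 fun X hX => Subtype.ext (funext fun j => ?_), fun f => ?_⟩
    · by_cases hj : M.wt j = α
      · exact congrFun hX ⟨j, hj⟩
      · exact M.mem_W.1 X.2 j hj
    · refine ⟨⟨fun j => if hj : M.wt j = α then f ⟨j, hj⟩ else 0, M.mem_W.2 fun j hj => dif_neg hj⟩, funext fun j => ?_⟩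
      exact dif_pos j.2
  rw [(LinearEquiv.ofBijective r hr).finrank_eq, Module.finrank_fintype_fun_eq_card, Fintype.card_subtype]
theorem ald_sum : ∑ α ∈ Finset.univ.image M.wt, (Module.finrank ℝ (M.W α) : ℝ) • α = 0 := by
  have h1 := Finset.sum_comp (s := Finset.univ) (fun α : Fin k → ℝ => α) M.wt
  have h2 := M.sum_wt_ge 0
  simp only [zero_le, Finset.filter_true] at h2
  rw [h2] at h1
  rw [h1]
  refine Finset.sum_congr rfl fun α _ => ?_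
  rw [M.ald_finrank, Nat.cast_smul_eq_nsmul]
/-- `E ⊓ W α = W α` for `α ≠ 0`, `finrank (W α) = #{j | wt j = α}`, `sum_wt_ge` -/
theorem rb_E : M.rb M.E = 0 := by
  rw [rb, neg_eq_zero, ← M.ald_sum]
  refine Finset.sum_congr rfl fun α _ => ?_
  by_cases hα : α = 0
  · simp [hα]
  · rw [inf_eq_right.2 (M.W_le_E hα)]
theorem finite_RB : M.RB.Finite := by
  refine (Set.finite_range fun n : ↥(Finset.univ.image M.wt) → Fin (h + 1) =>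
    -∑ α : ↥(Finset.univ.image M.wt), ((n α : ℕ) : ℝ) • (α : Fin k → ℝ)).subset ?_
  rintro _ ⟨v, -, rfl⟩
  have hle : ∀ U : Submodule ℝ (V h), Module.finrank ℝ U < h + 1 := fun U =>
    Nat.lt_succ_of_le (U.finrank_le.trans_eq (Module.finrank_fin_fun ℝ))
  refine ⟨fun α => ⟨Module.finrank ℝ ↥(M.mI v ⊓ M.W α), hle _⟩, ?_⟩
  rw [rb, ← Finset.sum_coe_sort (Finset.univ.image M.wt)]
/-- `rb (mI v) = rb (mI v) - rb E = ∑ (finrank (W α) - finrank (mI v ⊓ W α)) • α` over `α ≠ 0`; the terms with `α ⬝ᵥ v < 0` vanish, and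
for `β ∈ R1` with `0 < β ⬝ᵥ a` the coefficient is positive (`Aff.idl_zero`) -/
theorem rb_mI_pos {v a : Fin k → ℝ} (hv : M.RegV v) (ha : a ≠ 0) (h1 : ∀ j, 0 < M.wt j ⬝ᵥ v → 0 ≤ M.wt j ⬝ᵥ a)
    (h2 : ∀ j, 0 < M.wt j ⬝ᵥ a → 0 < M.wt j ⬝ᵥ v) : 0 < M.rb (M.mI v) ⬝ᵥ a := by
  have e : M.rb (M.mI v) ⬝ᵥ a = ∑ α ∈ Finset.univ.image M.wt,
      ((Module.finrank ℝ (M.W α) : ℝ) - Module.finrank ℝ ↥(M.mI v ⊓ M.W α)) * (α ⬝ᵥ a) := by
    have h0 := congrArg (· ⬝ᵥ a) M.ald_sum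
    simp only [sum_dotProduct, smul_dotProduct, smul_eq_mul, zero_dotProduct] at h0
    simp only [rb, neg_dotProduct, sum_dotProduct, smul_dotProduct, smul_eq_mul, sub_mul, Finset.sum_sub_distrib, h0, zero_sub]
  have hle : ∀ α, (Module.finrank ℝ ↥(M.mI v ⊓ M.W α) : ℝ) ≤ Module.finrank ℝ (M.W α) := fun α => by
    exact_mod_cast Submodule.finrank_mono inf_le_right
  obtain ⟨j, hj1, hj⟩ : ∃ j, M.dep j = 1 ∧ 0 < M.wt j ⬝ᵥ a := by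
    by_contra hn
    push Not at hn
    obtain ⟨B, -, hB⟩ := M.exists_norm_le_wt
    have := hB a 0 le_rfl hn
    rw [mul_zero, norm_le_zero_iff] at this
    exact ha this
  rw [e]
  refine Finset.sum_pos' (fun α hα => ?_) ⟨M.wt j, Finset.mem_image_of_mem _ (Finset.mem_univ j), ?_⟩
  · obtain ⟨i, -, rfl⟩ := Finset.mem_image.1 hα
    by_cases h0 : M.wt i = 0
    · simp [h0]
    rcases lt_or_gt_of_ne (hv i h0) with hi | hi
    · have : M.W (M.wt i) ≤ M.mI v := M.W_le_idl (𝒜 := {α | α ⬝ᵥ v < 0}) hi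
      rw [inf_eq_right.2 this, sub_self, zero_mul]
    · exact mul_nonneg (sub_nonneg.2 (hle _)) (h1 i hi)
  · have h0 : M.wt j ≠ 0 := fun h0 => by simp [h0] at hj
    obtain ⟨A⟩ := M.exists_Aff (β := M.wt j) ⟨h0, j, hj1, rfl⟩
    have hlt : M.mI v ⊓ M.W (M.wt j) < M.W (M.wt j) := by
      refine lt_of_le_of_ne inf_le_right fun hh => A.X0_ne ?_
      have hX : A.X0 ∈ M.mI v ⊓ M.W (M.wt j) := by rw [hh]; exact A.X0_mem
      exact A.idl_zero (𝒜 := {α | α ⬝ᵥ v < 0}) (fun hh' => lt_asymm hh' (h2 j hj)) hX.1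
    refine mul_pos (sub_pos.2 ?_) hj
    exact_mod_cast Submodule.finrank_lt_finrank_of_lt hlt
omit M in
theorem ale_dense {α : Fin k → ℝ} (hα : α ≠ 0) : Dense {v : Fin k → ℝ | α ⬝ᵥ v ≠ 0} := by
  have hs : Function.Surjective (dotProductBilin ℝ ℝ α) := by
    intro t
    have h1 : α ⬝ᵥ α ≠ 0 := fun e => hα (dotProduct_self_eq_zero.1 e)
    refine ⟨(t / (α ⬝ᵥ α)) • α, ?_⟩
    change α ⬝ᵥ ((t / (α ⬝ᵥ α)) • α) = t
    rw [dotProduct_smul, smul_eq_mul, div_mul_cancel₀ _ h1]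
  exact (dense_compl_singleton (0 : ℝ)).preimage (LinearMap.isOpenMap_of_finiteDimensional _ hs)
theorem ale_reg (a : Fin k → ℝ) : ∃ v, M.RegV v ∧ (∀ j, 0 < M.wt j ⬝ᵥ v → 0 ≤ M.wt j ⬝ᵥ a) ∧
    ∀ j, 0 < M.wt j ⬝ᵥ a → 0 < M.wt j ⬝ᵥ v := by
  have hc : ∀ j, Continuous fun v : Fin k → ℝ => M.wt j ⬝ᵥ v := fun j => continuous_const.dotProduct continuous_id
  have hd : Dense (⋂ j ∈ {j | M.wt j ≠ 0}, {v : Fin k → ℝ | M.wt j ⬝ᵥ v ≠ 0}) :=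
    dense_biInter_of_isOpen (fun j _ => isOpen_ne_fun (hc j) continuous_const) (Set.to_countable _)
      fun j hj => ale_dense hj
  have ho : IsOpen ((⋂ j ∈ {j | 0 < M.wt j ⬝ᵥ a}, {v : Fin k → ℝ | 0 < M.wt j ⬝ᵥ v}) ∩
      ⋂ j ∈ {j | M.wt j ⬝ᵥ a < 0}, {v : Fin k → ℝ | M.wt j ⬝ᵥ v < 0}) :=
    ((Set.toFinite _).isOpen_biInter fun j _ => isOpen_lt continuous_const (hc j)).inter
      ((Set.toFinite _).isOpen_biInter fun j _ => isOpen_lt (hc j) continuous_const)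
  obtain ⟨v, ⟨h1, h2⟩, h3⟩ := hd.inter_open_nonempty _ ho
    ⟨a, Set.mem_iInter₂.2 fun j hj => hj, Set.mem_iInter₂.2 fun j hj => hj⟩
  refine ⟨v, fun j hj => Set.mem_iInter₂.1 h3 j hj, fun j hj => ?_, fun j hj => Set.mem_iInter₂.1 h1 j hj⟩
  by_contra hn
  exact lt_asymm hj (Set.mem_iInter₂.1 h2 j (not_le.1 hn))
theorem ale_span {a : Fin k → ℝ} (ha : ∀ r ∈ M.RB, r ⬝ᵥ a = 0) : a = 0 := by
  by_contra h0
  obtain ⟨v, hv, h1, h2⟩ := M.ale_reg a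
  exact (M.rb_mI_pos hv h0 h1 h2).ne' (ha _ ⟨v, hv, rfl⟩)
theorem ale_ext {A B : Mat k} (hAB : ∀ r ∈ M.RB, r ᵥ* A = r ᵥ* B) : A = B := by
  ext i j
  have h1 : (fun i => (A - B) i j) = 0 := M.ale_span fun r hr => by
    have h2 := congrFun (hAB r hr) j
    have h3 : (r ᵥ* (A - B)) j = 0 := by rw [Matrix.vecMul_sub, Pi.sub_apply, h2, sub_self]
    exact h3
  exact sub_eq_zero.1 (congrFun h1 i)

/-- `RB` is finite and spans (`v = a + small generic`, `rb_mI_pos`); `L` is determined by a map `RB → RB` -/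
theorem finite_W1 : M.W1.Finite := by
  classical
  have := M.finite_RB.to_subtype
  have hm : ∀ L : M.W1, ∀ r : M.RB, (r : Fin k → ℝ) ᵥ* (L : Mat k)⁻¹ ∈ M.RB := by
    rintro ⟨L, hL⟩ ⟨r, hr⟩
    obtain ⟨r', hr', e⟩ := hL.2.1 r hr
    change r ᵥ* L⁻¹ ∈ M.RB
    rwa [e, Matrix.vecMul_vecMul, Matrix.mul_nonsing_inv _ (isUnit_iff_ne_zero.2 hL.1), Matrix.vecMul_one]
  have hi : Function.Injective fun (L : M.W1) (r : M.RB) => (⟨_, hm L r⟩ : M.RB) := by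
    rintro ⟨L, hL⟩ ⟨L', hL'⟩ e
    have e1 : L⁻¹ = L'⁻¹ := M.ale_ext fun r hr => congrArg Subtype.val (congrFun e ⟨r, hr⟩)
    have e2 := congrArg (fun A : Mat k => A⁻¹) e1
    simp only [Matrix.nonsing_inv_nonsing_inv _ (isUnit_iff_ne_zero.2 hL.1),
      Matrix.nonsing_inv_nonsing_inv _ (isUnit_iff_ne_zero.2 hL'.1)] at e2
    exact Subtype.ext e2
  exact Set.finite_coe_iff.1 (Finite.of_injective _ hi)
theorem one_mem_W1 : (1 : Mat k) ∈ M.W1 := by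
  refine ⟨by simp, fun r hr => ⟨r, hr, (Matrix.vecMul_one r).symm⟩, fun β hβ => ⟨β, hβ, 1, one_pos, ?_⟩⟩
  rw [Matrix.vecMul_one, one_smul]
theorem mul_mem_W1 {L L' : Mat k} (hL : L ∈ M.W1) (hL' : L' ∈ M.W1) : L * L' ∈ M.W1 := by
  refine ⟨by rw [Matrix.det_mul]; exact mul_ne_zero hL.1 hL'.1, fun r hr => ?_, fun β hβ => ?_⟩
  · obtain ⟨r', hr', e⟩ := hL'.2.1 r hr
    obtain ⟨r'', hr'', e'⟩ := hL.2.1 r' hr'
    exact ⟨r'', hr'', by rw [e, e', Matrix.vecMul_vecMul]⟩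
  · obtain ⟨α, hα, c, hc, e⟩ := hL.2.2 β hβ
    obtain ⟨α', hα', c', hc', e'⟩ := hL'.2.2 α hα
    exact ⟨α', hα', c * c', mul_pos hc hc', by rw [← Matrix.vecMul_vecMul, e, Matrix.smul_vecMul, e', smul_smul]⟩
theorem ale_pow {L : Mat k} (hL : L ∈ M.W1) (n : ℕ) : L ^ n ∈ M.W1 := by
  induction n with
  | zero => rw [pow_zero]; exact M.one_mem_W1
  | succ n ih => rw [pow_succ]; exact M.mul_mem_W1 ih hL

/-- `L` has finite order in the finite cancellative monoid `W1` -/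
theorem inv_mem_W1 {L : Mat k} (hL : L ∈ M.W1) : L⁻¹ ∈ M.W1 := by
  obtain ⟨m, n, hmn, e⟩ := M.finite_W1.exists_lt_map_eq_of_forall_mem (M.ale_pow hL)
  obtain ⟨p, rfl⟩ := Nat.exists_eq_add_of_lt hmn
  have hu : IsUnit (L ^ m) := ((Matrix.isUnit_iff_isUnit_det L).2 (isUnit_iff_ne_zero.2 hL.1)).pow m
  have e1 : L ^ p * L = 1 := by
    refine hu.mul_left_cancel ?_
    rw [mul_one, ← pow_succ, ← pow_add, ← add_assoc, ← e]
  rw [Matrix.inv_eq_left_inv e1]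
  exact M.ale_pow hL p
theorem exists_mb_W1 : ∃ Λ : ℝ, 1 ≤ Λ ∧ ∀ L ∈ M.W1, Mb L Λ := by
  have hf : ((fun p : Mat k × Fin k × Fin k => |p.1 p.2.1 p.2.2|) '' (M.W1 ×ˢ univ)).Finite :=
    (M.finite_W1.prod Set.finite_univ).image _
  obtain ⟨B, hB⟩ := hf.bddAbove
  exact ⟨max 1 B, le_max_left _ _, fun L hL i j =>
    (hB ⟨(L, i, j), ⟨hL, Set.mem_univ _⟩, rfl⟩).trans (le_max_right _ _)⟩
theorem exists_sep_W1 : ∃ η : ℝ, 0 < η ∧ ∀ L ∈ M.W1, ∀ L' ∈ M.W1, Mb (L - L') η → L = L' := by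
  have hf : ((fun p : (Mat k × Mat k) × Fin k × Fin k => |(p.1.1 - p.1.2) p.2.1 p.2.2|) ''
      ((M.W1 ×ˢ M.W1) ×ˢ univ)).Finite := ((M.finite_W1.prod M.finite_W1).prod Set.finite_univ).image _
  have hg : (insert 1 {x ∈ (fun p : (Mat k × Mat k) × Fin k × Fin k => |(p.1.1 - p.1.2) p.2.1 p.2.2|) ''
      ((M.W1 ×ˢ M.W1) ×ˢ univ) | 0 < x}).Finite := (hf.subset fun x hx => hx.1).insert 1
  obtain ⟨η, hη, hmin⟩ := Set.exists_min_image _ id hg ⟨1, Set.mem_insert _ _⟩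
  have h0 : 0 < η := by
    rcases hη with rfl | hη
    · exact one_pos
    · exact hη.2
  refine ⟨η / 2, half_pos h0, fun L hL L' hL' hb => ?_⟩
  ext i j
  by_contra hn
  have h1 := hmin _ (Set.mem_insert_of_mem _ ⟨⟨((L, L'), i, j), ⟨⟨hL, hL'⟩, Set.mem_univ _⟩, rfl⟩,
    abs_pos.2 (sub_ne_zero.2 hn)⟩)
  have h2 := hb i j
  change η ≤ |(L - L') i j| at h1
  linarith
/-- integer points in open cones: scale a point of the cone and round -/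
theorem exists_int_cone {s : Set (Fin k → ℝ)} (hs : s.Finite) {v : Fin k → ℝ} (hv : ∀ α ∈ s, 0 < α ⬝ᵥ v) :
    ∃ d ∈ M.C, ∀ α ∈ s, 0 < α ⬝ᵥ M.chi d := by
  obtain ⟨n, hn⟩ := ((eventually_all_finite hs).2 fun α hα =>
    ((tendsto_natCast_atTop_atTop (R := ℝ)).atTop_mul_const (hv α hα)).eventually_gt_atTop (∑ i, |α i|)).exists
  obtain ⟨d, hd, e⟩ := M.gr.C_surj fun i => ⌊n * v i⌋
  refine ⟨d, hd, fun α hα => ?_⟩
  have h1 := hn α hα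
  have h2 : ∑ i, ((n : ℝ) * (α i * v i) - |α i|) ≤ α ⬝ᵥ M.chi d := Finset.sum_le_sum fun i _ => by
    have e' : M.chi d i = (⌊n * v i⌋ : ℤ) := congrArg (fun a : Fin k → ℤ => (a i : ℝ)) e
    have h3 := Int.floor_le (n * v i)
    have h4 := Int.lt_floor_add_one (n * v i)
    rw [e']
    rcases abs_cases (α i) with ⟨h5, h6⟩ | ⟨h5, h6⟩ <;> rw [h5] <;> nlinarith
  rw [Finset.sum_sub_distrib, ← Finset.mul_sum] at h2
  simp only [dotProduct] at h1 h2 ⊢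
  linarith
omit M in
/-- perturb into general position -/
theorem _root_.Crest.Agent.R182.exists_generic {s s' : Set (Fin k → ℝ)} (hs : s.Finite) (hs' : s'.Finite) (h0 : (0 : Fin k → ℝ) ∉ s')
    {v : Fin k → ℝ} (hv : ∀ α ∈ s, 0 < α ⬝ᵥ v) : ∃ v', (∀ α ∈ s, 0 < α ⬝ᵥ v') ∧ ∀ α ∈ s', α ⬝ᵥ v' ≠ 0 := by
  have hc : ∀ α : Fin k → ℝ, Continuous fun w : Fin k → ℝ => α ⬝ᵥ w := fun α => continuous_const.dotProduct continuous_id
  have h1 : IsOpen (⋂ α ∈ s, {w : Fin k → ℝ | 0 < α ⬝ᵥ w}) := hs.isOpen_biInter fun α _ => isOpen_lt continuous_const (hc α)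
  have h2 : Dense (⋂ α ∈ s', {w : Fin k → ℝ | α ⬝ᵥ w ≠ 0}) :=
    dense_biInter_of_isOpen (fun α _ => isOpen_ne_fun (hc α) continuous_const) hs'.countable fun α hα => by
      let p : Submodule ℝ (Fin k → ℝ) := LinearMap.ker (dotProductBilin ℝ ℝ α)
      refine (interior_eq_empty_iff_dense_compl (s := (p : Set (Fin k → ℝ)))).1 ?_
      by_contra hne
      have h3 : α ∈ p := p.eq_top_of_nonempty_interior' (nonempty_iff_ne_empty.2 hne) ▸ Submodule.mem_top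
      exact h0 (dotProduct_self_eq_zero.1 (show α ⬝ᵥ α = 0 from h3) ▸ hα)
  obtain ⟨w, hw, hw'⟩ := h2.inter_open_nonempty _ h1 ⟨v, mem_iInter₂.2 hv⟩
  exact ⟨w, mem_iInter₂.1 hw, mem_iInter₂.1 hw'⟩
omit M in
theorem _root_.Crest.Agent.R182.exists_sep_ray {α β : Fin k → ℝ} (hα : α ≠ 0) (hβ : β ≠ 0) (hn : ¬∃ c : ℝ, 0 < c ∧ β = c • α) :
    ∃ v, 0 < α ⬝ᵥ v ∧ β ⬝ᵥ v < 0 := by
  have pos : ∀ γ : Fin k → ℝ, γ ≠ 0 → 0 < γ ⬝ᵥ γ := fun γ hγ =>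
    (Finset.sum_nonneg fun i _ => mul_self_nonneg (γ i)).lt_of_ne' fun h => hγ (dotProduct_self_eq_zero.1 h)
  have hA := pos α hα
  have hB := pos β hβ
  rcases le_or_gt (α ⬝ᵥ β) 0 with hD | hD
  · refine ⟨α - β, ?_, ?_⟩ <;> rw [dotProduct_sub]
    · linarith
    · linarith [dotProduct_comm β α]
  · have hG := pos (β - (α ⬝ᵥ β / α ⬝ᵥ α) • α) fun h => hn ⟨_, div_pos hD hA, sub_eq_zero.1 h⟩
    have h1 : α ⬝ᵥ (β - (α ⬝ᵥ β / α ⬝ᵥ α) • α) = 0 := by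
      rw [dotProduct_sub, dotProduct_smul, smul_eq_mul, div_mul_cancel₀ _ hA.ne', sub_self]
    generalize hγ : β - (α ⬝ᵥ β / α ⬝ᵥ α) • α = γ at hG h1
    have h2 : β ⬝ᵥ γ = γ ⬝ᵥ γ := by
      conv_rhs => enter [1]; rw [← hγ]
      rw [sub_dotProduct, smul_dotProduct, h1, smul_zero, sub_zero]
    refine ⟨(γ ⬝ᵥ γ) • α - (2 * α ⬝ᵥ β) • γ, ?_, ?_⟩ <;>
      simp only [dotProduct_sub, dotProduct_smul, smul_eq_mul, h1, h2, dotProduct_comm β α]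
    · nlinarith [mul_pos hG hA]
    · nlinarith [mul_pos hG hD]
theorem alf_cone {t : Set (Fin k → ℝ)} (ht : t.Finite) {v : Fin k → ℝ} (hv : ∀ α ∈ t, α ⬝ᵥ v ≠ 0) :
    ∃ d ∈ M.C, ∀ α ∈ t, 0 < α ⬝ᵥ v * α ⬝ᵥ M.chi d := by
  obtain ⟨d, hd, h⟩ := M.exists_int_cone (ht.image fun α => (α ⬝ᵥ v) • α) (v := v) (by
    rintro _ ⟨α, hα, rfl⟩
    rw [smul_dotProduct]
    exact mul_self_pos.2 (hv α hα))
  exact ⟨d, hd, fun α hα => by simpa only [smul_dotProduct, smul_eq_mul] using h _ ⟨α, hα, rfl⟩⟩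
theorem alf_sim {v v' : Fin k → ℝ} (h : ∀ j, M.wt j ≠ 0 → 0 < M.wt j ⬝ᵥ v * M.wt j ⬝ᵥ v') : M.Sim v' v ∧ M.RegV v' := by
  refine ⟨fun j => ?_, fun j hj e => by simpa [e] using h j hj⟩
  by_cases hj : M.wt j = 0
  · simp [hj]
  · rcases mul_pos_iff.1 (h j hj) with ⟨h1, h2⟩ | ⟨h1, h2⟩
    · simp [h1, h2, h1.not_gt, h2.not_gt]
    · simp [h1, h2, h1.not_gt, h2.not_gt]
/-- directions for an arbitrary invertible matrix -/
theorem exists_dir {L : Mat k} (hL : L.det ≠ 0) {v : Fin k → ℝ} (hv : M.RegV v) :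
    ∃ d d', M.Dir L d d' ∧ M.Sim (M.chi d) v := by
  have hu : IsUnit L.det := isUnit_iff_ne_zero.2 hL
  have hR : (M.wt '' {j | M.wt j ≠ 0}).Finite := (toFinite _).image _
  obtain ⟨w, h1, h2⟩ := exists_generic (hR.image fun α => (α ⬝ᵥ v) • α) (hR.image fun α => α ᵥ* L) (v := v)
    (by
      rintro ⟨_, ⟨j, hj, rfl⟩, e⟩
      refine hj ?_
      have := congrArg (· ᵥ* L⁻¹) e
      simpa [Matrix.mul_nonsing_inv L hu] using this)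
    (by
      rintro _ ⟨_, ⟨j, hj, rfl⟩, rfl⟩
      rw [smul_dotProduct]
      exact mul_self_pos.2 (hv j hj))
  obtain ⟨hwv, hw⟩ := M.alf_sim (v := v) (v' := w) fun j hj => by
    simpa only [smul_dotProduct, smul_eq_mul] using h1 _ ⟨_, ⟨j, hj, rfl⟩, rfl⟩
  have hLw : M.RegV (L *ᵥ w) := fun j hj => by
    rw [dotProduct_mulVec]
    exact h2 _ ⟨_, ⟨j, hj, rfl⟩, rfl⟩
  have e : L⁻¹ *ᵥ L *ᵥ w = w := by rw [mulVec_mulVec, Matrix.nonsing_inv_mul L hu, one_mulVec]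
  obtain ⟨d, hd, h3⟩ := M.alf_cone (hR.union (hR.image fun α => α ᵥ* L)) (v := w) (by
    rintro _ (⟨j, hj, rfl⟩ | h)
    exacts [hw j hj, h2 _ h])
  obtain ⟨d', hd', h4⟩ := M.alf_cone (hR.union (hR.image fun α => α ᵥ* L⁻¹)) (v := L *ᵥ w) (by
    rintro _ (⟨j, hj, rfl⟩ | ⟨_, ⟨j, hj, rfl⟩, rfl⟩)
    · exact hLw j hj
    · rw [← dotProduct_mulVec, e]
      exact hw j hj)
  have a1 := M.alf_sim (v := w) (v' := M.chi d) fun j hj => h3 _ (Or.inl ⟨j, hj, rfl⟩)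
  have a2 := M.alf_sim (v := L *ᵥ w) (v' := L *ᵥ M.chi d) fun j hj => by
    simpa only [dotProduct_mulVec] using h3 _ (Or.inr ⟨_, ⟨j, hj, rfl⟩, rfl⟩)
  have a3 := M.alf_sim (v := L *ᵥ w) (v' := M.chi d') fun j hj => h4 _ (Or.inl ⟨j, hj, rfl⟩)
  have a4 := M.alf_sim (v := w) (v' := L⁻¹ *ᵥ M.chi d') fun j hj => by
    have := h4 _ (Or.inr ⟨_, ⟨j, hj, rfl⟩, rfl⟩)
    rwa [← dotProduct_mulVec, ← dotProduct_mulVec, e] at this
  exact ⟨d, d', ⟨hd, hd', a1.2, a3.2, a2.1.trans a3.1.symm, a4.1.trans a1.1.symm⟩, a1.1.trans hwv⟩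
theorem alg_finite_arr : {α : Fin k → ℝ | ∃ L ∈ M.W1, ∃ j, α = M.wt j ᵥ* L ∨ α = -(M.wt j ᵥ* L)}.Finite := by
  have h1 : (⋃ L ∈ M.W1, (range (fun j => M.wt j ᵥ* L) ∪ range (fun j => -(M.wt j ᵥ* L)))).Finite :=
    M.finite_W1.biUnion fun L _ => (finite_range _).union (finite_range _)
  refine h1.subset ?_
  rintro α ⟨L, hL, j, rfl | rfl⟩
  · exact mem_biUnion hL (Or.inl ⟨j, rfl⟩)
  · exact mem_biUnion hL (Or.inr ⟨j, rfl⟩)
theorem alg_sim {v w : Fin k → ℝ} (hv : ∀ L ∈ M.W1, M.RegV (L *ᵥ v))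
    (hw : ∀ α, (∃ L ∈ M.W1, ∃ j, α = M.wt j ᵥ* L ∨ α = -(M.wt j ᵥ* L)) → 0 < α ⬝ᵥ v → 0 < α ⬝ᵥ w)
    {L : Mat k} (hL : L ∈ M.W1) : M.Sim (L *ᵥ w) (L *ᵥ v) := by
  intro j
  by_cases hj : M.wt j = 0
  · simp [hj]
  have h1 := hw _ ⟨L, hL, j, Or.inl rfl⟩
  have h2 := hw _ ⟨L, hL, j, Or.inr rfl⟩
  have h3 := hv L hL j hj
  rw [neg_dotProduct, neg_dotProduct] at h2
  rw [← dotProduct_mulVec, ← dotProduct_mulVec] at h1 h2
  rcases lt_or_gt_of_ne h3 with h4 | h4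
  · have := h2 (by linarith)
    exact ⟨⟨fun h => by linarith, fun h => by linarith⟩, ⟨fun _ => h4, fun _ => by linarith⟩⟩
  · have := h1 h4
    exact ⟨⟨fun _ => h4, fun _ => this⟩, ⟨fun h => by linarith, fun h => by linarith⟩⟩
theorem exists_dirs : ∃ 𝒟, M.Dirs 𝒟 := by
  classical
  set S : Set (Fin k → ℝ) := {α | ∃ L ∈ M.W1, ∃ j, α = M.wt j ᵥ* L ∨ α = -(M.wt j ᵥ* L)} with hS
  have hSf : S.Finite := M.alg_finite_arr
  set P : Set (Set (Fin k → ℝ)) :=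
    {s | ∃ v, (∀ L ∈ M.W1, M.RegV (L *ᵥ v)) ∧ s = {α | α ∈ S ∧ 0 < α ⬝ᵥ v}} with hP
  have hPf : P.Finite := by
    refine hSf.finite_subsets.subset ?_
    rintro s ⟨v, -, rfl⟩ α hα
    exact hα.1
  have hex : ∀ s ∈ P, ∃ d ∈ M.C, ∀ α ∈ s, 0 < α ⬝ᵥ M.chi d := by
    rintro s ⟨v, -, rfl⟩
    exact M.exists_int_cone (hSf.subset fun α hα => hα.1) (v := v) fun α hα => hα.2
  choose! f hfC hf using hex
  have key : ∀ v, (∀ L ∈ M.W1, M.RegV (L *ᵥ v)) → ∀ L ∈ M.W1,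
      M.Sim (L *ᵥ M.chi (f {α | α ∈ S ∧ 0 < α ⬝ᵥ v})) (L *ᵥ v) := fun v hv L hL =>
    M.alg_sim hv (fun α h1 h2 => hf _ ⟨v, hv, rfl⟩ α ⟨h1, h2⟩) hL
  refine ⟨hPf.toFinset.image f, ?_, ?_, ?_⟩
  · intro d hd
    obtain ⟨s, hs, rfl⟩ := Finset.mem_image.1 hd
    exact hfC s (hPf.mem_toFinset.1 hs)
  · intro d hd L hL
    obtain ⟨s, hs, rfl⟩ := Finset.mem_image.1 hd
    obtain ⟨v, hv, rfl⟩ := hPf.mem_toFinset.1 hs
    exact (key v hv L hL).symm.regV (hv L hL)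
  · intro v hv
    exact ⟨_, Finset.mem_image.2 ⟨_, hPf.mem_toFinset.2 ⟨v, hv, rfl⟩, rfl⟩, key v hv⟩
theorem Dirs.dir {M : Model h k} {𝒟 : Finset M.G} (h𝒟 : M.Dirs 𝒟) {d : M.G} (hd : d ∈ 𝒟) {L : Mat k} (hL : L ∈ M.W1) :
    ∃ d' ∈ 𝒟, M.Dir L d d' := by
  have hu : IsUnit L.det := isUnit_iff_ne_zero.2 hL.1
  obtain ⟨d', hd', hs⟩ := h𝒟.rep (L *ᵥ M.chi d) fun L' hL' => by
    rw [mulVec_mulVec]; exact h𝒟.reg d hd _ (M.mul_mem_W1 hL' hL)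
  have h1 := hs 1 M.one_mem_W1
  have h2 := hs _ (M.inv_mem_W1 hL)
  rw [one_mulVec, one_mulVec] at h1
  rw [mulVec_mulVec, nonsing_inv_mul _ hu, one_mulVec] at h2
  have r1 := h𝒟.reg d hd 1 M.one_mem_W1
  have r2 := h𝒟.reg d' hd' 1 M.one_mem_W1
  rw [one_mulVec] at r1 r2
  exact ⟨d', hd', h𝒟.mem d hd, h𝒟.mem d' hd', r1, r2, h1.symm, h2⟩
theorem Dir.symm {M : Model h k} {L : Mat k} (hL : L.det ≠ 0) {d d' : M.G} (hd : M.Dir L d d') : M.Dir L⁻¹ d' d := by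
  refine ⟨hd.mem', hd.mem, hd.reg', hd.reg, hd.bwd, ?_⟩
  rw [nonsing_inv_nonsing_inv _ (isUnit_iff_ne_zero.2 hL)]
  exact hd.fwd
/-- a direction separating a root `α` from a root `γ` not on its ray -/
theorem Dirs.sep {M : Model h k} {𝒟 : Finset M.G} (h𝒟 : M.Dirs 𝒟) {i j : Fin h} (hi : M.wt i ≠ 0) (hj : M.wt j ≠ 0)
    (hn : ¬∃ c : ℝ, 0 < c ∧ M.wt j = c • M.wt i) : ∃ d ∈ 𝒟, 0 < M.wt i ⬝ᵥ M.chi d ∧ M.wt j ⬝ᵥ M.chi d < 0 := by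
  obtain ⟨v, hv1, hv2⟩ := exists_sep_ray hi hj hn
  have hfin : {α : Fin k → ℝ | ∃ L ∈ M.W1, ∃ j, M.wt j ≠ 0 ∧ α = M.wt j ᵥ* L}.Finite :=
    M.alg_finite_arr.subset fun α ⟨L, hL, j, _, hα⟩ => ⟨L, hL, j, Or.inl hα⟩
  have h0 : (0 : Fin k → ℝ) ∉ {α : Fin k → ℝ | ∃ L ∈ M.W1, ∃ j, M.wt j ≠ 0 ∧ α = M.wt j ᵥ* L} := by
    rintro ⟨L, hL, j', hj', hα⟩
    apply hj'
    have := congrArg (· ᵥ* L⁻¹) hα
    simp only [vecMul_vecMul, mul_nonsing_inv _ (isUnit_iff_ne_zero.2 hL.1), vecMul_one, zero_vecMul] at this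
    exact this.symm
  obtain ⟨v', h1, h2⟩ := exists_generic (s := {M.wt i, -M.wt j}) (toFinite _) hfin h0 (v := v) (by
    rintro α (rfl | rfl)
    · exact hv1
    · rw [neg_dotProduct]; linarith)
  obtain ⟨d, hd, hs⟩ := h𝒟.rep v' fun L hL j' hj' => by
    rw [dotProduct_mulVec]; exact h2 _ ⟨L, hL, j', hj', rfl⟩
  have h3 := hs 1 M.one_mem_W1
  rw [one_mulVec, one_mulVec] at h3
  have h4 := h1 _ (Or.inr rfl)
  rw [neg_dotProduct] at h4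
  exact ⟨d, hd, (h3 i).1.2 (h1 _ (Or.inl rfl)), (h3 j).2.2 (by linarith)⟩
/-- the unit vector on a ray -/
def alhN (x : Fin k → ℝ) : Fin k → ℝ := ‖x‖⁻¹ • x
omit M in
theorem alhN_smul {c : ℝ} (hc : 0 < c) (x : Fin k → ℝ) : alhN (c • x) = alhN x := by
  rw [alhN, alhN, norm_smul, Real.norm_of_nonneg hc.le, smul_smul, mul_inv, mul_right_comm, inv_mul_cancel₀ hc.ne', one_mul]
omit M in
theorem alhN_pos {x : Fin k → ℝ} (hx : x ≠ 0) (v : Fin k → ℝ) : 0 < alhN x ⬝ᵥ v ↔ 0 < x ⬝ᵥ v := by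
  rw [alhN, smul_dotProduct, smul_eq_mul, mul_pos_iff_of_pos_left (inv_pos.2 (norm_pos_iff.2 hx))]
omit M in
theorem alh_card {R : Set (Fin k → ℝ)} (hR : R.Finite) (h0 : ∀ β ∈ R, β ≠ 0) {L : Mat k} (hd : L.det ≠ 0)
    (hL : ∀ β ∈ R, ∃ α ∈ R, ∃ c : ℝ, 0 < c ∧ β ᵥ* L = c • α) (v : Fin k → ℝ) :
    {x ∈ alhN '' R | 0 < x ⬝ᵥ L *ᵥ v}.ncard = {x ∈ alhN '' R | 0 < x ⬝ᵥ v}.ncard := by
  have hinj : Function.Injective fun x : Fin k → ℝ => x ᵥ* L :=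
    Matrix.vecMul_injective_iff_isUnit.2 ((Matrix.isUnit_iff_isUnit_det L).2 (isUnit_iff_ne_zero.2 hd))
  have hp : ∀ β ∈ R, 0 < ‖β‖⁻¹ := fun β hβ => inv_pos.2 (norm_pos_iff.2 (h0 β hβ))
  have hne : ∀ x ∈ alhN '' R, x ᵥ* L ≠ 0 := by
    rintro _ ⟨β, hβ, rfl⟩ e
    exact smul_ne_zero (hp β hβ).ne' (h0 β hβ) (hinj (e.trans (Matrix.zero_vecMul L).symm))
  have hm : MapsTo (fun x => alhN (x ᵥ* L)) (alhN '' R) (alhN '' R) := by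
    rintro _ ⟨β, hβ, rfl⟩
    obtain ⟨α, hα, c, hc, e⟩ := hL β hβ
    refine ⟨α, hα, ?_⟩
    change _ = alhN ((‖β‖⁻¹ • β) ᵥ* L)
    rw [Matrix.smul_vecMul, e, alhN_smul (hp β hβ), alhN_smul hc]
  have hi : InjOn (fun x => alhN (x ᵥ* L)) (alhN '' R) := by
    intro x hx y hy e
    have e1 : ‖x ᵥ* L‖⁻¹ • x = ‖y ᵥ* L‖⁻¹ • y := hinj (by simpa only [Matrix.smul_vecMul, alhN] using e)
    have e2 := congrArg alhN e1
    rw [alhN_smul (inv_pos.2 (norm_pos_iff.2 (hne x hx))), alhN_smul (inv_pos.2 (norm_pos_iff.2 (hne y hy)))] at e2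
    obtain ⟨β, hβ, rfl⟩ := hx
    obtain ⟨γ, hγ, rfl⟩ := hy
    exact (alhN_smul (hp β hβ) β).symm.trans (e2.trans (alhN_smul (hp γ hγ) γ))
  have hb := ((hR.image alhN).injOn_iff_bijOn_of_mapsTo hm).1 hi
  refine Set.ncard_congr (fun x _ => alhN (x ᵥ* L)) (fun x hx => ⟨hm hx.1, ?_⟩) (fun x y hx hy e => hi hx.1 hy.1 e)
    fun y hy => ?_
  · rw [alhN_pos (hne x hx.1), ← Matrix.dotProduct_mulVec]
    exact hx.2
  · obtain ⟨x, hx, rfl⟩ := hb.surjOn hy.1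
    refine ⟨x, ⟨hx, ?_⟩, rfl⟩
    rw [Matrix.dotProduct_mulVec, ← alhN_pos (hne x hx)]
    exact hy.2
/-- Ray count.  `L ∈ W1` permutes the rays through `R1`, so the number of rays positive on `L *ᵥ v` does not depend on `L`. -/
theorem pos_eq_of_subset {L L' : Mat k} (hL : L ∈ M.W1) (hL' : L' ∈ M.W1) {v : Fin k → ℝ}
    (hs : ∀ β ∈ M.R1, 0 < β ⬝ᵥ L *ᵥ v → 0 < β ⬝ᵥ L' *ᵥ v) : ∀ β ∈ M.R1, 0 < β ⬝ᵥ L' *ᵥ v → 0 < β ⬝ᵥ L *ᵥ v := by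
  have h0 : ∀ β ∈ M.R1, β ≠ 0 := fun β hβ => hβ.1
  have e : {x ∈ alhN '' M.R1 | 0 < x ⬝ᵥ L *ᵥ v} = {x ∈ alhN '' M.R1 | 0 < x ⬝ᵥ L' *ᵥ v} := by
    refine Set.eq_of_subset_of_ncard_le ?_ ?_ ((M.finite_R1.image _).subset fun x hx => hx.1)
    · rintro _ ⟨⟨β, hβ, rfl⟩, hx⟩
      exact ⟨⟨β, hβ, rfl⟩, (alhN_pos (h0 β hβ) _).2 (hs β hβ ((alhN_pos (h0 β hβ) _).1 hx))⟩
    · rw [alh_card M.finite_R1 h0 hL.1 hL.2.2, alh_card M.finite_R1 h0 hL'.1 hL'.2.2]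
  intro β hβ hp
  have hx : alhN β ∈ {x ∈ alhN '' M.R1 | 0 < x ⬝ᵥ L' *ᵥ v} := ⟨⟨β, hβ, rfl⟩, (alhN_pos (h0 β hβ) _).2 hp⟩
  rw [← e] at hx
  exact (alhN_pos (h0 β hβ) _).1 hx.2
theorem ali_core {L L' : Mat k} (hL : L ∈ M.W1) (hL' : L' ∈ M.W1)
    (hq : ∀ u, (∀ T ∈ M.W1, M.RegV (T *ᵥ u)) → (∀ β ∈ M.R1, (0 < β ⬝ᵥ L *ᵥ u ↔ 0 < β ⬝ᵥ L' *ᵥ u)) ∨
      ∀ β ∈ M.R1, (0 < β ⬝ᵥ L *ᵥ (-u) ↔ 0 < β ⬝ᵥ L' *ᵥ (-u))) : L = L' := by
  have hne : ∀ {T : Mat k} {β : Fin k → ℝ}, T ∈ M.W1 → β ≠ 0 → β ᵥ* T ≠ 0 := fun hT hβ h0 =>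
    hβ (Matrix.eq_zero_of_vecMul_eq_zero hT.1 h0)
  have h1 : ∀ β ∈ M.R1, ∃ c : ℝ, 0 < c ∧ β ᵥ* L' = c • (β ᵥ* L) := by
    intro β hβ
    by_contra hn
    obtain ⟨v, hv1, hv2⟩ := exists_sep_ray (hne hL hβ.1) (hne hL' hβ.1) hn
    obtain ⟨u, hu1, hu2⟩ := exists_generic (s := {β ᵥ* L, -(β ᵥ* L')})
      (s' := image2 (fun j T => M.wt j ᵥ* T) {j | M.wt j ≠ 0} M.W1) (toFinite _) ((toFinite _).image2 _ M.finite_W1)
      (by rintro ⟨j, hj, T, hT, e⟩; exact hne hT hj e) (v := v) (by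
        rintro α (rfl | rfl)
        · exact hv1
        · rw [neg_dotProduct]; linarith)
    have a1 := hu1 _ (Or.inl rfl)
    have a2 := hu1 _ (Or.inr rfl)
    rw [neg_dotProduct, ← dotProduct_mulVec] at a2
    rw [← dotProduct_mulVec] at a1
    rcases hq u (fun T hT j hj => by rw [dotProduct_mulVec]; exact hu2 _ ⟨j, hj, T, hT, rfl⟩) with h | h
    · linarith [(h β hβ).1 a1]
    · have := (h β hβ).2 (by rw [mulVec_neg, dotProduct_neg]; exact a2)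
      rw [mulVec_neg, dotProduct_neg] at this
      linarith
  have hT : ∀ n : ℕ, (L' * L⁻¹) ^ n ∈ M.W1 := fun n => by
    induction n with
    | zero => rw [pow_zero]; exact M.one_mem_W1
    | succ n ih => rw [pow_succ]; exact M.mul_mem_W1 ih (M.mul_mem_W1 hL' (M.inv_mem_W1 hL))
  obtain ⟨a, b, hab, e⟩ := M.finite_W1.exists_lt_map_eq_of_forall_mem hT
  have h2 : ∀ β ∈ M.R1, β ᵥ* L' = β ᵥ* L := by
    intro β hβ
    obtain ⟨c, hc, e1⟩ := h1 β hβ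
    have e2 : β ᵥ* (L' * L⁻¹) = c • β := by
      rw [← vecMul_vecMul, e1, smul_vecMul, vecMul_vecMul, mul_nonsing_inv _ (isUnit_iff_ne_zero.2 hL.1), vecMul_one]
    have e3 : ∀ n : ℕ, β ᵥ* (L' * L⁻¹) ^ n = c ^ n • β := fun n => by
      induction n with
      | zero => simp
      | succ n ih => rw [pow_succ, ← vecMul_vecMul, ih, smul_vecMul, e2, smul_smul, pow_succ]
    have e4 : c ^ a = c ^ b := smul_left_injective ℝ hβ.1 (by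
      show c ^ a • β = c ^ b • β
      rw [← e3, ← e3]
      exact congrArg (β ᵥ* ·) e)
    have e5 : c = 1 := by
      by_contra hc1
      exact hab.ne (pow_right_injective₀ hc hc1 e4)
    rw [e1, e5, one_smul]
  refine Matrix.ext_of_mulVec_single fun i => sub_eq_zero.1 (M.span_wt _ fun j hj => ?_)
  by_cases h0 : M.wt j = 0
  · rw [h0, zero_dotProduct]
  · rw [dotProduct_sub, dotProduct_mulVec, dotProduct_mulVec, h2 _ ⟨h0, j, hj, rfl⟩, sub_self]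

theorem ali_rep {M : Model h k} {L L' : Mat k} (hL : L ∈ M.W1) (hL' : L' ∈ M.W1) {u u' : Fin k → ℝ}
    (hs : ∀ T ∈ M.W1, M.Sim (T *ᵥ u') (T *ᵥ u)) (hp : ∀ β ∈ M.R1, (0 < β ⬝ᵥ L *ᵥ u' ↔ 0 < β ⬝ᵥ L' *ᵥ u')) :
    ∀ β ∈ M.R1, (0 < β ⬝ᵥ L *ᵥ u ↔ 0 < β ⬝ᵥ L' *ᵥ u) := by
  rintro β ⟨h0, i, hi, rfl⟩
  rw [← (hs L hL i).1, ← (hs L' hL' i).1]
  exact hp _ ⟨h0, i, hi, rfl⟩

/-- If the sign patterns agree on a half space then `β ᵥ* L` and `β ᵥ* L'` are positively proportional for all `β ∈ R1` (`exists_sep_ray`,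
replace `v` by `-v`, `exists_generic`, `Dirs.rep`); `L' * L⁻¹` has finite order and `R1` is a spanning set of eigenvectors with positive
eigenvalues, so it is `1`. -/
theorem Dirs.eq_of_pattern {M : Model h k} {𝒟 : Finset M.G} (h𝒟 : M.Dirs 𝒟) {L L' : Mat k} (hL : L ∈ M.W1) (hL' : L' ∈ M.W1)
    {j : Fin h} (hj : M.wt j ≠ 0) (hp : ∀ d ∈ 𝒟, 0 < M.wt j ⬝ᵥ M.chi d → ∀ β ∈ M.R1,
      (0 < β ⬝ᵥ L *ᵥ M.chi d ↔ 0 < β ⬝ᵥ L' *ᵥ M.chi d)) : L = L' := by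
  have key : ∀ u, (∀ T ∈ M.W1, M.RegV (T *ᵥ u)) → 0 < M.wt j ⬝ᵥ u →
      ∀ β ∈ M.R1, (0 < β ⬝ᵥ L *ᵥ u ↔ 0 < β ⬝ᵥ L' *ᵥ u) := fun u hu h0 => by
    obtain ⟨d, hd, hs⟩ := h𝒟.rep u hu
    have h1 := (hs 1 M.one_mem_W1 j).1
    rw [one_mulVec, one_mulVec] at h1
    exact ali_rep hL hL' hs (hp d hd (h1.2 h0))
  refine M.ali_core hL hL' fun u hu => ?_
  have h0 := hu 1 M.one_mem_W1 j hj
  rw [one_mulVec] at h0
  rcases h0.lt_or_gt with h1 | h1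
  · refine Or.inr (key (-u) (fun T hT i hi => ?_) (by rw [dotProduct_neg]; linarith))
    rw [mulVec_neg, dotProduct_neg]
    exact neg_ne_zero.2 (hu T hT i hi)
  · exact Or.inl (key u hu h1)
theorem Dirs.eq_of_pattern' {M : Model h k} {𝒟 : Finset M.G} (h𝒟 : M.Dirs 𝒟) {L L' : Mat k} (hL : L ∈ M.W1) (hL' : L' ∈ M.W1)
    (hp : ∀ d ∈ 𝒟, ∀ β ∈ M.R1, (0 < β ⬝ᵥ L *ᵥ M.chi d ↔ 0 < β ⬝ᵥ L' *ᵥ M.chi d)) : L = L' := by
  refine M.ali_core hL hL' fun u hu => Or.inl ?_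
  obtain ⟨d, hd, hs⟩ := h𝒟.rep u hu
  exact ali_rep hL hL' hs (hp d hd)
theorem alj_norm {s : Set (Fin k → ℝ)} (hs : s.Finite) (h0 : ∀ a, (∀ r ∈ s, r ⬝ᵥ a = 0) → a = 0) :
    ∃ B : ℝ, 0 < B ∧ ∀ (a : Fin k → ℝ) (H : ℝ), 0 ≤ H → (∀ r ∈ s, |r ⬝ᵥ a| ≤ H) → ‖a‖ ≤ B * H := by
  have := hs.fintype
  let T : (Fin k → ℝ) →ₗ[ℝ] (s → ℝ) :=
    { toFun := fun a r => (r : Fin k → ℝ) ⬝ᵥ a
      map_add' := fun a b => by ext r; simp
      map_smul' := fun c a => by ext r; simp }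
  have hT : LinearMap.ker T = ⊥ := LinearMap.ker_eq_bot'.2 fun a ha => h0 a fun r hr => congrFun ha ⟨r, hr⟩
  obtain ⟨K, hK, hA⟩ := T.exists_antilipschitzWith hT
  refine ⟨K, hK, fun a H hH ha => ?_⟩
  have h1 := hA.le_mul_norm (map_zero T) a
  have h2 : ‖T a‖ ≤ H := (pi_norm_le_iff_of_nonneg hH).2 fun r => ha r r.2
  exact h1.trans (by gcongr)

theorem alj_key {M : Model h k} {𝒟 : Finset M.G} (h𝒟 : M.Dirs 𝒟) {L : Mat k} (hL : L ∈ M.W1) {j : Fin h}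
    (hj : M.wt j ≠ 0) {b : Fin k → ℝ} (hb : L *ᵥ b ≠ 0) (hjb : 0 ≤ M.wt j ⬝ᵥ b) :
    ∃ d ∈ 𝒟, 0 < M.wt j ⬝ᵥ M.chi d ∧ 0 < M.rb (M.mI (L *ᵥ M.chi d)) ⬝ᵥ L *ᵥ b := by
  let s : Set (Fin k → ℝ) := {α | (α ∈ range (fun i => M.wt i ᵥ* L) ∪ range fun i => -(M.wt i ᵥ* L)) ∧ 0 < α ⬝ᵥ b}
  have hs : s.Finite := ((finite_range _).union (finite_range _)).subset fun α hα => hα.1
  have h1 : ∀ᶠ ε in 𝓝[>] (0 : ℝ), ∀ α ∈ s, 0 < α ⬝ᵥ (b + ε • M.wt j) := by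
    refine (hs.eventually_all.2 fun α hα => ?_).filter_mono nhdsWithin_le_nhds
    have hc : Continuous fun ε : ℝ => α ⬝ᵥ (b + ε • M.wt j) := by fun_prop
    exact hc.continuousAt.eventually (lt_mem_nhds (by simpa using hα.2))
  obtain ⟨ε, h2, hε⟩ := (h1.and self_mem_nhdsWithin).exists
  have hε : 0 < ε := hε
  let s' : Set (Fin k → ℝ) := (fun q : Mat k × Fin h => M.wt q.2 ᵥ* q.1) '' (M.W1 ×ˢ {i | M.wt i ≠ 0})
  have hs' : s'.Finite := (M.finite_W1.prod (toFinite _)).image _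
  have h0 : (0 : Fin k → ℝ) ∉ s' := by
    rintro ⟨⟨L', i⟩, ⟨hL', hi⟩, he⟩
    exact hi (Matrix.eq_zero_of_vecMul_eq_zero hL'.1 he)
  obtain ⟨v, hv, hv'⟩ := exists_generic (hs.insert (M.wt j)) hs' h0 (v := b + ε • M.wt j) (by
    rintro α (rfl | hα)
    · have : 0 < M.wt j ⬝ᵥ M.wt j := by rw [← nm_sq]; exact pow_pos (nm_pos hj) 2
      rw [dotProduct_add, dotProduct_smul, smul_eq_mul]
      positivity
    · exact h2 α hα)
  have hreg : ∀ L' ∈ M.W1, M.RegV (L' *ᵥ v) := fun L' hL' i hi => by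
    rw [dotProduct_mulVec]
    exact hv' _ ⟨(L', i), ⟨hL', hi⟩, rfl⟩
  obtain ⟨d, hd, hsim⟩ := h𝒟.rep v hreg
  refine ⟨d, hd, ?_, ?_⟩
  · have := (hsim 1 M.one_mem_W1 j).1
    rw [one_mulVec, one_mulVec] at this
    exact this.2 (hv _ (mem_insert _ _))
  · rw [M.mI_congr (hsim L hL)]
    refine M.rb_mI_pos (hreg L hL) hb (fun i hi => ?_) fun i hi => ?_
    · by_contra hn
      rw [not_le, dotProduct_mulVec] at hn
      have := hv _ (mem_insert_of_mem _ (show -(M.wt i ᵥ* L) ∈ s from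
        ⟨Or.inr ⟨i, rfl⟩, by rw [neg_dotProduct]; linarith⟩))
      rw [neg_dotProduct, ← dotProduct_mulVec] at this
      linarith
    · rw [dotProduct_mulVec] at hi ⊢
      exact hv _ (mem_insert_of_mem _ ⟨Or.inl ⟨i, rfl⟩, hi⟩)

/-- The `rb (mI (L *ᵥ chi d))`, `d` in a half space, span.  For `a ≠ 0` with (up to sign) `0 ≤ wt j ⬝ᵥ L⁻¹ *ᵥ a` take
`v' = a + small generic` with `0 < wt j ⬝ᵥ L⁻¹ *ᵥ v'`, `rb_mI_pos`; finitely many `L`, `j`; finite dimension. -/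
theorem Dirs.span {M : Model h k} {𝒟 : Finset M.G} (h𝒟 : M.Dirs 𝒟) : ∃ B : ℝ, 0 < B ∧ ∀ L ∈ M.W1, ∀ j, M.wt j ≠ 0 →
    ∀ (a : Fin k → ℝ) (H : ℝ), 0 ≤ H → (∀ d ∈ 𝒟, 0 < M.wt j ⬝ᵥ M.chi d → |M.rb (M.mI (L *ᵥ M.chi d)) ⬝ᵥ a| ≤ H) →
      ‖a‖ ≤ B * H := by
  have key : ∀ q : Mat k × Fin h, ∃ B : ℝ, q.1 ∈ M.W1 → M.wt q.2 ≠ 0 →
      ∀ (a : Fin k → ℝ) (H : ℝ), 0 ≤ H →
        (∀ d ∈ 𝒟, 0 < M.wt q.2 ⬝ᵥ M.chi d → |M.rb (M.mI (q.1 *ᵥ M.chi d)) ⬝ᵥ a| ≤ H) → ‖a‖ ≤ B * H := by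
    rintro ⟨L, j⟩
    by_cases hq : L ∈ M.W1 ∧ M.wt j ≠ 0
    swap
    · exact ⟨0, fun h1 h2 => absurd ⟨h1, h2⟩ hq⟩
    obtain ⟨hL, hj⟩ := hq
    obtain ⟨B, -, hB⟩ := alj_norm (s := (fun d => M.rb (M.mI (L *ᵥ M.chi d))) '' {d | d ∈ 𝒟 ∧ 0 < M.wt j ⬝ᵥ M.chi d})
      ((𝒟.finite_toSet.subset fun d hd => hd.1).image _) (fun a ha => by
        by_contra hn
        have e : L *ᵥ (L⁻¹ *ᵥ a) = a := by
          rw [mulVec_mulVec, Matrix.mul_nonsing_inv _ (isUnit_iff_ne_zero.2 hL.1), one_mulVec]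
        rcases le_total 0 (M.wt j ⬝ᵥ L⁻¹ *ᵥ a) with h1 | h1
        · obtain ⟨d, hd, h2, h3⟩ := alj_key h𝒟 hL hj (b := L⁻¹ *ᵥ a) (by rwa [e]) h1
          rw [e, ha _ ⟨d, ⟨hd, h2⟩, rfl⟩] at h3
          exact lt_irrefl _ h3
        · obtain ⟨d, hd, h2, h3⟩ := alj_key h𝒟 hL hj (b := -(L⁻¹ *ᵥ a)) (by rwa [mulVec_neg, e, neg_ne_zero])
            (by rw [dotProduct_neg]; linarith)
          rw [mulVec_neg, e, dotProduct_neg, ha _ ⟨d, ⟨hd, h2⟩, rfl⟩, neg_zero] at h3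
          exact lt_irrefl _ h3)
    refine ⟨B, fun _ _ a H hH ha => hB a H hH ?_⟩
    rintro _ ⟨d, hd, rfl⟩
    exact ha d hd.1 hd.2
  choose B hB using key
  obtain ⟨B₀, hB₀⟩ := ((M.finite_W1.prod (finite_univ (α := Fin h))).image B).bddAbove
  refine ⟨max B₀ 1, lt_max_of_lt_right one_pos, fun L hL j hj a H hH ha => (hB (L, j) hL hj a H hH ha).trans ?_⟩
  have := hB₀ ⟨(L, j), ⟨hL, mem_univ _⟩, rfl⟩
  gcongr
  exact this.trans (le_max_left _ _)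
theorem Dirs.span' {M : Model h k} {𝒟 : Finset M.G} (h𝒟 : M.Dirs 𝒟) : ∃ B : ℝ, 0 < B ∧ ∀ L ∈ M.W1,
    ∀ (a : Fin k → ℝ) (H : ℝ), 0 ≤ H → (∀ d ∈ 𝒟, |M.rb (M.mI (L *ᵥ M.chi d)) ⬝ᵥ a| ≤ H) → ‖a‖ ≤ B * H := by
  obtain ⟨B, hB, H⟩ := h𝒟.span
  refine ⟨B, hB, fun L hL a H' hH ha => ?_⟩
  by_cases h0 : a = 0
  · rw [h0, norm_zero]; positivity
  · obtain ⟨j, hj⟩ : ∃ j, M.wt j ≠ 0 := by
      by_contra hn
      push Not at hn
      exact h0 (M.proper a fun j => by rw [hn j, zero_dotProduct])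
    exact H L hL j hj a H' hH fun d hd _ => ha d hd

end Model

end Crest.Agent.R182
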