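import Crest.Agent.R182.B.B1B

/-! R182/B/B1: sublinear error (public statements FROZEN; `step` is in B/B1A) -/

set_option autoImplicit false
set_option linter.unusedVariables false
set_option linter.unusedSectionVars false
open Set Filter Topology MeasureTheory ProbabilityTheory Matrix Crest.GroupTheory
open scoped Pointwise commutatorElement ENNReal

noncomputable section
namespace Crest.Agent.R182

namespace Model
variable {h k : ℕ} (M : Model h k)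

omit M in
/-- The geometric chain.  `T p 0 = T p n` for all `n` (`g = 1`), `‖κ p 0 - κ p n‖ ≤ ζ W₀ (lam ^ n - 1) / (lam - 1)`.  For `p, g` take `n` minimal with
`ℓ g ≤ a * (W₀ * lam ^ n)`, so that `W₀ * lam ^ n ≤ W₀ + lam * ℓ g / a`. -/
theorem _root_.Crest.Agent.R182.geo_chain {G S E : Type*} [Group G] [NormedAddCommGroup E] (ℓ : G → ℝ) (h0 : ∀ g, 0 ≤ ℓ g) (h1 : ℓ 1 = 0)
    (T : G → ℕ → S) (κ : G → ℕ → E) {W₀ lam a ζ : ℝ} (hW : 0 < W₀) (hl : 1 < lam) (ha : 0 < a) (hζ : 0 ≤ ζ)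
    (H : ∀ p g n, ℓ g ≤ a * (W₀ * lam ^ n) → T p (n + 1) = T (p * g) n ∧ ‖κ p (n + 1) - κ (p * g) n‖ ≤ ζ * (W₀ * lam ^ n)) (p g : G) :
    T (p * g) 0 = T p 0 ∧ ‖κ (p * g) 0 - κ p 0‖ ≤ 2 * ζ * (lam / (lam - 1)) * (W₀ + lam * ℓ g / a) := by
  classical
  have hl' : 0 < lam - 1 := by linarith
  have A : ∀ p n, T p n = T p 0 ∧ ‖κ p n - κ p 0‖ ≤ ζ * (W₀ * (lam ^ n - 1)) / (lam - 1) := fun p n => by
    induction n with
    | zero => simp
    | succ n ih =>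
      obtain ⟨a1, a2⟩ := H p 1 n (by rw [h1]; positivity)
      rw [mul_one] at a1 a2
      refine ⟨a1.trans ih.1, (norm_sub_le_norm_sub_add_norm_sub _ (κ p n) _).trans ((add_le_add a2 ih.2).trans_eq ?_)⟩
      field_simp
      ring
  have hex : ∃ n : ℕ, ℓ g ≤ a * (W₀ * lam ^ n) := by
    obtain ⟨n, hn⟩ := pow_unbounded_of_one_lt (ℓ g / (a * W₀)) hl
    rw [div_lt_iff₀ (by positivity)] at hn
    exact ⟨n, by linarith⟩
  obtain ⟨n, hn, hm⟩ : ∃ n : ℕ, ℓ g ≤ a * (W₀ * lam ^ n) ∧ W₀ * lam ^ n ≤ W₀ + lam * ℓ g / a := by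
    refine ⟨Nat.find hex, Nat.find_spec hex, ?_⟩
    have h2 : 0 ≤ lam * ℓ g / a := by have := h0 g; positivity
    rcases hn : Nat.find hex with _ | m
    · simpa using h2
    · have h3 := not_le.1 (Nat.find_min hex (m := m) (by omega))
      have h4 : W₀ * lam ^ (m + 1) ≤ lam * ℓ g / a := by
        rw [le_div_iff₀ ha, pow_succ]
        nlinarith
      linarith
  obtain ⟨a1, a2⟩ := H p g n hn
  refine ⟨(A _ n).1.symm.trans (a1.symm.trans (A p _).1), ?_⟩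
  have a3 := (A (p * g) n).2
  have a4 := (A p (n + 1)).2
  rw [norm_sub_rev] at a2 a3
  refine (norm_sub_le_norm_sub_add_norm_sub _ (κ (p * g) n) _).trans ((add_le_add a3
    ((norm_sub_le_norm_sub_add_norm_sub _ (κ p (n + 1)) _).trans (add_le_add a2 a4))).trans ?_)
  refine le_trans ?_ (mul_le_mul_of_nonneg_left hm (by positivity))
  rw [show ζ * (W₀ * (lam ^ n - 1)) / (lam - 1) + (ζ * (W₀ * lam ^ n) + ζ * (W₀ * (lam ^ (n + 1) - 1)) / (lam - 1)) =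
    2 * ζ * (lam / (lam - 1)) * (W₀ * lam ^ n) - 2 * ζ * W₀ / (lam - 1) by field_simp; ring]
  exact sub_le_self _ (by positivity)

/-- `Tp.link`, `exists_Tp` for `F = pins W` (`choose`), `geo_chain`, `Tp.base`, `er_sub` -/
theorem b1 (K ε : ℝ) (hε : 0 < ε) : ∃ B : ℝ, ∀ f : M.QP K, ∃ L ∈ M.W1, M.Prof f.φ L fun n => ε * n + B := by
  obtain ⟨θ, a, ζ₀, hθ, hθ1, ha, hζ₀, H⟩ := Tp.link M K
  obtain ⟨ζ, hζ, z1, z2, z3⟩ : ∃ ζ : ℝ, 0 < ζ ∧ ζ ≤ ζ₀ ∧ ζ ≤ 1 / 2 ∧ ζ ≤ ε * a * θ / (20 * (1 + θ) ^ 2) :=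
    ⟨min ζ₀ (min (1 / 2) (ε * a * θ / (20 * (1 + θ) ^ 2))), by positivity, min_le_left _ _,
      (min_le_right _ _).trans (min_le_left _ _), (min_le_right _ _).trans (min_le_right _ _)⟩
  obtain ⟨W₁, H1⟩ := H ζ hζ z1
  obtain ⟨W₂, H2⟩ := M.exists_Tp K ζ (k + 1) hζ
  obtain ⟨W, w1, w2, w3⟩ : ∃ W : ℝ, W₁ ≤ W ∧ W₂ ≤ W ∧ 1 ≤ W :=
    ⟨max W₁ (max W₂ 1), le_max_left _ _, (le_max_left _ _).trans (le_max_right _ _), (le_max_right _ _).trans (le_max_right _ _)⟩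
  obtain ⟨B, hB⟩ := Tp.base M K W w3
  have hw : ∀ n : ℕ, W ≤ W * (1 + θ) ^ n := fun n => le_mul_of_one_le_right (by linarith) (one_le_pow₀ (by linarith))
  refine ⟨2 * B + 2 * (10 * ζ) * ((1 + θ) / (1 + θ - 1)) * W, fun f => ?_⟩
  have hex : ∀ (p : M.G) (n : ℕ), ∃ L ∈ M.W1, ∃ κ, M.Tp f.φ p (W * (1 + θ) ^ n) (M.pins (W * (1 + θ) ^ n)) L κ ζ := fun p n => by
    have h1 := w3.trans (hw n)
    refine H2 f p _ _ (w2.trans (hw n)) (M.card_pins _) ((M.pins_subset (by linarith)).trans ((M.ballCR_subset_ballR _).trans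
      ((M.ballR_subset_Adm _).trans (M.Adm_mono ?_ (by linarith)))))
    have : (0 : ℝ) ≤ k := Nat.cast_nonneg k
    push_cast
    nlinarith
  choose T hT κ hκ using hex
  have G := geo_chain (fun g : M.G => (M.len g : ℝ)) (fun g => Nat.cast_nonneg _) (by simp [M.len_one]) T κ (W₀ := W) (lam := 1 + θ)
    (a := a) (ζ := 10 * ζ) (by linarith) (by linarith) ha (by positivity) fun p g n hg =>
      H1 f p g _ _ _ _ (hT p (n + 1)) _ (hT (p * g) n) (w1.trans (hw n)) hg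
        (by rw [show (1 + θ) * (W * (1 + θ) ^ n) = W * (1 + θ) ^ (n + 1) by ring]; exact hκ p (n + 1)) (hκ (p * g) n)
  have hb : ∀ p, ‖κ p 0 - M.er f.φ (T 1 0) p‖ ≤ B := fun p => by
    have h1 := hκ p 0
    have h2 := (G 1 p).1
    rw [one_mul] at h2
    rw [pow_zero, mul_one, h2] at h1
    exact hB f p _ _ ζ _ (hT 1 0) hζ z2 (M.one_mem_pins W) h1
  refine ⟨T 1 0, hT 1 0, fun p g => ?_⟩
  have h1 := (G p g).2
  have h2 := hb (p * g)
  have h3 := hb p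
  rw [norm_sub_rev] at h2
  rw [← M.er_sub]
  refine (norm_sub_le_norm_sub_add_norm_sub _ (κ (p * g) 0) _).trans ((add_le_add h2
    ((norm_sub_le_norm_sub_add_norm_sub _ (κ p 0) _).trans (add_le_add h1 h3))).trans ?_)
  have h4 : 2 * (10 * ζ) * ((1 + θ) / (1 + θ - 1)) * ((1 + θ) / a) ≤ ε := by
    rw [le_div_iff₀ (by positivity)] at z3
    rw [add_sub_cancel_left, show 2 * (10 * ζ) * ((1 + θ) / θ) * ((1 + θ) / a) = ζ * (20 * (1 + θ) ^ 2) / (a * θ) by field_simp; ring,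
      div_le_iff₀ (by positivity)]
    linarith
  have h5 := mul_le_mul_of_nonneg_right h4 (Nat.cast_nonneg (α := ℝ) (M.len g))
  rw [show (1 + θ) * (M.len g : ℝ) / a = (1 + θ) / a * M.len g by ring]
  beta_reduce
  linarith

end Model

end Crest.Agent.R182
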