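import Crest.Agent.R182.B.LINK

/-! R182/B/B1A: STEP (owner helper34) -/

set_option autoImplicit false
set_option linter.unusedVariables false
set_option linter.unusedSectionVars false
open Set Filter Topology MeasureTheory ProbabilityTheory Matrix Crest.GroupTheory
open scoped Pointwise commutatorElement ENNReal

noncomputable section
namespace Crest.Agent.R182

namespace Model
variable {h k : ℕ} (M : Model h k)

theorem isCompact_RV' (w : ℝ) : IsCompact (M.RV w) := by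
  exact M.bxb_compact_RV w

/-- `isProbabilityMeasure_lw_Box`, `lw_apply` -/
theorem hV_Box_pos (w : ℝ) : 0 < hV M.E (M.Qi (M.RV w) 1) := by
  have h0 := (M.isProbabilityMeasure_lw_Box one_pos w).ne_zero
  rw [lw, Ne, cond_eq_zero, not_or, hm_exp, one_smul] at h0
  exact pos_iff_ne_zero.2 h0.2

/-- `lw_Inv` with `t = 1`, `𝒱 = RV W` -/
theorem lw_Box_Inv : ∃ D : ℝ, 1 ≤ D ∧ ∀ (W σ : ℝ), 0 ≤ σ → σ ≤ 1 → ∀ Y ∈ σ • M.Box W, ∀ A : Set M.G,
    M.lw M.E (M.Box W) {x | x * M.exp Y ∈ A} ≤ M.lw M.E (M.Box W) A + ENNReal.ofReal (D * σ) ∧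
    M.lw M.E (M.Box W) {x | M.exp Y * x ∈ A} ≤ M.lw M.E (M.Box W) A + ENNReal.ofReal (D * σ) := by
  obtain ⟨D, hD, hb⟩ := M.lw_Inv le_rfl
  refine ⟨D, hD, fun W σ h0 h1 Y hY A => ?_⟩
  have hE : Y ∈ M.E := by
    obtain ⟨X, hX, rfl⟩ := hY
    exact M.E.smul_mem _ (M.Box_subset_E W hX)
  have := hb M.E (M.RV W) σ (Core.IsIdl.isSub _ M.isIdl_E) (M.star_RV W) (M.isCompact_RV' W) (M.hV_Box_pos W) h0 h1 Y hE hY A
  rwa [one_smul] at this

/-- `p y exp Y * exp X = p * (y * exp (Ad (exp Y) X)) * exp Y`; `slack`, `lw_Box_Inv`, `D exp (- b η W) ≤ W⁻¹ ^ 2` for large `W` -/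
theorem inv_law : ∃ b : ℝ, 0 < b ∧ ∀ t η : ℝ, 1 ≤ t → 0 < η → ∃ W₀ : ℝ, ∀ W ≥ W₀, ∀ p : M.G, ∀ Y ∈ t • M.Box ((1 + b * η) * W),
    Inv ((M.lw M.E (M.Box W)).map fun y => p * y * M.exp Y) (M.exp '' M.Box ((1 - η) * W)) (W⁻¹ ^ 2) := by
  obtain ⟨b, hb, hs⟩ := M.slack
  obtain ⟨D, hD, hI⟩ := M.lw_Box_Inv
  refine ⟨b, hb, fun t η ht hη => ?_⟩
  obtain ⟨w₀, hw₀⟩ := hs t η hη
  obtain ⟨w₁, hw₁⟩ := eventually_atTop.1 (bxf_poly D 2 (mul_pos hb hη))
  refine ⟨max (max w₀ w₁) 1, fun W hW p Y hY => ?_⟩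
  simp only [ge_iff_le, max_le_iff] at hW
  obtain ⟨⟨h0, h1⟩, h2⟩ := hW
  rintro _ ⟨X, hX, rfl⟩ A hA
  have hf : Measurable fun y : M.G => p * y * M.exp Y := by fun_prop
  have hZ := hw₀ W h0 Y hY X (M.smul_Qi_mono (M.star_RV _) zero_le_one ht (by rwa [one_smul]))
  rw [Measure.map_apply hf hA, Measure.map_apply hf (measurable_mul_const _ hA)]
  refine le_trans (le_of_eq ?_) ((hI W _ (Real.exp_pos _).le (Real.exp_le_one_iff.2 (neg_nonpos.2 (by positivity))) _ hZ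
    ((fun y : M.G => p * y * M.exp Y) ⁻¹' A)).1.trans (add_le_add le_rfl (ENNReal.ofReal_le_ofReal ?_)))
  · congr 1
    ext y
    simp only [mem_preimage, mem_ofPred_eq, mul_assoc, M.mul_exp (M.exp Y) X]
  · have h3 := hw₁ W h1
    rw [Real.exp_neg, inv_pow, ← div_eq_mul_inv, ← one_div, div_le_div_iff₀ (Real.exp_pos _) (by positivity), one_mul]
    refine le_trans ?_ h3
    gcongr
    linarith

theorem b1ab_RV_mono {w w' : ℝ} (hw : w ≤ w') : M.RV w ⊆ M.RV w' := by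
  rintro X (rfl | ⟨α, h1, h2, h3⟩)
  · exact Or.inl rfl
  · exact Or.inr ⟨α, h1, h2, h3.trans (Real.exp_le_exp.2 (mul_le_mul_of_nonneg_right hw (nm_nonneg α)))⟩

theorem b1ab_chain {φ : M.G → M.G} (μ : Measure M.G) (p : M.G) {𝒱 : Set (V h)} (h0 : (0 : V h) ∈ 𝒱) {F : Finset M.G} {W η₀ z ζ : ℝ}
    {M₀ : ℕ} (hF : M.pins W ⊆ F) (hz : 0 ≤ z) (hζ : 0 ≤ ζ) (hJ : 0 < ⌊W / 8⌋₊) (hzz : 2 * ((M₀ + 1) * z) ≤ η₀ * ⌊W / 8⌋₊)
    (hpin : ∀ q, ∀ L ∈ M.W1, ∀ L' ∈ M.W1, M.Pin φ η₀ ⌊W / 8⌋₊ q L → M.Pin φ η₀ ⌊W / 8⌋₊ q L' → L = L')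
    (hl : ∀ (l : List (V h)) (X : V h), l.length ≤ M₀ → (l ++ [X]).length ≤ M₀ + 1 → (∀ v ∈ l, v ∈ 𝒱) → X ∈ 𝒱 →
      μ {y | ¬∃ L ∈ M.W1, M.Lk φ L z F (p * y * (l.map M.exp).prod) (p * y * (l.map M.exp).prod * M.exp X)} ≤ ENNReal.ofReal ζ)
    (l : List (V h)) : l.length ≤ M₀ → (∀ v ∈ l, v ∈ 𝒱) →
      μ {y | ¬∃ L ∈ M.W1, M.Lk φ L ((l.length + 1) * z) F (p * y) (p * y * (l.map M.exp).prod)} ≤
        ENNReal.ofReal ((l.length + 1) * ζ) := by
  induction l using List.reverseRecOn with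
  | nil =>
    intro _ _
    simpa [M.exp_zero] using hl [] 0 (by simp) (by simp) (by simp) h0
  | append_singleton l X ih =>
    intro h1 h2
    have h3 : l.length ≤ M₀ := by simp at h1; omega
    have h4 : ∀ v ∈ l, v ∈ 𝒱 := fun v hv => h2 v (List.mem_append_left _ hv)
    have h5 := ih h3 h4
    have h6 := hl l X h3 (by omega) h4 (h2 X (by simp))
    have h7 : (l.length : ℝ) ≤ M₀ := by exact_mod_cast h3
    have e : (((l ++ [X]).length : ℝ) + 1) * ζ = (l.length + 1) * ζ + ζ := by simp; ring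
    rw [e, ENNReal.ofReal_add (by positivity) hζ]
    refine (measure_mono fun y hy => ?_).trans ((measure_union_le _ _).trans (add_le_add h5 h6))
    by_contra hn
    simp only [mem_union, mem_ofPred_eq, not_or, not_not] at hn
    obtain ⟨⟨L, hL, k1⟩, L', hL', k2⟩ := hn
    have hM : (0 : ℝ) ≤ M₀ := Nat.cast_nonneg _
    have hlen : (0 : ℝ) ≤ l.length := Nat.cast_nonneg _
    obtain rfl := hpin _ L hL L' hL' (k1.pin_right hF (by nlinarith)) (k2.pin_left hF (by nlinarith))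
    refine hy ⟨L, hL, ?_⟩
    have e2 : (((l ++ [X]).length : ℝ) + 1) * z = (l.length + 1) * z + z := by simp; ring
    rw [e2, List.map_append, List.prod_append, List.map_singleton, List.prod_singleton, ← mul_assoc]
    exact k1.trans k2 (hF (M.one_mem_pins W))

/-- STEP.  `exp Y = u₁ ⋯ u_M` (`exists_reach` for `RV ((1 + θ) W)`), `νⱼ` the law of `p y u₁ ⋯ uⱼ`, `w = (1 - 2 η) W`; `νⱼ` is almost invariant by
`inv_law` (`exists_prod_In`); `link`; add the pins to `F`; chain with `exists_pin'`, `Lk.pin_right`, `Lk.pin_left`, `Lk.trans`.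
Constants: `η = min (1 / 8) (θ_L / (4 (1 + θ_L)))`, `θ = min (b η) (θ_L / 2)`, `N' = 2 (N + k + 1)`, `ζ' = min ζ (η₀ / 32) / (M₀ + 1)`.
Induction on the list `l` (`List.reverseRecOn`): the measure of the set of `y` with no `L` linking `p y` and `p y (l.map exp).prod` at precision
`(l.length + 1) ζ' w` is at most `(l.length + 1) ζ'`; the case `l = []` is `link` with `X = 0`. -/
theorem step (K : ℝ) : ∃ θ : ℝ, 0 < θ ∧ ∀ (ζ : ℝ) (N : ℕ), 0 < ζ → ∃ W₀ : ℝ, ∀ (f : M.QP K) (p : M.G) (W : ℝ) (F : Finset M.G), W₀ ≤ W →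
    F.card ≤ N → ↑F ⊆ M.Adm (N * W) (W / 4) → ∀ Y ∈ (N : ℝ) • M.Box ((1 + θ) * W),
      M.lw M.E (M.Box W) {y | ¬∃ L ∈ M.W1, M.Lk f.φ L (ζ * W) F (p * y) (p * y * M.exp Y)} ≤ ENNReal.ofReal ζ := by
  classical
  obtain ⟨θL, hθL, hlink⟩ := M.link K
  obtain ⟨b, hb, hinv⟩ := M.inv_law
  obtain ⟨η₀, hη₀, hpin⟩ := M.exists_pin'
  set η := min (1 / 8) (θL / (4 * (1 + θL))) with hη
  have hη0 : 0 < η := lt_min (by norm_num) (by positivity)
  have hη1 : η ≤ 1 / 8 := min_le_left _ _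
  have hη2 : η * (4 * (1 + θL)) ≤ θL := (le_div_iff₀ (by positivity)).1 (min_le_right _ _)
  set θ := min (b * η) (θL / 2) with hθ
  have hθ0 : 0 < θ := lt_min (by positivity) (by positivity)
  have hθ1 : θ ≤ b * η := min_le_left _ _
  have hθ2 : θ ≤ θL / 2 := min_le_right _ _
  refine ⟨θ, hθ0, fun ζ N hζ => ?_⟩
  obtain ⟨M₀, hreach⟩ := M.toCore.exists_reach (N : ℝ)
  obtain ⟨D, hD, hprod⟩ := M.toCore.exists_prod_In (M₀ + 1) 1
  obtain ⟨W₁, hW₁⟩ := hinv D η hD hη0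
  set ζ' := min ζ (η₀ / 32) / (M₀ + 1) with hζ'
  have hm : 0 < min ζ (η₀ / 32) := lt_min hζ (by positivity)
  have hζ'0 : 0 < ζ' := by positivity
  have hζ'1 : (M₀ + 1) * ζ' = min ζ (η₀ / 32) := mul_div_cancel₀ _ (by positivity)
  obtain ⟨w₀, hw₀⟩ := hlink η ζ' (2 * (N + k + 1)) hη0 hζ'0
  refine ⟨max (max 16 W₁) (2 * |w₀|), fun f p W F hW hF hFA Y hY => ?_⟩
  have hW16 : 16 ≤ W := ((le_max_left _ _).trans (le_max_left _ _)).trans hW
  have hWW : W₁ ≤ W := ((le_max_right _ _).trans (le_max_left _ _)).trans hW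
  have hW0 : 2 * |w₀| ≤ W := (le_max_right _ _).trans hW
  set w := (1 - 2 * η) * W with hw
  have hw1 : 3 / 4 * W ≤ w := by rw [hw]; nlinarith
  have hw2 : w ≤ W := by rw [hw]; nlinarith
  have hw3 : 0 < w := by linarith
  have hw4 : w₀ ≤ w := by linarith [le_abs_self w₀, abs_nonneg w₀]
  have hP : IsProbabilityMeasure (M.lw M.E (M.Box W)) := by
    have := M.isProbabilityMeasure_lw_Box one_pos W
    rwa [one_smul] at this
  set F' := F ∪ M.pins W with hF'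
  have hc : F'.card ≤ 2 * (N + k + 1) := by
    have h1 : F'.card ≤ F.card + (M.pins W).card := Finset.card_union_le F (M.pins W)
    have h2 := M.card_pins W
    omega
  have hN : (0 : ℝ) ≤ N := Nat.cast_nonneg _
  have hk : (0 : ℝ) ≤ k := Nat.cast_nonneg _
  have hA : (F' : Set M.G) ⊆ M.Adm ((2 * (N + k + 1) : ℕ) * w) (w / 2) := by
    rw [hF', Finset.coe_union]
    push_cast
    refine union_subset (hFA.trans (M.Adm_mono (by nlinarith) (by linarith))) ?_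
    exact (((M.pins_subset (by linarith)).trans (M.ballCR_subset_ballR _)).trans (M.ballR_subset_Adm _)).trans
      (M.Adm_mono (by nlinarith) (by linarith))
  have hmeas : ∀ g : M.G, Measurable fun y : M.G => p * y * g := fun g => by fun_prop
  have hI : ∀ l : List (V h), l.length ≤ M₀ + 1 → (∀ v ∈ l, v ∈ M.RV ((1 + θ) * W)) →
      Inv ((M.lw M.E (M.Box W)).map fun y => p * y * (l.map M.exp).prod) (M.exp '' M.Box ((1 + η) * w)) (w⁻¹ ^ 2) := by
    intro l h1 h2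
    obtain ⟨X, hX, e⟩ := hprod _ (M.star_RV _) l h1 fun v hv => Core.In.of_gen (h2 v hv)
    rw [e]
    refine (hW₁ W hWW p X (smul_set_mono (M.Box_mono (by nlinarith)) hX)).mono
      (image_mono (M.Box_mono ?_)) (by gcongr)
    rw [hw]
    nlinarith [mul_nonneg (mul_nonneg hη0.le hη0.le) (by linarith : (0 : ℝ) ≤ W)]
  have hJ : W / 16 ≤ (⌊W / 8⌋₊ : ℝ) := by linarith [Nat.lt_floor_add_one (W / 8)]
  have hJ0 : 0 < ⌊W / 8⌋₊ := Nat.floor_pos.2 (by linarith)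
  obtain ⟨l, hl1, hl2, hl3⟩ := hreach _ (M.star_RV ((1 + θ) * W)) Y hY
  have hm1 : min ζ (η₀ / 32) ≤ ζ := min_le_left _ _
  have hm2 : min ζ (η₀ / 32) ≤ η₀ / 32 := min_le_right _ _
  have key := M.b1ab_chain (φ := f.φ) (M.lw M.E (M.Box W)) p (𝒱 := M.RV ((1 + θ) * W)) (Or.inl rfl) (F := F') (W := W) (η₀ := η₀)
    (z := ζ' * w) (ζ := ζ') (M₀ := M₀) Finset.subset_union_right (by positivity) hζ'0.le hJ0
    (by rw [← mul_assoc (M₀ + 1 : ℝ), hζ'1]; nlinarith) (fun q L hL L' hL' => hpin f.φ q _ L hL L' hL' hJ0)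
    (fun l X h1 h2 h3 h4 => ?_) l hl1 hl2
  · have h7 : (l.length : ℝ) ≤ M₀ := by exact_mod_cast hl1
    have h8 : (l.length + 1) * ζ' ≤ ζ := by nlinarith
    rw [hl3] at key
    refine (measure_mono fun y hy => ?_).trans (key.trans (ENNReal.ofReal_le_ofReal h8))
    rintro ⟨L, hL, h9⟩
    refine hy ⟨L, hL, h9.mono ?_ Finset.subset_union_left⟩
    rw [← mul_assoc]
    exact mul_le_mul h8 hw2 hw3.le hζ.le
  · have := Measure.isProbabilityMeasure_map (μ := M.lw M.E (M.Box W)) (hmeas (l.map M.exp).prod).aemeasurable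
    have h5 := hI (l ++ [X]) h2 fun v hv => (List.mem_append.1 hv).elim (h3 v) fun hv => by
      rw [List.mem_singleton.1 hv]; exact h4
    have h6 := hw₀ f w _ X F' hw4 this (M.b1ab_RV_mono (by rw [hw]; nlinarith) h4) (hI l (by omega) h3) (by
      rw [Measure.map_map (measurable_mul_const _) (hmeas _)]
      simpa [Function.comp_def, mul_assoc] using h5) hc hA
    exact (Measure.le_map_apply (hmeas _).aemeasurable _).trans h6

end Model

end Crest.Agent.R182
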