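import Crest.Agent.R182.B.B1A

/-! R182/B/B1B: the value `κ` of a box (owner helper34) -/

set_option autoImplicit false
set_option linter.unusedVariables false
set_option linter.unusedSectionVars false
open Set Filter Topology MeasureTheory ProbabilityTheory Matrix Crest.GroupTheory
open scoped Pointwise commutatorElement ENNReal

noncomputable section
namespace Crest.Agent.R182

namespace Model
variable {h k : ℕ} (M : Model h k)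

/-! #### part a -/

theorem b1ba_prob (W : ℝ) : IsProbabilityMeasure (M.lw M.E (M.Box W)) := by
  simpa only [one_smul] using M.isProbabilityMeasure_lw_Box one_pos W

theorem b1ba_good (W : ℝ) {A : Set M.G} (hA : M.lw M.E (M.Box W) A < 1) : ∃ Y ∈ M.Box W, M.exp Y ∉ A := by
  have := M.b1ba_prob W
  by_contra hc
  push Not at hc
  refine hA.not_ge (measure_univ.symm.trans_le (measure_mono_ae ?_))
  refine (show ∀ᵐ x ∂M.lw M.E (M.Box W), x ∈ M.exp '' (M.E ∩ M.Box W) from M.lw_compl M.E (M.isCompact_Box W)).mono ?_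
  rintro _ ⟨Y, hY, rfl⟩ -
  exact hc Y hY.2

omit M in
theorem b1ba_floor {W η ζ : ℝ} (hW : 16 ≤ W) (hη : 0 < η) (hζ : ζ ≤ η / 32) : 0 < ⌊W / 8⌋₊ ∧ 2 * (ζ * W) ≤ η * ⌊W / 8⌋₊ := by
  have h1 := Nat.lt_floor_add_one (W / 8)
  refine ⟨Nat.floor_pos.2 (by linarith), ?_⟩
  nlinarith [mul_le_mul_of_nonneg_right hζ (show 0 ≤ W by linarith), mul_le_mul_of_nonneg_left (show W / 16 ≤ ⌊W / 8⌋₊ by linarith) hη.le]

/-- `t', D` from `lw_dom` with `t = 1`.  `Bad = {(y₀, z) | ¬∃ L ∈ W1, Lk L (ζ₁ W) F' (p y₀) (p y₀ z)}`, `F' = F ∪ pins W`.  `step` (with `N' ≥ t'`) bounds the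
fibres over `z ∈ exp (t' • Box W)`; `markov_fubini` gives `y₀ = exp Y₀ ∈ exp (Box W)` (`lw_compl`) with `lw (t' • Box W) {z | (y₀, z) ∈ Bad} ≤ 2 ζ₁`; `lw_dom` for
`-Y₀` gives `lw (Box W) {y | (y₀, y₀⁻¹ y) ∈ Bad} ≤ 2 D ζ₁`.  All `L` that link at `p y₀` are pinned there (`Lk.pin_left`, `exists_pin'`), so they are equal to one
`L` (take `1` if there is none); `κ = er L (p y₀)`. -/
theorem exists_Tp (K ζ : ℝ) (N : ℕ) (hζ : 0 < ζ) : ∃ W₀ : ℝ, ∀ (f : M.QP K) (p : M.G) (W : ℝ) (F : Finset M.G), W₀ ≤ W → F.card ≤ N →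
    ↑F ⊆ M.Adm (N * W) (W / 4) → ∃ L ∈ M.W1, ∃ κ, M.Tp f.φ p W F L κ ζ := by
  classical
  obtain ⟨t, D, ht, hD, hdom⟩ := M.lw_dom le_rfl
  obtain ⟨θ, hθ, hstep⟩ := M.step K
  obtain ⟨η, hη, hpin⟩ := M.exists_pin'
  obtain ⟨ζ₁, h0, h1, h2⟩ : ∃ ζ₁ : ℝ, 0 < ζ₁ ∧ D * (2 * ζ₁) ≤ ζ ∧ ζ₁ ≤ η / 32 := by
    refine ⟨min (ζ / (2 * D)) (η / 32), by positivity, ?_, min_le_right _ _⟩
    have := (le_div_iff₀ (show 0 < 2 * D by positivity)).1 (min_le_left (ζ / (2 * D)) (η / 32))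
    linarith
  obtain ⟨W₀, hW₀⟩ := hstep ζ₁ (N + (k + 1) + ⌈t⌉₊) h0
  refine ⟨max W₀ 16, fun f p W F hW hF hFA => ?_⟩
  obtain ⟨hW1, hW2⟩ := max_le_iff.1 hW
  obtain ⟨hJ, hJ'⟩ := b1ba_floor hW2 hη h2
  have hN : (0 : ℝ) ≤ N := N.cast_nonneg
  have hk : (0 : ℝ) ≤ k := k.cast_nonneg
  have htc := Nat.le_ceil t
  have := M.b1ba_prob W
  have := M.isProbabilityMeasure_lw_Box (zero_lt_one.trans_le ht) W
  have hA : MeasurableSet {z : M.G × M.G | ¬∃ L ∈ M.W1, M.Lk f.φ L (ζ₁ * W) (F ∪ M.pins W) (p * z.1) (p * z.1 * z.2)} :=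
    (show Measurable fun z : M.G × M.G => (p * z.1, p * z.1 * z.2) by fun_prop) (M.measurableSet_exLk f.mφ (ζ₁ * W) (F ∪ M.pins W))
  have hm := M.markov_fubini (ν := M.lw M.E (M.Box W)) (la := M.lw M.E (t • M.Box W)) hA (a := ENNReal.ofReal ζ₁)
    (b := ENNReal.ofReal (2 * ζ₁)) (by simpa using h0) ?_
  · obtain ⟨Y, hY, hg⟩ := M.b1ba_good W (hm.trans_lt (ENNReal.div_lt_of_lt_mul (by
      rw [one_mul]; exact (ENNReal.ofReal_lt_ofReal_iff (by positivity)).2 (by linarith))))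
    obtain ⟨L, hL, hu⟩ : ∃ L ∈ M.W1, ∀ L' ∈ M.W1, M.Pin f.φ η ⌊W / 8⌋₊ (p * M.exp Y) L' → L' = L := by
      by_cases hex : ∃ L ∈ M.W1, M.Pin f.φ η ⌊W / 8⌋₊ (p * M.exp Y) L
      · obtain ⟨L, hL, hp⟩ := hex
        exact ⟨L, hL, fun L' hL' hp' => hpin _ _ _ _ hL' _ hL hJ hp' hp⟩
      · exact ⟨1, M.one_mem_W1, fun L' hL' hp' => (hex ⟨L', hL', hp'⟩).elim⟩
    have hd := (hdom M.E (M.RV W) 1 (Core.IsIdl.isSub _ M.isIdl_E) (M.star_RV W) (M.isCompact_RV' W) le_rfl le_rfl (-Y)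
      (neg_mem (M.Box_subset_E W hY)) ((Core.In.of_mem hY).neg (M.star_RV W))
      {z | ¬∃ L ∈ M.W1, M.Lk f.φ L (ζ₁ * W) (F ∪ M.pins W) (p * M.exp Y) (p * M.exp Y * z)}).2
    rw [one_smul] at hd
    refine ⟨L, hL, M.er f.φ L (p * M.exp Y), (measure_mono ?_).trans (hd.trans ((mul_le_mul_right (not_lt.1 hg) _).trans ?_))⟩
    · rintro y ⟨c, hc, hlt⟩ ⟨L', hL', hk⟩
      obtain rfl := hu L' hL' (hk.pin_left Finset.subset_union_right hJ')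
      have h3 := hk 1 (Finset.mem_union_right _ (M.one_mem_pins W)) c (Finset.mem_union_left _ hc)
      rw [mul_one, M.exp_neg, mul_assoc p _ (_ * y), mul_inv_cancel_left, norm_sub_rev] at h3
      nlinarith [mul_le_mul_of_nonneg_right (show ζ₁ ≤ ζ by nlinarith) (show 0 ≤ W by linarith)]
    · rw [← ENNReal.ofReal_mul (by linarith)]
      exact ENNReal.ofReal_le_ofReal h1
  · refine (show ∀ᵐ x ∂M.lw M.E (t • M.Box W), x ∈ M.exp '' (M.E ∩ t • M.Box W) from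
      M.lw_compl M.E ((M.isCompact_Box W).smul t)).mono ?_
    rintro _ ⟨Z, hZ, rfl⟩
    refine hW₀ f p W _ hW1 ((Finset.card_union_le _ _).trans ((add_le_add hF (M.card_pins W)).trans le_self_add)) ?_ Z
      (M.smul_Qi_mono (M.star_RV _) (by linarith) (by push_cast; linarith) (smul_set_mono (M.Box_mono (by nlinarith)) hZ.2))
    rw [Finset.coe_union]
    refine union_subset (hFA.trans (M.Adm_mono ?_ le_rfl)) ((M.pins_subset (by linarith)).trans ((M.ballCR_subset_ballR _).trans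
      ((M.ballR_subset_Adm _).trans (M.Adm_mono ?_ (by linarith))))) <;> push_cast <;> nlinarith

/-- a common good point; `exists_pin'` -/
theorem Tp.unique : ∃ ζ₀ : ℝ, 0 < ζ₀ ∧ ∀ (φ : M.G → M.G) (p : M.G) (W ζ : ℝ) (F F' : Finset M.G) (κ κ' : Fin k → ℝ), ∀ L ∈ M.W1, ∀ L' ∈ M.W1,
    16 ≤ W → 0 < ζ → ζ ≤ ζ₀ → M.pins W ⊆ F → M.pins W ⊆ F' → M.Tp φ p W F L κ ζ → M.Tp φ p W F' L' κ' ζ →
      L = L' ∧ ‖κ - κ'‖ ≤ 2 * ζ * W := by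
  obtain ⟨η, hη, hpin⟩ := M.exists_pin'
  refine ⟨min (1 / 4) (η / 32), by positivity, fun φ p W ζ F F' κ κ' L hL L' hL' hW h0 hζ hF hF' h1 h2 => ?_⟩
  obtain ⟨h3, h4⟩ := le_min_iff.1 hζ
  obtain ⟨hJ, hJ'⟩ := b1ba_floor hW hη h4
  obtain ⟨Y, -, hY⟩ := M.b1ba_good W (((measure_union_le _ _).trans (add_le_add h1 h2)).trans_lt (by
    rw [← ENNReal.ofReal_add h0.le h0.le]; exact ENNReal.ofReal_lt_one.2 (by linarith)))
  simp only [mem_union, mem_ofPred_eq, not_or, not_exists, not_and, not_lt] at hY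
  have key : ∀ {F : Finset M.G} {L : Mat k} {κ : Fin k → ℝ}, M.pins W ⊆ F → (∀ c ∈ F, ‖M.er φ L (p * M.exp Y * c) - κ‖ ≤ ζ * W) →
      ‖M.er φ L (p * M.exp Y) - κ‖ ≤ ζ * W ∧ M.Pin φ η ⌊W / 8⌋₊ (p * M.exp Y) L := by
    intro F L κ hF hY
    have h5 := hY 1 (hF (M.one_mem_pins W))
    rw [mul_one] at h5
    refine ⟨h5, fun i => (norm_sub_le_norm_sub_add_norm_sub _ κ _).trans ?_⟩
    rw [norm_sub_rev κ]
    linarith [hY _ (hF (M.gen_mem_pins W i))]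
  obtain ⟨h5, h6⟩ := key hF hY.1
  obtain ⟨h7, h8⟩ := key hF' hY.2
  obtain rfl := hpin _ _ _ _ hL _ hL' hJ h6 h8
  refine ⟨rfl, (norm_sub_le_norm_sub_add_norm_sub _ (M.er φ L (p * M.exp Y)) _).trans ?_⟩
  rw [norm_sub_rev κ]
  linarith

/-- a good point `y ∈ exp (Box W)` (`lw_compl`), `len_Box`, `Lip.norm_er`, `exists_mb_W1` -/
theorem Tp.base (K W : ℝ) (hW : 1 ≤ W) : ∃ B : ℝ, ∀ (f : M.QP K) (p : M.G) (F : Finset M.G) (κ : Fin k → ℝ) (ζ : ℝ), ∀ L ∈ M.W1,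
    0 < ζ → ζ ≤ 1 / 2 → (1 : M.G) ∈ F → M.Tp f.φ p W F L κ ζ → ‖κ - M.er f.φ L p‖ ≤ B := by
  obtain ⟨Λ, hΛ, hmb⟩ := M.exists_mb_W1
  obtain ⟨Λ', -, hlen⟩ := M.len_Box 1
  refine ⟨W + ((K + k * Λ) * (Λ' * W) + K), fun f p F κ ζ L hL h0 hζ hF h1 => ?_⟩
  obtain ⟨Y, hY, hg⟩ := M.b1ba_good W (h1.trans_lt (ENNReal.ofReal_lt_one.2 (by linarith)))
  have h2 : ‖M.er f.φ L (p * M.exp Y * 1) - κ‖ ≤ ζ * W := not_lt.1 fun h => hg ⟨1, hF, h⟩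
  rw [mul_one, norm_sub_rev] at h2
  have h3 : (M.len (M.exp Y) : ℝ) ≤ Λ' * W := (hlen W hW).1 ⟨Y, by rwa [one_smul], rfl⟩
  have hK := f.one_le
  refine (norm_sub_le_norm_sub_add_norm_sub _ (M.er f.φ L (p * M.exp Y)) _).trans
    (add_le_add (by nlinarith) ((f.lφ.norm_er (hmb L hL) _ _).trans ?_))
  gcongr

/-! #### part b -/

/-- `exists_decR`: `g = exp Y * c`.  `Y ∈ Gv (Λ θ'' W) ⊆ Box W` (`Ad_Gv_subset` with `g = 1`), `c * exp Y₀ * c⁻¹ ∈ exp (Box (W + 2 θ'' W))` (`Ad_Box_subset`),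
`exp_Qi_mul 1`, `Box_scale`: the product lies in `exp ((D exp (- b θ W / 4)) • Box ((1 + θ / 2) W))`. -/
theorem exists_base (θ σ : ℝ) (hθ : 0 < θ) (hσ : 0 < σ) : ∃ θ'' : ℝ, 0 < θ'' ∧ θ'' ≤ 1 / 8 ∧ ∃ W₀ : ℝ, ∀ W ≥ W₀, ∀ g ∈ M.ballR (θ'' * W),
    ∃ c ∈ M.ballCR (θ'' * W), (∀ Y' ∈ M.Box ((1 + θ / 2) * W), M.Ad c⁻¹ Y' ∈ M.Box ((1 + θ) * W)) ∧
      ∀ Y₀ ∈ M.Box W, ∃ S ∈ σ • M.Box ((1 + θ / 2) * W), g * M.exp Y₀ * c⁻¹ = M.exp S := by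
  obtain ⟨Λ, hΛ, hd⟩ := M.exists_decR
  obtain ⟨b₁, hb₁, hG⟩ := M.Ad_Gv_subset
  obtain ⟨w₁, hG⟩ := hG 0 1 one_pos le_rfl
  obtain ⟨r₀, hA⟩ := M.Ad_Box_subset
  obtain ⟨D, hD, -, hM⟩ := M.exp_Qi_mul 1
  obtain ⟨b, B, hb, -, hS⟩ := M.Box_scale
  have hΛ0 : 0 < Λ := by linarith
  obtain ⟨τ, h0, h1, h2, h3⟩ : ∃ τ : ℝ, 0 < τ ∧ τ ≤ 1 / 8 ∧ τ ≤ θ / 8 ∧ Λ * τ ≤ b₁ :=
    ⟨min (1 / 8) (min (θ / 8) (b₁ / Λ)), by positivity, min_le_left _ _, (min_le_right _ _).trans (min_le_left _ _), by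
      rw [mul_comm, ← le_div_iff₀ hΛ0]; exact (min_le_right _ _).trans (min_le_right _ _)⟩
  have hev : ∀ᶠ W : ℝ in atTop, 0 ≤ W ∧ w₁ ≤ W ∧ max 1 r₀ ≤ τ * W ∧ D / σ ≤ b * (θ / 4 * W) :=
    (eventually_ge_atTop _).and ((eventually_ge_atTop _).and (((tendsto_id.const_mul_atTop h0).eventually_ge_atTop _).and
      (((tendsto_id.const_mul_atTop (by positivity)).const_mul_atTop hb).eventually_ge_atTop _)))
  obtain ⟨W₀, hW₀⟩ := eventually_atTop.1 hev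
  refine ⟨τ, h0, h1, W₀, fun W hW g hg => ?_⟩
  obtain ⟨e0, e1, e2, e3⟩ := hW₀ W hW
  rw [max_le_iff] at e2
  obtain ⟨Y, hY, c, hc, hYn, rfl⟩ := hd _ e2.1 g hg
  have e4 : τ * W ≤ θ / 8 * W := mul_le_mul_of_nonneg_right h2 e0
  have e5 : 0 ≤ θ * W := by positivity
  refine ⟨c, hc, fun Y' hY' => M.Box_mono (by linarith) (hA _ e2.2 _ _ (M.inv_mem_ballCR hc) Y' hY'), fun Y₀ hY₀ => ?_⟩
  have hs := M.star_RV (W + θ / 4 * W)
  have a1 : Y ∈ (1 : ℝ) • M.Box W := by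
    have := hG W e1 1 (M.one_mem_ballCR (by simp)) (by simp [chi_one, nm]) Y
      (M.EV_subset_Gv _ ⟨hY, hYn.trans (Real.exp_le_exp.2 (by nlinarith))⟩)
    rw [map_one] at this
    exact M.smul_Qi_mono (M.star_RV W) (Real.exp_pos _).le (Real.exp_le_one_iff.2 (by nlinarith)) this
  rw [one_smul] at a1
  obtain ⟨_, ⟨Z, hZ, rfl⟩, hZ'⟩ := hM _ hs (mul_mem_mul
    ⟨Y, by rw [one_smul]; exact M.Box_mono (by linarith) a1, rfl⟩
    ⟨M.Ad c Y₀, by rw [one_smul]; exact M.Box_mono (by linarith) (hA _ e2.2 _ _ hc Y₀ hY₀), rfl⟩)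
  obtain ⟨Z', hZ'', rfl⟩ := (hS (W + θ / 4 * W) (θ / 4 * W) (by positivity)).2 hZ
  rw [show W + θ / 4 * W + θ / 4 * W = (1 + θ / 2) * W by ring] at hZ''
  refine ⟨_, M.smul_Qi_mono (M.star_RV _) (s := D * Real.exp (-(b * (θ / 4 * W)))) (by positivity) ?_
    ⟨Z', hZ'', (smul_smul _ _ _).symm⟩, ?_⟩
  · rw [Real.exp_neg, mul_inv_le_iff₀ (Real.exp_pos _), mul_comm, ← div_le_iff₀ hσ]
    linarith [Real.add_one_le_exp (b * (θ / 4 * W))]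
  · rw [hZ', ← M.conj, mul_assoc, mul_assoc, mul_assoc]

omit M in
theorem b1bc_ex {G : Type*} [MeasurableSpace G] (μ : Measure G) [IsProbabilityMeasure μ] {A B C : Set G} {a b : ℝ} (ha : 0 ≤ a) (hb : 0 ≤ b)
    (hA : μ A ≤ ENNReal.ofReal a) (hB : μ B ≤ ENNReal.ofReal b) (hC : μ C = 0) (h1 : a + b < 1) : ∃ x, x ∉ A ∧ x ∉ B ∧ x ∉ C := by
  by_contra hn
  have h2 : μ univ ≤ ENNReal.ofReal a + ENNReal.ofReal b + 0 :=
    le_trans (measure_mono fun x _ => by_contra fun hx => hn ⟨x, fun h => hx (Or.inl (Or.inl h)), fun h => hx (Or.inl (Or.inr h)),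
      fun h => hx (Or.inr h)⟩) ((measure_union_le _ _).trans (add_le_add ((measure_union_le _ _).trans (add_le_add hA hB)) hC.le))
  rw [measure_univ, add_zero, ← ENNReal.ofReal_add ha hb, ENNReal.one_le_ofReal] at h2
  linarith

theorem b1bc_pin {φ : M.G → M.G} {L : Mat k} {q : M.G} {κ : Fin k → ℝ} {W a η : ℝ} (hq : ∀ x ∈ M.pins W, ‖M.er φ L (q * x) - κ‖ ≤ a)
    (ha : 2 * a ≤ η * ⌊W / 8⌋₊) : M.Pin φ η ⌊W / 8⌋₊ q L := fun i => by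
  have h1 := hq _ (M.gen_mem_pins W i)
  have h2 := hq _ (M.one_mem_pins W)
  rw [mul_one, norm_sub_rev] at h2
  exact (norm_sub_le_norm_sub_add_norm_sub _ κ _).trans (by linarith)

/-- `θ₁ = min 1 (θ from step)`, the `θ` of the statement is `θ₁ / 2`, `W₁ = (1 + θ₁ / 2) W`, `ζ₀ ≤ 1 / 8, η₀ / 64`, `c` from `exists_base` with `σ = 1 / (8 D)` (`lw_Box_Inv`).  `exists_Tp` at `(p, W₁)` for
`F₁ = pins W₁ ∪ (pins W).image (c * ·)` gives `(L₁, κ₁)`, compare with `(L, κ)` by `Tp.unique`.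
`Bad = {(y, y') | ¬∃ L ∈ W1, Lk L (ζ W) (pins W) (p g y) (p g y * (c⁻¹ y' c))}`; `step` at `(p g, W)` with `Y = Ad c⁻¹ Y'` bounds the fibres over
`y' = exp Y'`; `markov_fubini` gives `y = exp Y₀` good for `Tp (p g)` with `lw (Box W₁) {y' | (y, y') ∈ Bad} ≤ 1 / 4`; then `y'` with `(y, y') ∉ Bad` and
`exp S * y'` good for `Tp p W₁ F₁`; `p g y (c⁻¹ y' c) = p (exp S * y') c`.  Pins with `⌊W / 8⌋₊` at the two points identify the matrices. -/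
theorem Tp.link (K : ℝ) : ∃ θ θ'' ζ₀ : ℝ, 0 < θ ∧ θ ≤ 1 ∧ 0 < θ'' ∧ 0 < ζ₀ ∧ ∀ ζ : ℝ, 0 < ζ → ζ ≤ ζ₀ → ∃ W₀ : ℝ, ∀ (f : M.QP K) (p g : M.G) (W : ℝ)
    (κ κ' : Fin k → ℝ), ∀ L ∈ M.W1, ∀ L' ∈ M.W1, W₀ ≤ W → g ∈ M.ballR (θ'' * W) →
      M.Tp f.φ p ((1 + θ) * W) (M.pins ((1 + θ) * W)) L κ ζ → M.Tp f.φ (p * g) W (M.pins W) L' κ' ζ →
        L = L' ∧ ‖κ - κ'‖ ≤ 10 * ζ * W := by
  classical
  obtain ⟨η₀, hη₀, hpin⟩ := M.exists_pin'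
  obtain ⟨ζu, hζu, huni⟩ := Tp.unique M
  obtain ⟨θs, hθs, hstep⟩ := M.step K
  obtain ⟨D, hD, hinv⟩ := M.lw_Box_Inv
  have hθ₁ : 0 < min 1 θs := lt_min one_pos hθs
  have hθ₂ : min 1 θs ≤ 1 := min_le_left _ _
  have hθ₃ : min 1 θs ≤ θs := min_le_right _ _
  generalize min 1 θs = θ₁ at hθ₁ hθ₂ hθ₃
  obtain ⟨θ'', hθ'', hθ8, Wb, hbase⟩ := M.exists_base θ₁ (1 / (8 * D)) hθ₁ (by positivity)
  refine ⟨θ₁ / 2, θ'', min (min ζu (1 / 8)) (η₀ / 64), by positivity, by linarith, hθ'', by positivity, fun ζ hζ hζ₀ => ?_⟩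
  simp only [le_min_iff] at hζ₀
  obtain ⟨⟨z1, z2⟩, z3⟩ := hζ₀
  obtain ⟨WT, hT⟩ := M.exists_Tp K ζ (k + 1 + (k + 1)) hζ
  obtain ⟨Ws, hs⟩ := hstep ζ (k + 1) hζ
  refine ⟨max (max 16 Wb) (max WT Ws), fun f p g W κ κ' L hL L' hL' hW hg h1 h2 => ?_⟩
  simp only [max_le_iff] at hW
  obtain ⟨⟨a1, a2⟩, a3, a4⟩ := hW
  obtain ⟨c, hc, hc1, hc2⟩ := hbase W a2 g hg
  set W₁ := (1 + θ₁ / 2) * W with hW₁
  have b1 : W ≤ W₁ := by nlinarith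
  have b2 : W₁ ≤ 3 / 2 * W := by nlinarith
  have hk : (0 : ℝ) ≤ k := k.cast_nonneg
  have hadm : ∀ {r s N : ℝ} {x : M.G}, x ∈ M.ballCR r → r ≤ s / 4 → 1 ≤ N → 0 ≤ s → x ∈ M.Adm (N * s) (s / 4) :=
    fun hx e1 e2 e3 => M.Adm_mono (by nlinarith) e1 (M.ballR_subset_Adm _ (M.ballCR_subset_ballR _ hx))
  obtain ⟨L₁, hL₁, κ₁, h3⟩ := hT f p W₁ (M.pins W₁ ∪ (M.pins W).image (c * ·)) (a3.trans b1)
    ((Finset.card_union_le _ _).trans (add_le_add (M.card_pins _) (Finset.card_image_le.trans (M.card_pins _)))) (fun x hx => by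
      rw [Finset.coe_union, Finset.coe_image] at hx
      rcases hx with hx | ⟨x, hx, rfl⟩
      · exact hadm (M.pins_subset (by linarith) hx) (by linarith) (by push_cast; linarith) (by linarith)
      · exact hadm (M.mul_mem_ballCR hc (M.pins_subset (by linarith) hx)) (by nlinarith) (by push_cast; linarith) (by linarith))
  obtain ⟨rfl, hκ⟩ := huni f.φ p W₁ ζ _ _ κ κ₁ L hL L₁ hL₁ (a1.trans b1) hζ z1 subset_rfl Finset.subset_union_left h1 h3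
  have hP := M.isProbabilityMeasure_lw_Box one_pos W
  have hP₁ := M.isProbabilityMeasure_lw_Box one_pos W₁
  rw [one_smul] at hP hP₁
  have hm : Measurable fun z : M.G × M.G => (p * g * z.1, p * g * z.1 * (c⁻¹ * z.2 * c)) := by fun_prop
  have h4 := M.markov_fubini (ν := M.lw M.E (M.Box W)) (la := M.lw M.E (M.Box W₁)) (hm (M.measurableSet_exLk f.mφ (ζ * W) (M.pins W)))
    (a := ENNReal.ofReal ζ) (b := ENNReal.ofReal (1 / 4)) (by simp) (by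
      filter_upwards [(M.lw_compl M.E (M.isCompact_Box W₁) : ∀ᵐ x ∂_, x ∈ M.exp '' (M.E ∩ M.Box W₁))]
      rintro _ ⟨Y, hY, rfl⟩
      have e : c⁻¹ * M.exp Y * c = M.exp (M.Ad c⁻¹ Y) := by rw [← M.conj, inv_inv]
      have := hs f (p * g) W (M.pins W) a4 (M.card_pins _)
        (fun x hx => hadm (M.pins_subset (by linarith) hx) (by linarith) (by push_cast; linarith) (by linarith)) (M.Ad c⁻¹ Y)
        (M.smul_Qi_mono (M.star_RV _) zero_le_one (by push_cast; linarith)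
          (by rw [one_smul]; exact M.Box_mono (by nlinarith) (hc1 Y hY.2)))
      rwa [← e] at this)
  rw [← ENNReal.ofReal_div_of_pos (by norm_num)] at h4
  obtain ⟨y, y1, y2, y3⟩ := b1bc_ex _ (by positivity) hζ.le h4 h2 (M.lw_compl M.E (M.isCompact_Box W)) (by linarith)
  obtain ⟨Y₀, hY₀, rfl⟩ := not_not.1 y3
  obtain ⟨S, hS, hS'⟩ := hc2 Y₀ hY₀.2
  have h5 := (hinv W₁ _ (by positivity) (by rw [div_le_one (by positivity)]; linarith) S hS _).2.trans (add_le_add h3 le_rfl)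
  rw [← ENNReal.ofReal_add hζ.le (by positivity), show D * (1 / (8 * D)) = 1 / 8 by field_simp] at h5
  obtain ⟨y', x1, x2, -⟩ := b1bc_ex _ (by norm_num) (by positivity) (not_lt.1 y1) h5 measure_empty (by linarith)
  obtain ⟨L₂, hL₂, hk₂⟩ := not_not.1 x1
  simp only [mem_ofPred_eq, not_exists, not_and, not_lt] at y2 x2
  have e : p * g * M.exp Y₀ * (c⁻¹ * y' * c) = p * (M.exp S * y') * c := by rw [← hS']; group
  simp only [e] at hk₂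
  have x3 : ∀ x ∈ M.pins W, ‖M.er f.φ L (p * (M.exp S * y') * c * x) - κ₁‖ ≤ ζ * W₁ := fun x hx => by
    rw [mul_assoc _ c]
    exact x2 _ (Finset.mem_union_right _ (Finset.mem_image_of_mem _ hx))
  have c1 : W / 16 ≤ ⌊W / 8⌋₊ := by have := Nat.lt_floor_add_one (W / 8); linarith
  have c2 : 0 < ⌊W / 8⌋₊ := Nat.floor_pos.2 (by linarith)
  have c3 : 4 * (ζ * W) ≤ η₀ * ⌊W / 8⌋₊ := by nlinarith
  have c4 : ζ * W₁ ≤ 3 / 2 * (ζ * W) := by nlinarith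
  have c5 : 0 ≤ ζ * W := by positivity
  obtain rfl := hpin f.φ _ _ L' hL' L₂ hL₂ c2 (M.b1bc_pin y2 (by linarith)) (hk₂.pin_left subset_rfl (by linarith))
  obtain rfl := hpin f.φ _ _ L hL L' hL' c2 (M.b1bc_pin x3 (by linarith)) (hk₂.pin_right subset_rfl (by linarith))
  refine ⟨rfl, ?_⟩
  have d1 := y2 _ (M.one_mem_pins W)
  have d2 := x3 _ (M.one_mem_pins W)
  have d3 := hk₂ _ (M.one_mem_pins W) _ (M.one_mem_pins W)
  rw [norm_sub_rev] at d2 d3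
  have d4 := norm_sub_le_norm_sub_add_norm_sub κ κ₁ κ'
  have d5 := norm_sub_le_norm_sub_add_norm_sub κ₁ (M.er f.φ L (p * (M.exp S * y') * c * 1)) κ'
  have d6 := norm_sub_le_norm_sub_add_norm_sub (M.er f.φ L (p * (M.exp S * y') * c * 1)) (M.er f.φ L (p * g * M.exp Y₀ * 1)) κ'
  linarith

end Model

end Crest.Agent.R182
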