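import Crest.Agent.R182.B.CMP
import Crest.Agent.R182.B3.Fin

/-! R182/B/B3: bootstrap to a logarithmic error (public statements FROZEN).  Recipe: notes182/route.md, section B3. -/

set_option autoImplicit false
set_option linter.unusedVariables false
set_option linter.unusedSectionVars false
open Set Filter Topology MeasureTheory ProbabilityTheory Matrix Crest.GroupTheory
open scoped Pointwise commutatorElement ENNReal

noncomputable section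
namespace Crest.Agent.R182

namespace Model
variable {h k : ℕ} (M : Model h k)

/-- the inverse map has linear part `L⁻¹` -/
theorem Prof.symm {M : Model h k} (K Λ : ℝ) : ∃ D : ℝ, 1 ≤ D ∧ ∀ (f : M.QP K) (L : Mat k) (ε B : ℝ), 0 ≤ ε → ε ≤ 1 → 0 ≤ B → L.det ≠ 0 → Mb L Λ →
    Mb L⁻¹ Λ → (M.Prof f.φ L fun n => ε * n + B) → M.Prof f.ψ L⁻¹ fun n => D * ε * n + D * (B + 1) := by
  exact Prof.symm' K Λ

/-- HI_E -/
theorem hie (K : ℝ) : ∃ ε : ℝ, 0 < ε ∧ ∀ B : ℝ, ∃ B' : ℝ, ∀ (f : M.QP K), ∀ L ∈ M.W1, (M.Prof f.φ L fun n => ε * n + B) →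
    ∀ (q : M.G) (ρ : ℝ), 1 ≤ ρ → ∀ X ∈ M.E, ‖X‖ ≤ Real.exp ρ → ‖M.cc f.φ (M.exp X) q‖ ≤ B' * Real.log (1 + ρ) := by
  obtain ⟨ε, hε, h⟩ := M.hie' K
  refine ⟨ε, hε, fun B => ?_⟩
  obtain ⟨B', -, h'⟩ := h B
  exact ⟨B', h'⟩

theorem b3_of (K : ℝ) : ∃ ε : ℝ, 0 < ε ∧ ∀ B : ℝ, ∃ B' : ℝ, ∀ (f : M.QP K), ∀ L ∈ M.W1, (M.Prof f.φ L fun n => ε * n + B) →
    M.Prof f.φ L fun n => B' * Real.log (2 + n) := by
  exact M.b3_of' K

end Model

end Crest.Agent.R182
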