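import Crest.Agent.R182.B.Defs
import Crest.Agent.R182.V.Cov
import Crest.Agent.R182.V.Det
import Crest.Agent.R182.Cg.Dbl
import Crest.Agent.R182.U.Frac

/-! R182/B/Basic: elementary API (public statements FROZEN). -/

set_option autoImplicit false
set_option linter.unusedVariables false
set_option linter.unusedSectionVars false
open Set Filter Topology MeasureTheory ProbabilityTheory Matrix Crest.GroupTheory
open scoped Pointwise commutatorElement ENNReal

noncomputable section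
namespace Crest.Agent.R182

namespace Model
variable {h k : ℕ} (M : Model h k)

theorem chi_mul (g g' : M.G) : M.chi (g * g') = M.chi g + M.chi g' := by
  ext i; simp [chi, M.tv_mul]
theorem chi_one : M.chi 1 = 0 := by
  ext i; simp [chi, M.tv_one]
theorem chi_inv (g : M.G) : M.chi g⁻¹ = -M.chi g := by
  ext i; simp [chi, M.tv_inv]
theorem chi_pow (g : M.G) (n : ℕ) : M.chi (g ^ n) = (n : ℝ) • M.chi g := by
  ext i; rw [← zpow_natCast]; simp only [chi, M.tv_zpow]; simp [chi]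
theorem chi_zpow (g : M.G) (n : ℤ) : M.chi (g ^ n) = (n : ℝ) • M.chi g := by
  ext i; simp [chi, M.tv_zpow]
theorem chi_exp (X : V h) : M.chi (M.exp X) = 0 := by
  ext i; simp [chi, M.tv_exp]
theorem chi_sec (a : Fin k → ℤ) : M.chi (M.sec a) = fun i => (a i : ℝ) := by
  ext i; simp [chi, M.tv_sec]
theorem chi_gen (i : Fin k) : M.chi (M.gen i) = Pi.single i 1 := by
  ext j; by_cases h : j = i <;> simp [chi, M.tv_gen, h]
theorem ht_eq (α : Fin k → ℝ) (g : M.G) : M.ht α g = α ⬝ᵥ M.chi g := rfl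
theorem norm_chi_le (g : M.G) : ‖M.chi g‖ ≤ M.len g := by
  exact (pi_norm_le_iff_of_nonneg (Nat.cast_nonneg _)).2 (M.abs_tv_le g)
theorem nm_chi_le (g : M.G) : nm (M.chi g) ≤ M.len g := by
  have e : ∀ a : Fin k → ℝ, nm a = ‖(WithLp.toLp 2 a : EuclideanSpace ℝ (Fin k))‖ := fun a => by
    simp [nm, EuclideanSpace.norm_eq, dotProduct, sq]
  have hK : ∀ x ∈ M.K, nm (M.chi x) ≤ 1 := by
    rintro _ (⟨X, -, rfl⟩ | ⟨i, rfl⟩) <;> simp [chi_exp, chi_gen, nm]
  refine M.apilena_ind (p := fun g n => nm (M.chi g) ≤ n) (by simp [chi_one, nm]) (fun x g n hx hg => ?_) g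
  have h1 : nm (M.chi x) ≤ 1 := hx.elim (hK x) fun h => by simpa [chi_inv, nm] using hK _ h
  rw [chi_mul, e, WithLp.toLp_add]
  refine (norm_add_le _ _).trans ?_
  rw [← e, ← e]; push_cast; linarith
theorem continuous_chi : Continuous M.chi := by
  exact (continuous_of_discreteTopology (f := fun (a : Fin k → ℤ) i => (a i : ℝ))).comp M.continuous_tv
theorem measurable_chi : Measurable M.chi := by
  exact M.continuous_chi.measurable
theorem measurable_len : Measurable M.len := by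
  exact measurable_of_Iic fun n => M.measurableSet_ball n
theorem measurable_exp : Measurable M.exp := M.continuous_exp.measurable

omit M in
theorem _root_.Crest.Agent.R182.nm_nonneg (a : Fin k → ℝ) : 0 ≤ nm a := Real.sqrt_nonneg _
omit M in
theorem _root_.Crest.Agent.R182.bb_nm_eq (a : Fin k → ℝ) : nm a = ‖(WithLp.toLp 2 a : EuclideanSpace ℝ (Fin k))‖ := by
  rw [nm, EuclideanSpace.norm_eq]
  simp [dotProduct, sq]
omit M in
theorem _root_.Crest.Agent.R182.nm_add_le (a b : Fin k → ℝ) : nm (a + b) ≤ nm a + nm b := by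
  simp only [bb_nm_eq, WithLp.toLp_add]
  exact norm_add_le _ _
omit M in
theorem _root_.Crest.Agent.R182.nm_smul (c : ℝ) (a : Fin k → ℝ) : nm (c • a) = |c| * nm a := by
  simp only [bb_nm_eq, WithLp.toLp_smul, norm_smul, Real.norm_eq_abs]
omit M in
theorem _root_.Crest.Agent.R182.nm_neg (a : Fin k → ℝ) : nm (-a) = nm a := by
  simp only [bb_nm_eq, WithLp.toLp_neg, norm_neg]
omit M in
theorem _root_.Crest.Agent.R182.abs_dot_le_nm (a b : Fin k → ℝ) : |a ⬝ᵥ b| ≤ nm a * nm b := by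
  have := abs_real_inner_le_norm (WithLp.toLp 2 a : EuclideanSpace ℝ (Fin k)) (WithLp.toLp 2 b)
  rw [bb_nm_eq, bb_nm_eq]
  refine le_of_eq_of_le ?_ this
  simp [PiLp.inner_apply, dotProduct, mul_comm]
omit M in
theorem _root_.Crest.Agent.R182.norm_le_nm (a : Fin k → ℝ) : ‖a‖ ≤ nm a := by
  refine (pi_norm_le_iff_of_nonneg (nm_nonneg a)).2 fun i => ?_
  rw [bb_nm_eq]
  exact PiLp.norm_apply_le (WithLp.toLp 2 a : EuclideanSpace ℝ (Fin k)) i
omit M in
theorem _root_.Crest.Agent.R182.nm_le_norm (a : Fin k → ℝ) : nm a ≤ k * ‖a‖ := by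
  refine Real.sqrt_le_iff.2 ⟨by positivity, ?_⟩
  have h1 : a ⬝ᵥ a ≤ ∑ _i : Fin k, ‖a‖ ^ 2 := Finset.sum_le_sum fun i _ => by
    have := norm_le_pi_norm a i
    rw [Real.norm_eq_abs] at this
    nlinarith [abs_nonneg (a i), abs_mul_abs_self (a i)]
  rw [Finset.sum_const, Finset.card_univ, Fintype.card_fin, nsmul_eq_mul] at h1
  have h2 : (k : ℝ) ≤ (k : ℝ) ^ 2 := by exact_mod_cast Nat.le_self_pow two_ne_zero k
  rw [mul_pow]
  exact h1.trans (mul_le_mul_of_nonneg_right h2 (sq_nonneg _))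
omit M in
theorem _root_.Crest.Agent.R182.nm_pos {a : Fin k → ℝ} (ha : a ≠ 0) : 0 < nm a := by
  exact (norm_pos_iff.2 ha).trans_le (norm_le_nm a)
omit M in
theorem _root_.Crest.Agent.R182.nm_sq (a : Fin k → ℝ) : nm a ^ 2 = a ⬝ᵥ a := by
  exact Real.sq_sqrt (Finset.sum_nonneg fun i _ => mul_self_nonneg (a i))
omit M in
theorem _root_.Crest.Agent.R182.abs_dot_le (a b : Fin k → ℝ) : |a ⬝ᵥ b| ≤ nm a * (k * ‖b‖) := by
  exact (abs_dot_le_nm a b).trans (mul_le_mul_of_nonneg_left (nm_le_norm b) (nm_nonneg a))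
omit M in
theorem _root_.Crest.Agent.R182.Mb.norm_mulVec {L : Mat k} {Λ : ℝ} (hL : Mb L Λ) (a : Fin k → ℝ) :
    ‖L *ᵥ a‖ ≤ k * Λ * ‖a‖ := by
  rcases Nat.eq_zero_or_pos k with rfl | hk
  · simp [Subsingleton.elim (L *ᵥ a) 0]
  have hΛ : 0 ≤ Λ := (abs_nonneg _).trans (hL ⟨0, hk⟩ ⟨0, hk⟩)
  refine (pi_norm_le_iff_of_nonneg (by positivity)).2 fun i => ?_
  rw [Real.norm_eq_abs, mulVec, dotProduct]
  refine (Finset.abs_sum_le_sum_abs _ _).trans ((Finset.sum_le_sum (g := fun _ => Λ * ‖a‖) fun j _ => ?_).trans_eq ?_)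
  · rw [abs_mul]
    exact mul_le_mul (hL i j) (norm_le_pi_norm a j) (abs_nonneg _) hΛ
  · simp [mul_assoc]

theorem ballR_nat (n : ℕ) : M.ballR n = M.ball n := by
  ext g
  exact Nat.cast_le (α := ℝ)
theorem ballR_eq {r : ℝ} (hr : 0 ≤ r) : M.ballR r = M.ball ⌊r⌋₊ := by
  ext g
  exact (Nat.le_floor_iff hr).symm
theorem ballCR_nat (n : ℕ) : M.ballCR n = M.ballC n := by
  ext g
  exact ⟨fun hg => (M.mem_ballC hg.1).2 (Nat.cast_le.1 hg.2), fun hg =>
    ⟨M.ballC_subset_C n hg, Nat.cast_le.2 (M.lenC_le hg)⟩⟩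
theorem ballCR_eq {r : ℝ} (hr : 0 ≤ r) : M.ballCR r = M.ballC ⌊r⌋₊ := by
  rw [← ballCR_nat]
  ext g
  exact and_congr_right fun _ => (Nat.le_floor_iff hr).symm.trans Nat.cast_le.symm
theorem ballR_mono {r r' : ℝ} (hr : r ≤ r') : M.ballR r ⊆ M.ballR r' := fun g hg => le_trans hg hr
theorem one_mem_ballR {r : ℝ} (hr : 0 ≤ r) : (1 : M.G) ∈ M.ballR r := by
  show (M.len 1 : ℝ) ≤ r
  rwa [M.len_one, Nat.cast_zero]
theorem inv_mem_ballR {r : ℝ} {g : M.G} (hg : g ∈ M.ballR r) : g⁻¹ ∈ M.ballR r := by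
  show (M.len g⁻¹ : ℝ) ≤ r
  rwa [M.len_inv]
theorem mul_mem_ballR {r r' : ℝ} {g g' : M.G} (hg : g ∈ M.ballR r) (hg' : g' ∈ M.ballR r') : g * g' ∈ M.ballR (r + r') := by
  have h1 : (M.len (g * g') : ℝ) ≤ M.len g + M.len g' := by exact_mod_cast M.len_mul g g'
  exact h1.trans (add_le_add hg hg')
theorem isCompact_ballR (r : ℝ) : IsCompact (M.ballR r) := by
  rcases le_or_gt 0 r with hr | hr
  · rw [M.ballR_eq hr]; exact M.isCompact_ball' _
  · rw [show M.ballR r = ∅ from eq_empty_of_forall_notMem fun g hg => absurd hg (not_le.2 (hr.trans_le (Nat.cast_nonneg _)))]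
    exact isCompact_empty
theorem ballR_mem_nhds : M.ballR 1 ∈ 𝓝 (1 : M.G) := by
  have h1 : IsOpen (M.lgm ⁻¹' Metric.ball 0 1 ∩ M.tv ⁻¹' {0}) :=
    (Metric.isOpen_ball.preimage M.continuous_lgm).inter ((isOpen_discrete _).preimage M.continuous_tv)
  refine mem_of_superset (h1.mem_nhds ⟨?_, ?_⟩) ?_
  · rw [mem_preimage, ← M.exp_zero, M.lgm_exp]
    exact Metric.mem_ball_self one_pos
  · rw [mem_preimage, ← M.sec_zero, M.tv_sec]
    rfl
  · rintro g ⟨h2, h3⟩
    have h4 := M.exp_lgm g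
    rw [show M.tv g = 0 from h3, M.sec_zero, mul_one] at h4
    rw [← h4, ← Nat.cast_one, M.ballR_nat]
    exact M.exp_mem_ball (mem_ball_zero_iff.1 h2).le
theorem vol_ballR_pos {r : ℝ} (hr : 1 ≤ r) : 0 < volume (M.ballR r) := by
  refine lt_of_lt_of_le (pos_iff_ne_zero.2 M.volume_ball_ne_zero) (measure_mono ?_)
  rw [← M.ballR_nat, Nat.cast_one]
  exact M.ballR_mono hr
theorem vol_ballR_lt_top (r : ℝ) : volume (M.ballR r) < ∞ := (M.isCompact_ballR r).measure_lt_top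
theorem exists_wrd (g : M.G) : ∃ l, M.Wrd l ∧ l.length = M.len g ∧ l.prod = g := by
  exact (wl_ex M.closure_K g).imp fun l hl => ⟨hl.2.1, hl.1, hl.2.2⟩
theorem Wrd.len_le {M : Model h k} {l : List M.G} (hl : M.Wrd l) : M.len l.prod ≤ l.length := by
  exact wl_le hl
theorem Wrd.append {M : Model h k} {l l' : List M.G} (hl : M.Wrd l) (hl' : M.Wrd l') : M.Wrd (l ++ l') := by
  exact fun x hx => (List.mem_append.1 hx).elim (hl x) (hl' x)
theorem Wrd.of_prefix {M : Model h k} {l l' : List M.G} (hl : M.Wrd l) (h' : l' <+: l) : M.Wrd l' := by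
  exact fun x hx => hl x (h'.subset hx)
theorem WrdC.wrd {M : Model h k} {l : List M.G} (hl : M.WrdC l) : M.Wrd l := by
  exact fun x hx => (hl x hx).imp (fun h => M.KC_subset_K h) fun h => M.KC_subset_K h
theorem WrdC.prod_mem {M : Model h k} {l : List M.G} (hl : M.WrdC l) : l.prod ∈ M.ballCR l.length := by
  rw [M.ballCR_nat]
  exact ⟨l, le_rfl, hl, rfl⟩
theorem closure_KC : Subgroup.closure M.KC = M.C := by
  refine le_antisymm ((Subgroup.closure_le _).2 M.KC_subset_C) fun g hg => ?_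
  obtain ⟨n, l, -, h2, rfl⟩ := M.exists_mem_ballC hg
  exact list_prod_mem fun x hx => (h2 x hx).elim (fun h => Subgroup.subset_closure h) fun h =>
    (inv_mem_iff (x := x)).1 (Subgroup.subset_closure h)
theorem exists_wrdC {c : M.G} (hc : c ∈ M.C) : ∃ l, M.WrdC l ∧ l.length = M.lenC c ∧ l.prod = c := by
  obtain ⟨l, h1, h2, h3⟩ := M.mem_ballC_lenC hc
  exact ⟨l, h2, le_antisymm h1 (h3 ▸ wl_le h2), h3⟩
theorem ballCR_mono {r r' : ℝ} (hr : r ≤ r') : M.ballCR r ⊆ M.ballCR r' := fun g hg => ⟨hg.1, hg.2.trans hr⟩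
theorem one_mem_ballCR {r : ℝ} (hr : 0 ≤ r) : (1 : M.G) ∈ M.ballCR r := by
  exact ⟨one_mem _, by rwa [M.lenC_one, Nat.cast_zero]⟩
theorem inv_mem_ballCR {r : ℝ} {g : M.G} (hg : g ∈ M.ballCR r) : g⁻¹ ∈ M.ballCR r := by
  exact ⟨inv_mem hg.1, by rw [M.lenC_inv hg.1]; exact hg.2⟩
theorem mul_mem_ballCR {r r' : ℝ} {g g' : M.G} (hg : g ∈ M.ballCR r) (hg' : g' ∈ M.ballCR r') :
    g * g' ∈ M.ballCR (r + r') := by
  have h1 : (M.lenC (g * g') : ℝ) ≤ M.lenC g + M.lenC g' := by exact_mod_cast M.lenC_mul hg.1 hg'.1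
  exact ⟨mul_mem hg.1 hg'.1, h1.trans (add_le_add hg.2 hg'.2)⟩
theorem pow_mem_ballCR {r : ℝ} {g : M.G} (hg : g ∈ M.ballCR r) (n : ℕ) : g ^ n ∈ M.ballCR (n * r) := by
  induction n with
  | zero => rw [pow_zero]; exact M.one_mem_ballCR (by simp)
  | succ n ih => rw [pow_succ, Nat.cast_succ, add_one_mul]; exact M.mul_mem_ballCR ih hg
theorem ballCR_subset_ballR (r : ℝ) : M.ballCR r ⊆ M.ballR r := by
  intro g hg
  exact le_trans (by exact_mod_cast M.len_le_lenC hg.1) hg.2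
theorem isCompact_ballCR (r : ℝ) : IsCompact (M.ballCR r) := by
  rcases le_or_gt 0 r with hr | hr
  · rw [M.ballCR_eq hr]
    exact M.isCompact_ballC _
  · have : M.ballCR r = ∅ := Set.eq_empty_of_forall_notMem fun g hg =>
      absurd ((Nat.cast_nonneg _).trans hg.2) (not_le.2 hr)
    rw [this]
    exact isCompact_empty
theorem gen_mem_ballCR (i : Fin k) : M.gen i ∈ M.ballCR 1 := by
  have h1 : M.gen i ∈ M.ballC 1 := M.mem_ballC_one (Or.inl (Or.inr ⟨i, rfl⟩))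
  exact ⟨M.ballC_subset_C 1 h1, by exact_mod_cast M.lenC_le h1⟩
theorem Adm_mono {ℓ ℓ' H H' : ℝ} (h1 : ℓ ≤ ℓ') (h2 : H ≤ H') : M.Adm ℓ H ⊆ M.Adm ℓ' H' := by
  rintro g ⟨l, a, b, c, d⟩
  exact ⟨l, a, b.trans h1, fun l' h' => (c l' h').trans h2, d⟩
theorem AdmC_mono {ℓ ℓ' H H' : ℝ} (h1 : ℓ ≤ ℓ') (h2 : H ≤ H') : M.AdmC ℓ H ⊆ M.AdmC ℓ' H' := by
  rintro g ⟨l, a, b, c, d⟩
  exact ⟨l, a, b.trans h1, fun l' h' => (c l' h').trans h2, d⟩
theorem AdmC_subset_Adm (ℓ H : ℝ) : M.AdmC ℓ H ⊆ M.Adm ℓ H := by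
  rintro g ⟨l, a, b, c, d⟩
  exact ⟨l, a.wrd, b, c, d⟩
theorem AdmC_subset_ballCR (ℓ H : ℝ) : M.AdmC ℓ H ⊆ M.ballCR ℓ := by
  rintro g ⟨l, a, b, -, rfl⟩
  exact M.ballCR_mono b a.prod_mem
theorem Adm_subset_ballR (ℓ H : ℝ) : M.Adm ℓ H ⊆ M.ballR ℓ := by
  rintro g ⟨l, a, b, -, rfl⟩
  exact le_trans (by exact_mod_cast a.len_le) b
theorem nm_chi_le_of_Adm {ℓ H : ℝ} {g : M.G} (hg : g ∈ M.Adm ℓ H) : nm (M.chi g) ≤ H := by
  obtain ⟨l, -, -, c, rfl⟩ := hg
  exact c l (List.prefix_refl l)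
theorem bd_prefix {l₀ l : List M.G} {H : ℝ} (h0 : ∀ l', l' <+: l₀ → nm (M.chi l'.prod) ≤ H)
    (hH : ∀ l', l' <+: l → nm (M.chi l₀.prod + M.chi l'.prod) ≤ H) : ∀ l', l' <+: l₀ ++ l → nm (M.chi l'.prod) ≤ H := by
  intro l' h'
  rcases List.prefix_or_prefix_of_prefix h' (List.prefix_append l₀ l) with h1 | ⟨l'', rfl⟩
  · exact h0 l' h1
  · rw [List.prod_append, M.chi_mul]
    exact hH l'' ((List.prefix_append_right_inj l₀).1 h')
theorem bd_step {l₀ l : List M.G} {H r : ℝ} (h0 : nm (M.chi l₀.prod) ≤ H) (hl : M.Wrd l) (hr : (l.length : ℝ) ≤ r) :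
    ∀ l', l' <+: l → nm (M.chi l₀.prod + M.chi l'.prod) ≤ H + r := by
  intro l' h'
  refine (nm_add_le _ _).trans (add_le_add h0 ((M.nm_chi_le _).trans (le_trans ?_ hr)))
  exact_mod_cast (hl.of_prefix h').len_le.trans h'.length_le
/-- extend an admissible word by a word -/
theorem mul_mem_Adm {ℓ ℓ' H : ℝ} {g : M.G} (hg : g ∈ M.Adm ℓ H) {l : List M.G} (hl : M.Wrd l) (hℓ : (l.length : ℝ) ≤ ℓ')
    (hH : ∀ l', l' <+: l → nm (M.chi g + M.chi l'.prod) ≤ H) : g * l.prod ∈ M.Adm (ℓ + ℓ') H := by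
  obtain ⟨l₀, a, b, c, rfl⟩ := hg
  refine ⟨l₀ ++ l, a.append hl, ?_, M.bd_prefix c hH, List.prod_append⟩
  rw [List.length_append, Nat.cast_add]
  exact add_le_add b hℓ
theorem mul_mem_Adm' {ℓ r H : ℝ} {g s : M.G} (hg : g ∈ M.Adm ℓ H) (hs : s ∈ M.ballR r) : g * s ∈ M.Adm (ℓ + r) (H + r) := by
  obtain ⟨l, hl, e, rfl⟩ := M.exists_wrd s
  have hr : (l.length : ℝ) ≤ r := by rw [e]; exact hs
  have h0 : 0 ≤ r := (Nat.cast_nonneg _).trans hr
  have hg' := M.Adm_mono le_rfl (le_add_of_nonneg_right h0) hg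
  obtain ⟨l₀, a, b, c, rfl⟩ := hg
  exact M.mul_mem_Adm hg' hl hr (M.bd_step (c l₀ (List.prefix_refl l₀)) hl hr)
theorem mul_mem_AdmC' {ℓ r H : ℝ} {g s : M.G} (hg : g ∈ M.AdmC ℓ H) (hs : s ∈ M.ballCR r) :
    g * s ∈ M.AdmC (ℓ + r) (H + r) := by
  obtain ⟨l, hl, e, rfl⟩ := M.exists_wrdC hs.1
  have hr : (l.length : ℝ) ≤ r := by rw [e]; exact hs.2
  have h0 : 0 ≤ r := (Nat.cast_nonneg _).trans hr
  obtain ⟨l₀, a, b, c, rfl⟩ := hg
  refine ⟨l₀ ++ l, fun x hx => (List.mem_append.1 hx).elim (a x) (hl x), ?_,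
    M.bd_prefix (fun l' h' => (c l' h').trans (le_add_of_nonneg_right h0))
      (M.bd_step (c l₀ (List.prefix_refl l₀)) hl.wrd hr), List.prod_append⟩
  rw [List.length_append, Nat.cast_add]
  exact add_le_add b hr
omit M in
theorem be_nm_le {v a : Fin k → ℝ} (hv : ∀ i, |v i| ≤ |a i|) : nm v ≤ nm a :=
  Real.sqrt_le_sqrt (Finset.sum_le_sum fun i _ => by
    have := sq_le_sq.2 (hv i)
    nlinarith)
omit M in
theorem be_abs_le (a : Fin k → ℤ) (i : Fin k) : |(a i : ℝ)| ≤ nm fun i => (a i : ℝ) :=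
  (norm_le_pi_norm (fun i => (a i : ℝ)) i).trans (norm_le_nm _)
theorem be_one {H : ℝ} (hH : 0 ≤ H) : (1 : M.G) ∈ M.AdmC 0 H :=
  ⟨[], fun _ hx => by simp at hx, by simp, fun l' hl' => by
    rw [List.prefix_nil.1 hl', List.prod_nil, M.chi_one]; simpa [nm] using hH, rfl⟩
theorem be_append {ℓ ℓ' H : ℝ} {g : M.G} (hg : g ∈ M.AdmC ℓ H) {l : List M.G} (hl : M.WrdC l) (hℓ : (l.length : ℝ) ≤ ℓ')
    (hH : ∀ l', l' <+: l → nm (M.chi g + M.chi l'.prod) ≤ H) : g * l.prod ∈ M.AdmC (ℓ + ℓ') H := by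
  obtain ⟨l₀, h1, h2, h3, rfl⟩ := hg
  refine ⟨l₀ ++ l, fun x hx => (List.mem_append.1 hx).elim (h1 x) (hl x), by rw [List.length_append]; push_cast; linarith,
    fun l' hl' => ?_, List.prod_append⟩
  rcases List.prefix_or_prefix_of_prefix hl' (List.prefix_append l₀ l) with h | ⟨s, rfl⟩
  · exact h3 l' h
  · rw [List.prod_append, M.chi_mul]
    exact hH s ((List.prefix_append_right_inj l₀).1 hl')
theorem be_pow {ℓ H : ℝ} {g : M.G} (hg : g ∈ M.AdmC ℓ H) (i : Fin k) (z : ℤ)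
    (hH : ∀ t ∈ Set.uIcc (0 : ℝ) z, nm (M.chi g + t • Pi.single i 1) ≤ H) : g * M.gen i ^ z ∈ M.AdmC (ℓ + |(z : ℝ)|) H := by
  obtain ⟨n, rfl | rfl⟩ := z.eq_nat_or_neg
  · have := M.be_append (ℓ' := |((n : ℤ) : ℝ)|) hg (l := List.replicate n (M.gen i))
      (fun x hx => Or.inl (by rw [List.eq_of_mem_replicate hx]; exact Or.inr ⟨i, rfl⟩)) (by simp) fun l' hl' => by
        obtain ⟨h1, h2⟩ := List.prefix_replicate_iff.1 hl'
        rw [h2, List.prod_replicate, M.chi_pow, M.chi_gen]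
        exact hH _ (Set.mem_uIcc.2 (Or.inl ⟨by positivity, by exact_mod_cast h1⟩))
    simpa using this
  · have := M.be_append (ℓ' := |((-n : ℤ) : ℝ)|) hg (l := List.replicate n (M.gen i)⁻¹)
      (fun x hx => Or.inr (by rw [List.eq_of_mem_replicate hx, inv_inv]; exact Or.inr ⟨i, rfl⟩)) (by simp) fun l' hl' => by
        obtain ⟨h1, h2⟩ := List.prefix_replicate_iff.1 hl'
        rw [h2, List.prod_replicate, M.chi_pow, M.chi_inv, M.chi_gen, smul_neg, ← neg_smul]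
        exact hH _ (Set.mem_uIcc.2 (Or.inr ⟨by push_cast; exact neg_le_neg (by exact_mod_cast h1), by simp⟩))
    simpa using this
theorem be_list (L : List (Fin k)) (hL : L.Nodup) (c : Fin k → ℤ) (B : ℝ) (hB : ∀ i, |(c i : ℝ)| ≤ B) {ℓ H : ℝ} {g : M.G}
    (hg : g ∈ M.AdmC ℓ H) (hH : ∀ v : Fin k → ℝ, (∀ i, v i ∈ Set.uIcc (0 : ℝ) (if i ∈ L then c i else 0)) →
      nm (M.chi g + v) ≤ H) : g * (L.map fun i => M.gen i ^ c i).prod ∈ M.AdmC (ℓ + L.length * B) H := by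
  induction L generalizing g ℓ with
  | nil => simpa using hg
  | cons i L ih =>
    obtain ⟨hi, hL'⟩ := List.nodup_cons.1 hL
    have h1 := M.be_pow hg i (c i) fun t ht => hH _ fun j => by
      by_cases hj : j = i
      · subst hj; simpa using ht
      · simp [hj]
    have h2 := ih hL' h1 fun v hv => by
      rw [M.chi_mul, M.chi_zpow, M.chi_gen, add_assoc]
      refine hH _ fun j => ?_
      have := hv j
      by_cases hj : j = i
      · subst hj
        simp only [hi, if_false, Set.uIcc_self, Set.mem_singleton_iff] at this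
        simp [this]
      · simpa [hj] using this
    rw [List.map_cons, List.prod_cons, ← mul_assoc]
    refine M.AdmC_mono ?_ le_rfl h2
    have := hB i
    rw [List.length_cons]; push_cast; linarith
/-- the prefixes of the obvious word for `sec a` have coordinates between `0` and `a i` -/
theorem sec_mem_AdmC (a : Fin k → ℤ) : M.sec a ∈ M.AdmC (k * nm fun i => (a i : ℝ)) (nm fun i => (a i : ℝ)) := by
  have h := M.be_list (List.finRange k) (List.nodup_finRange k) a (nm fun i => (a i : ℝ)) (be_abs_le a)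
    (M.be_one (nm_nonneg fun i => (a i : ℝ))) fun v hv => by
      rw [M.chi_one, zero_add]
      exact be_nm_le fun i => Set.abs_sub_left_of_mem_uIcc (hv i) |>.trans_eq' (by simp) |>.trans_eq (by simp)
  simpa [sec, List.ofFn_eq_map] using h
/-- going up by `sec a`, moving by `b` and going down again -/
theorem sec_conj_mem_AdmC (a : Fin k → ℤ) {r : ℝ} {b : M.G} (hb : b ∈ M.ballCR r) :
    M.sec a * b * (M.sec a)⁻¹ ∈ M.AdmC (2 * (k * nm fun i => (a i : ℝ)) + r) ((nm fun i => (a i : ℝ)) + r) := by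
  have h1 := M.mul_mem_AdmC' (M.sec_mem_AdmC a) hb
  have hb' : nm (M.chi b) ≤ r := (M.nm_chi_le b).trans (M.ballCR_subset_ballR r hb)
  have h := M.be_list (List.finRange k).reverse (List.nodup_reverse.2 (List.nodup_finRange k)) (fun i => -a i)
    (nm fun i => (a i : ℝ)) (fun i => by simpa using be_abs_le a i) h1 fun v hv => by
      rw [M.chi_mul, M.chi_sec, add_right_comm]
      refine (nm_add_le _ _).trans (add_le_add (be_nm_le fun i => ?_) hb')
      have := Set.abs_sub_right_of_mem_uIcc (hv i)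
      simp only [List.mem_reverse, List.mem_finRange, if_true, Int.cast_neg, sub_zero, abs_neg] at this
      rwa [← abs_neg, show -(-(a i : ℝ) - v i) = a i + v i by ring] at this
  have e : (M.sec a)⁻¹ = ((List.finRange k).reverse.map fun i => M.gen i ^ (-a i)).prod := by
    rw [sec, List.prod_inv_reverse, List.ofFn_eq_map, List.map_map, List.map_reverse]
    simp [Function.comp_def]
  rw [e]
  refine M.AdmC_mono (le_of_eq ?_) le_rfl h
  simp only [List.length_reverse, List.length_finRange]; ring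
theorem be_compact {S : Set M.G} (hS : IsCompact S) (ℓ H : ℝ) : IsCompact {g : M.G | ∃ l : List M.G,
    (∀ x ∈ l, x ∈ S ∨ x⁻¹ ∈ S) ∧ (l.length : ℝ) ≤ ℓ ∧ (∀ l', l' <+: l → nm (M.chi l'.prod) ≤ H) ∧ l.prod = g} := by
  have hcl : IsClosed {g : M.G | nm (M.chi g) ≤ H} := by
    refine isClosed_le ?_ continuous_const
    exact Real.continuous_sqrt.comp (M.continuous_chi.dotProduct M.continuous_chi)
  have key : ∀ n : ℕ, IsCompact {g : M.G | ∃ l : List M.G,
      (∀ x ∈ l, x ∈ S ∨ x⁻¹ ∈ S) ∧ l.length = n ∧ (∀ l', l' <+: l → nm (M.chi l'.prod) ≤ H) ∧ l.prod = g} := by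
    intro n
    induction n with
    | zero =>
      refine (Set.finite_singleton (1 : M.G)).subset ?_ |>.isCompact
      rintro _ ⟨l, -, h, -, rfl⟩
      rw [List.length_eq_zero_iff.1 h]; rfl
    | succ n ih =>
      convert (ih.mul (hS.union hS.inv)).inter_right hcl using 1
      ext g
      constructor
      · rintro ⟨l, h1, h2, h3, rfl⟩
        obtain rfl | ⟨l₀, x, rfl⟩ := l.eq_nil_or_concat'
        · simp at h2
        · refine ⟨⟨l₀.prod, ⟨l₀, fun y hy => h1 y (by simp [hy]), by simpa using h2,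
            fun l' hl' => h3 l' (hl'.trans (List.prefix_append _ _)), rfl⟩, x, h1 x (by simp), by simp⟩, h3 _ List.prefix_rfl⟩
      · rintro ⟨⟨_, ⟨l, h1, h2, h3, rfl⟩, x, hx, rfl⟩, hg⟩
        refine ⟨l ++ [x], fun y hy => (List.mem_append.1 hy).elim (h1 y) fun h => ?_, by simp [h2], fun l' hl' => ?_, by simp⟩
        · rw [List.mem_singleton.1 h]; exact hx
        · rcases List.prefix_concat_iff.1 hl' with rfl | h
          · simpa using hg
          · exact h3 l' h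
  convert (Set.finite_le_nat ⌊ℓ⌋₊).inter_of_left {n : ℕ | (n : ℝ) ≤ ℓ} |>.isCompact_biUnion fun n _ => key n using 1
  ext g
  simp only [Set.mem_setOf_eq, Set.mem_iUnion, Set.mem_inter_iff]
  constructor
  · rintro ⟨l, h1, h2, h3, h4⟩
    exact ⟨l.length, ⟨Nat.le_floor h2, h2⟩, l, h1, rfl, h3, h4⟩
  · rintro ⟨n, ⟨-, hn⟩, l, h1, rfl, h3, h4⟩
    exact ⟨l, h1, hn, h3, h4⟩
theorem isCompact_Adm (ℓ H : ℝ) : IsCompact (M.Adm ℓ H) := by
  exact M.be_compact M.isCompact_K ℓ H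
theorem isCompact_AdmC (ℓ H : ℝ) : IsCompact (M.AdmC ℓ H) := by
  exact M.be_compact M.cga_isCompact_KC ℓ H

theorem cc_mul (φ : M.G → M.G) (g g' p : M.G) : M.cc φ (g * g') p = M.cc φ g p + M.cc φ g' (p * g) := by
  simp only [cc, mul_assoc]
  abel
theorem cc_one (φ : M.G → M.G) (p : M.G) : M.cc φ 1 p = 0 := by
  rw [cc, mul_one, sub_self]
theorem cc_inv (φ : M.G → M.G) (g p : M.G) : M.cc φ g⁻¹ (p * g) = -M.cc φ g p := by
  rw [cc, cc, mul_inv_cancel_right, neg_sub]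
theorem cc_eq (φ : M.G → M.G) (g p : M.G) : M.cc φ g p = M.chi ((φ p)⁻¹ * φ (p * g)) := by
  rw [cc, chi_mul, chi_inv, neg_add_eq_sub]
theorem er_sub (φ : M.G → M.G) (L : Mat k) (p g : M.G) :
    M.er φ L (p * g) - M.er φ L p = M.cc φ g p - L *ᵥ M.chi g := by
  rw [er, er, cc, chi_mul, mulVec_add]
  abel
theorem Lip.norm_cc {M : Model h k} {K : ℝ} {φ : M.G → M.G} (hφ : M.Lip K φ) (g p : M.G) :
    ‖M.cc φ g p‖ ≤ K * M.len g + K := by
  have := hφ p (p * g)
  rw [inv_mul_cancel_left] at this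
  rw [cc_eq]
  exact (M.norm_chi_le _).trans this
theorem Lip.norm_er {M : Model h k} {K Λ : ℝ} {φ : M.G → M.G} (hφ : M.Lip K φ) {L : Mat k} (hL : Mb L Λ) (g p : M.G) :
    ‖M.er φ L (p * g) - M.er φ L p‖ ≤ (K + k * Λ) * M.len g + K := by
  have h0 : 0 ≤ (k : ℝ) * Λ := by
    rcases Nat.eq_zero_or_pos k with hk | hk
    · simp [hk]
    · exact mul_nonneg (Nat.cast_nonneg _) ((abs_nonneg _).trans (hL ⟨0, hk⟩ ⟨0, hk⟩))
  rw [er_sub]
  refine (norm_sub_le _ _).trans ?_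
  have h1 := hφ.norm_cc g p
  have h2 := (hL.norm_mulVec (M.chi g)).trans (mul_le_mul_of_nonneg_left (M.norm_chi_le g) h0)
  linarith
theorem Lip.mb_Ln {M : Model h k} {K : ℝ} (hK : 0 ≤ K) {φ : M.G → M.G} (hφ : M.Lip K φ) (n : ℕ) (p : M.G) :
    Mb (M.Ln φ n p) (2 * K) := by
  intro i j
  rw [Ln, Matrix.of_apply]
  rcases Nat.eq_zero_or_pos n with rfl | hn
  · simpa using hK
  have hn' : (1 : ℝ) ≤ n := Nat.one_le_cast.2 hn
  have h1 : (M.len (M.gen j ^ n) : ℝ) ≤ n := by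
    have := M.apilena_zpow (M.apilena_gen j) n
    rw [zpow_natCast, Int.natAbs_natCast] at this
    exact Nat.cast_le.2 this
  have h2 := (norm_le_pi_norm (M.cc φ (M.gen j ^ n) p) i).trans (hφ.norm_cc _ p)
  rw [Real.norm_eq_abs] at h2
  rw [abs_div, Nat.abs_cast, div_le_iff₀ (by linarith)]
  nlinarith [mul_le_mul_of_nonneg_left h1 hK, mul_le_mul_of_nonneg_left hn' hK]
theorem QP.lower {M : Model h k} {K : ℝ} (f : M.QP K) (x y : M.G) :
    (M.len (x⁻¹ * y) : ℝ) ≤ K * M.len ((f.φ x)⁻¹ * f.φ y) + 3 * K := by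
  have e : x⁻¹ * y = x⁻¹ * f.ψ (f.φ x) * ((f.ψ (f.φ x))⁻¹ * f.ψ (f.φ y)) * (y⁻¹ * f.ψ (f.φ y))⁻¹ := by group
  have h1 := (M.len_mul (x⁻¹ * f.ψ (f.φ x) * ((f.ψ (f.φ x))⁻¹ * f.ψ (f.φ y))) (y⁻¹ * f.ψ (f.φ y))⁻¹).trans
    (Nat.add_le_add_right (M.len_mul _ _) _)
  rw [← e, M.len_inv] at h1
  have h2 : (M.len (x⁻¹ * y) : ℝ) ≤ M.len (x⁻¹ * f.ψ (f.φ x)) + M.len ((f.ψ (f.φ x))⁻¹ * f.ψ (f.φ y)) +
      M.len (y⁻¹ * f.ψ (f.φ y)) := by exact_mod_cast h1
  linarith [f.left x, f.left y, f.lψ (f.φ x) (f.φ y)]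
theorem measurable_cc {φ : M.G → M.G} (hφ : Measurable φ) : Measurable fun z : M.G × M.G => M.cc φ z.1 z.2 := by
  exact (M.measurable_chi.comp (hφ.comp (measurable_snd.mul measurable_fst))).sub
    (M.measurable_chi.comp (hφ.comp measurable_snd))
theorem measurable_er {φ : M.G → M.G} (hφ : Measurable φ) (L : Mat k) : Measurable (M.er φ L) := by
  have h1 : Measurable fun v : Fin k → ℝ => L *ᵥ v := (continuous_const.matrix_mulVec continuous_id).measurable
  exact (M.measurable_chi.comp hφ).sub (h1.comp M.measurable_chi)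
theorem PF.mono {M : Model h k} {φ : M.G → M.G} {p : M.G} {w : ℝ} {L : Mat k} {κ : Fin k → ℝ} {t ε t' ε' : ℝ}
    (hP : M.PF φ p w L κ t ε) (hw : 0 ≤ w) (ht : t' ≤ t) (hε : ε ≤ ε') : M.PF φ p w L κ t' ε' := by
  intro s hs g hg
  refine (measure_mono fun x hx => ?_).trans ((hP s ⟨hs.1, hs.2.trans ht⟩ g (M.Adm_mono
    (mul_le_mul_of_nonneg_right ht hw) (mul_le_mul_of_nonneg_right (by linarith) hw) hg)).trans
    (ENNReal.ofReal_le_ofReal hε))
  exact (mul_le_mul_of_nonneg_right hε hw).trans_lt hx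
/-- changing the matrix a little (`chi (p * x * g) = chi p + chi g`, `‖chi g‖ ≤ w`) -/
theorem PF.perturb {M : Model h k} {φ : M.G → M.G} {p : M.G} {w : ℝ} {L L' : Mat k} {κ : Fin k → ℝ} {t ε η : ℝ}
    (hP : M.PF φ p w L κ t ε) (hw : 0 ≤ w) (hε : 0 ≤ ε) (hη : 0 ≤ η) (hL : Mb (L - L') η) :
    M.PF φ p w L' (κ + (L - L') *ᵥ M.chi p) t (ε + k * η) := by
  intro s hs g hg
  have h0 : 0 ≤ (k : ℝ) * η := by positivity
  have hg1 : ‖M.chi g‖ ≤ w := by
    have := (norm_le_nm _).trans (M.nm_chi_le_of_Adm hg)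
    nlinarith [mul_nonneg hε hw, mul_nonneg h0 hw]
  have hae : ∀ᵐ x ∂(M.lw M.E (s • M.Box w)), M.chi x = 0 := by
    refine ProbabilityTheory.cond_absolutelyContinuous.ae_le ?_
    rw [mem_ae_iff, M.hm_apply]
    convert measure_empty (μ := lebU M.E)
    exact Set.eq_empty_of_forall_notMem fun X hX => hX (M.chi_exp X)
  refine (measure_mono_ae ?_).trans ((hP s hs g (M.Adm_mono le_rfl
    (mul_le_mul_of_nonneg_right (by linarith) hw) hg)).trans (ENNReal.ofReal_le_ofReal (by linarith)))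
  filter_upwards [hae] with x hx h1
  have e : M.er φ L' (p * x * g) - (κ + (L - L') *ᵥ M.chi p) =
      M.er φ L (p * x * g) - κ + (L - L') *ᵥ M.chi g := by
    simp only [er, chi_mul, hx, add_zero, mulVec_add, sub_mulVec]
    abel
  have h2 : (ε + k * η) * w < ‖M.er φ L' (p * x * g) - (κ + (L - L') *ᵥ M.chi p)‖ := h1
  rw [e] at h2
  have h3 := h2.trans_le (norm_add_le _ _)
  have h4 := (hL.norm_mulVec (M.chi g)).trans (mul_le_mul_of_nonneg_left hg1 h0)
  show ε * w < ‖M.er φ L (p * x * g) - κ‖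
  linarith

omit M in
theorem _root_.Crest.Agent.R182.Inv.mono {G : Type*} [Mul G] [MeasurableSpace G] {μ : Measure G} {S S' : Set G} {η η' : ℝ}
    (hμ : Inv μ S η) (hS : S' ⊆ S) (hη : η ≤ η') : Inv μ S' η' := by
  exact fun s hs A hA => (hμ s (hS hs) A hA).trans (add_le_add le_rfl (ENNReal.ofReal_le_ofReal hη))
/-- for arbitrary sets (`toMeasurable`) -/
theorem Inv_apply {μ : Measure M.G} {S : Set M.G} {η : ℝ} (hμ : Inv μ S η) {s : M.G} (hs : s ∈ S) (A : Set M.G) :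
    μ {p | p * s ∈ A} ≤ μ A + ENNReal.ofReal η := by
  refine (measure_mono (t := (· * s) ⁻¹' toMeasurable μ A) fun p hp => subset_toMeasurable μ A hp).trans ?_
  simpa only [measure_toMeasurable] using hμ s hs _ (measurableSet_toMeasurable μ A)
theorem Inv_lintegral {μ : Measure M.G} [IsProbabilityMeasure μ] {S : Set M.G} {η : ℝ} (hμ : Inv μ S η) {s : M.G} (hs : s ∈ S)
    {f : M.G → ℝ≥0∞} (hf : Measurable f) (h1 : ∀ p, f p ≤ 1) : ∫⁻ p, f (p * s) ∂μ ≤ ∫⁻ p, f p ∂μ + ENNReal.ofReal η := by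
  have e : ∀ p, f p = ENNReal.ofReal (f p).toReal := fun p =>
    (ENNReal.ofReal_toReal ((h1 p).trans_lt ENNReal.one_lt_top).ne).symm
  have m1 : Measurable fun p => (f p).toReal := hf.ennreal_toReal
  have m2 : Measurable fun p => (f (p * s)).toReal := m1.comp (measurable_mul_const s)
  rw [lintegral_congr fun p => e (p * s), lintegral_congr e,
    lintegral_eq_lintegral_meas_lt μ (Eventually.of_forall fun _ => ENNReal.toReal_nonneg) m2.aemeasurable,
    lintegral_eq_lintegral_meas_lt μ (Eventually.of_forall fun _ => ENNReal.toReal_nonneg) m1.aemeasurable]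
  have h2 : ∫⁻ t in Ioi (0 : ℝ), (Iio (1 : ℝ)).indicator (fun _ => ENNReal.ofReal η) t = ENNReal.ofReal η := by
    rw [lintegral_indicator measurableSet_Iio, Measure.restrict_restrict measurableSet_Iio, setLIntegral_const,
      inter_comm, Ioi_inter_Iio, Real.volume_Ioo, sub_zero, ENNReal.ofReal_one, mul_one]
  rw [← h2, ← lintegral_add_right _ (measurable_const.indicator measurableSet_Iio)]
  refine lintegral_mono fun t => ?_
  by_cases ht : t < 1
  · rw [indicator_of_mem (show t ∈ Iio (1 : ℝ) from ht)]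
    exact M.Inv_apply hμ hs {a | t < (f a).toReal}
  · have : {a | t < (f (a * s)).toReal} = ∅ := eq_empty_of_forall_notMem fun a ha =>
      ht (lt_of_lt_of_le ha (ENNReal.toReal_le_of_le_ofReal zero_le_one (by simpa using h1 _)))
    simp [this]
/-- Averaging.  If `ν` is almost invariant under `S⁻¹`, `la` is carried by `S`, and outside an arbitrary set `Ω` the `la`-fraction of `A`
in `p * S` is at most `a`, then `ν A ≤ a + ν Ω + η` (Fubini; `toMeasurable ν Ω`). -/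
theorem Inv_average {ν la : Measure M.G} [IsProbabilityMeasure ν] [IsProbabilityMeasure la] {S : Set M.G} {η : ℝ}
    (hν : Inv ν S⁻¹ η) (hS : la Sᶜ = 0) {A : Set M.G} (hA : MeasurableSet A) {Ω : Set M.G} {a : ℝ≥0∞}
    (ha : ∀ p ∉ Ω, la {x | p * x ∈ A} ≤ a) : ν A ≤ a + ν Ω + ENNReal.ofReal η := by
  have hB : MeasurableSet {z : M.G × M.G | z.1 * z.2 ∈ A} := (measurable_fst.mul measurable_snd) hA
  have h1 : ∀ᵐ x ∂la, ν A ≤ ν ((fun q => (q, x)) ⁻¹' {z : M.G × M.G | z.1 * z.2 ∈ A}) + ENNReal.ofReal η := by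
    filter_upwards [show ∀ᵐ x ∂la, x ∈ S from hS] with x hx
    have := M.Inv_apply hν (s := x⁻¹) (by simpa using hx) {q | q * x ∈ A}
    simpa using this
  have h2 := lintegral_mono_ae h1
  rw [lintegral_const, measure_univ, mul_one, lintegral_add_right _ measurable_const, lintegral_const, measure_univ, mul_one,
    ← Measure.prod_apply_symm hB, Measure.prod_apply hB] at h2
  refine h2.trans (add_le_add ?_ le_rfl)
  have h3 : ∫⁻ q, a + (toMeasurable ν Ω).indicator 1 q ∂ν = a + ν Ω := by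
    rw [lintegral_add_left measurable_const, lintegral_const, measure_univ, mul_one,
      lintegral_indicator_one (measurableSet_toMeasurable ν Ω), measure_toMeasurable]
  rw [← h3]
  refine lintegral_mono fun q => ?_
  by_cases hq : q ∈ Ω
  · rw [indicator_of_mem (subset_toMeasurable ν Ω hq)]
    exact prob_le_one.trans le_add_self
  · exact (ha q hq).trans le_self_add
/-- Markov: if `ν {p | (p, x) ∈ A} ≤ a` for `la`-almost all `x` then the set of `p` with a large fibre is small -/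
theorem markov_fubini {ν la : Measure M.G} [IsProbabilityMeasure ν] [IsProbabilityMeasure la] {A : Set (M.G × M.G)}
    (hA : MeasurableSet A) {a b : ℝ≥0∞} (hb : b ≠ 0) (ha : ∀ᵐ x ∂la, ν {p | (p, x) ∈ A} ≤ a) :
    ν {p | b < la {x | (p, x) ∈ A}} ≤ a / b := by
  by_cases hb' : b = ⊤
  · simp [hb']
  have hm : Measurable fun p => la (Prod.mk p ⁻¹' A) := measurable_measure_prodMk_left hA
  refine (measure_mono (t := {p | b ≤ la (Prod.mk p ⁻¹' A)}) fun p hp => (show b < la (Prod.mk p ⁻¹' A) from hp).le).trans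
    ((meas_ge_le_lintegral_div hm.aemeasurable hb hb').trans ?_)
  refine ENNReal.div_le_div_right ?_ b
  rw [← Measure.prod_apply hA, Measure.prod_apply_symm hA]
  exact (lintegral_mono_ae ha).trans_eq (by rw [lintegral_const, measure_univ, mul_one])

end Model

end Crest.Agent.R182
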