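import Crest.Agent.R182.B.V

/-! R182/B/Bx: boxes (public statements FROZEN). -/

set_option autoImplicit false
set_option linter.unusedVariables false
set_option linter.unusedSectionVars false
open Set Filter Topology MeasureTheory ProbabilityTheory Matrix Crest.GroupTheory
open scoped Pointwise commutatorElement ENNReal

noncomputable section
namespace Crest.Agent.R182

namespace Model
variable {h k : ℕ} (M : Model h k)

theorem bxf_len : ∃ Λ : ℝ, 1 ≤ Λ ∧ ∀ r : ℝ, 1 ≤ r → ∀ X ∈ M.E, ‖X‖ ≤ Real.exp r → M.exp X ∈ M.ballR (Λ * r) := by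
  obtain ⟨B, hB, hb⟩ := M.logS_E
  refine ⟨3 * B + 1, by linarith, fun r hr X hX h => (hb X hX).trans ?_⟩
  have h1 : Real.log (2 + ‖X‖) ≤ 3 * r := by
    rw [Real.log_le_iff_le_exp (by positivity), show 3 * r = 2 * r + r by ring, Real.exp_add]
    nlinarith [Real.add_one_le_exp (2 * r), Real.add_one_le_exp r]
  nlinarith [mul_le_mul_of_nonneg_left h1 hB]
theorem bxf_RV {w : ℝ} (hw : 0 ≤ w) {X : V h} (hX : X ∈ M.RV w) : ‖X‖ ≤ Real.exp ((1 + ∑ j, nm (M.wt j)) * w) := by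
  by_cases h0 : X = 0
  · rw [h0, norm_zero]; positivity
  obtain ⟨α, -, hα, hX⟩ := hX.resolve_left h0
  obtain ⟨j, rfl⟩ := M.W_ne_bot.1 (Submodule.ne_bot_iff _ |>.2 ⟨X, hα, h0⟩)
  refine hX.trans (Real.exp_le_exp.2 ?_)
  nlinarith [Finset.single_le_sum (f := fun j => nm (M.wt j)) (fun j _ => nm_nonneg _) (Finset.mem_univ j)]

theorem bxf_map {𝒱 𝒱' : Set (V h)} (g : M.G) (hv : ∀ X ∈ 𝒱, M.Ad g X ∈ 𝒱') {i : ℕ} {X : V h} (hX : X ∈ M.Qi 𝒱 i) :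
    M.Ad g X ∈ M.Qi 𝒱' i := by
  refine convexHull_min ?_ (M.toCore.convex_Qi.linear_preimage (M.Ad g)) hX
  rintro _ ⟨Y, hY, l, hl, hl', rfl⟩
  refine subset_convexHull _ _ ⟨_, hv Y hY, l.map (M.Ad g), by simpa using hl, by simpa using fun Z hZ => hv Z (hl' Z hZ), ?_⟩
  clear hl hl'
  induction l with
  | nil => rfl
  | cons Z l ih => exact (M.Ad_br g Z _).trans (congrArg _ ih)
omit M in
theorem bxf_poly (B : ℝ) (D : ℕ) {ε : ℝ} (hε : 0 < ε) : ∀ᶠ r : ℝ in atTop, B * (1 + r) ^ D ≤ Real.exp (ε * r) := by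
  obtain ⟨C, hC, hc⟩ := apiloga_pow (half_pos hε) D
  filter_upwards [eventually_ge_atTop 0, eventually_ge_atTop (|B| * C / (ε / 2))] with r h0 hr
  rw [div_le_iff₀ (half_pos hε)] at hr
  calc _ ≤ |B| * (C * Real.exp (ε / 2 * r)) := by gcongr; exacts [le_abs_self B, hc r h0]
    _ ≤ Real.exp (ε / 2 * r) * Real.exp (ε / 2 * r) := by
      rw [← mul_assoc]; gcongr; linarith [Real.add_one_le_exp (ε / 2 * r)]
    _ = _ := by rw [← Real.exp_add]; congr 1; ring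

omit M in
/-- Carathéodory -/
theorem _root_.Crest.Agent.R182.isCompact_convexHull' {S : Set (V h)} (hS : IsCompact S) : IsCompact (convexHull ℝ S) := by
  have e : convexHull ℝ S = ⋃ n ∈ Set.Iic (h + 1), (fun p : (Fin n → ℝ) × (Fin n → V h) => ∑ i, p.1 i • p.2 i) ''
      (stdSimplex ℝ (Fin n) ×ˢ Set.univ.pi fun _ => S) := by
    refine Subset.antisymm (fun x hx => ?_) (iUnion₂_subset fun n _ => ?_)
    · obtain ⟨ι, _, z, w, hz, hi, hw, h1, rfl⟩ := eq_pos_convex_span_of_mem_convexHull hx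
      have hc : Fintype.card ι ≤ h + 1 := hi.card_le_finrank_succ.trans (by
        simpa using Submodule.finrank_le (vectorSpan ℝ (range z)))
      let e := (Fintype.equivFin ι).symm
      refine mem_iUnion₂.2 ⟨_, hc, (w ∘ e, z ∘ e), ⟨⟨fun i => (hw _).le, (e.sum_comp w).trans h1⟩,
        fun i _ => hz ⟨_, rfl⟩⟩, e.sum_comp fun i => w i • z i⟩
    · rintro _ ⟨p, ⟨⟨h0, h1⟩, h2⟩, rfl⟩
      exact mem_convexHull_of_exists_fintype p.1 p.2 h0 h1 (fun i => h2 i trivial) rfl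
  rw [e]
  exact (finite_Iic _).isCompact_biUnion fun n _ =>
    ((isCompact_stdSimplex ℝ _).prod (isCompact_univ_pi fun _ => hS)).image (by fun_prop)
theorem isCompact_Qi {𝒱 : Set (V h)} (hs : Star 𝒱) (h𝒱 : IsCompact 𝒱) (i : ℕ) : IsCompact (M.Qi 𝒱 i) := by
  have hbr : Continuous fun p : V h × V h => M.br p.1 p.2 :=
    ((LinearMap.toContinuousLinearMap.toLinearMap ∘ₗ M.br).continuous_of_finiteDimensional.comp continuous_fst).clm_apply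
      continuous_snd
  let A : ℕ → Set (V h) := fun n => {X | ∃ Y ∈ 𝒱, ∃ l : List (V h), l.length = n ∧ (∀ Z ∈ l, Z ∈ 𝒱) ∧ X = M.nb l Y}
  have hA : ∀ n, IsCompact (A n) := by
    intro n
    induction n with
    | zero => exact (show A 0 = 𝒱 by ext X; simp [A]) ▸ h𝒱
    | succ n ih =>
      have : A (n + 1) = (fun p : V h × V h => M.br p.1 p.2) '' (𝒱 ×ˢ A n) := by
        ext X
        constructor
        · rintro ⟨Y, hY, l, hl, hm, rfl⟩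
          obtain _ | ⟨Z, l⟩ := l
          · simp at hl
          · exact ⟨(Z, M.nb l Y), ⟨hm Z (by simp), Y, hY, l, by simpa using hl, fun W hW => hm W (by simp [hW]), rfl⟩, rfl⟩
        · rintro ⟨⟨Z, _⟩, ⟨hZ, Y, hY, l, hl, hm, rfl⟩, rfl⟩
          exact ⟨Y, hY, Z :: l, by simpa using hl, by simpa using ⟨hZ, hm⟩, rfl⟩
      exact this ▸ (h𝒱.prod ih).image hbr
  have e : M.Nb 𝒱 i = insert 0 (⋃ n ∈ {n | n < M.cl ∧ i ≤ n + 1}, A n) := by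
    refine Subset.antisymm ?_ (insert_subset (Core.zero_mem_Nb hs) (iUnion₂_subset fun n hn => ?_))
    · rintro _ ⟨Y, hY, l, hl, hm, rfl⟩
      rcases le_or_gt M.cl l.length with h1 | h1
      · exact Or.inl (M.nb_eq_zero h1 Y)
      · exact Or.inr (mem_iUnion₂.2 ⟨l.length, ⟨h1, hl⟩, Y, hY, l, rfl, hm, rfl⟩)
    · rintro _ ⟨Y, hY, l, rfl, hm, rfl⟩
      exact ⟨Y, hY, l, hn.2, hm, rfl⟩
  refine isCompact_convexHull' ?_
  rw [e]
  exact (((finite_lt_nat M.cl).subset fun n hn => hn.1).isCompact_biUnion fun n _ => hA n).insert 0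
theorem Qi_subset {𝒱 : Set (V h)} {U : Submodule ℝ (V h)} (hU : M.IsSub U) (h𝒱 : 𝒱 ⊆ U) (i : ℕ) : M.Qi 𝒱 i ⊆ U := by
  refine convexHull_min ?_ U.convex
  rintro _ ⟨Y, hY, l, -, hm, rfl⟩
  induction l with
  | nil => exact h𝒱 hY
  | cons Z l ih => exact hU Z (h𝒱 (hm Z (by simp))) _ (ih fun W hW => hm W (by simp [hW]))
theorem norm_Qi : ∃ B : ℝ, 1 ≤ B ∧ ∀ (𝒱 : Set (V h)) (r : ℝ), 1 ≤ r → (∀ X ∈ 𝒱, ‖X‖ ≤ Real.exp r) → ∀ X ∈ M.Qi 𝒱 1,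
    ‖X‖ ≤ Real.exp (B * r) := by
  obtain ⟨B, hB, hbr⟩ := M.exists_norm_br
  have hc : (0 : ℝ) ≤ M.cl := Nat.cast_nonneg _
  refine ⟨(B + 1) * M.cl + 1, le_add_of_nonneg_left (by positivity), fun 𝒱 r hr h𝒱 X hX => ?_⟩
  have key : ∀ Y ∈ 𝒱, ∀ l : List (V h), (∀ Z ∈ l, Z ∈ 𝒱) → ‖M.nb l Y‖ ≤ Real.exp (((B + 1) * l.length + 1) * r) := by
    intro Y hY l hm
    induction l with
    | nil => simpa using h𝒱 Y hY
    | cons Z l ih =>
      have h1 : B ≤ Real.exp (B * r) := by nlinarith [Real.add_one_le_exp (B * r)]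
      rw [Core.nb_cons, List.length_cons, show ((B + 1) * ((l.length + 1 : ℕ) : ℝ) + 1) * r =
        B * r + r + ((B + 1) * l.length + 1) * r by push_cast; ring, Real.exp_add, Real.exp_add]
      refine (hbr _ _).trans ?_
      gcongr
      exacts [h𝒱 Z (hm Z (by simp)), ih fun W hW => hm W (by simp [hW])]
  refine mem_closedBall_zero_iff.1 (convexHull_min ?_ (convex_closedBall 0 _) hX)
  rintro _ ⟨Y, hY, l, -, hm, rfl⟩
  rw [mem_closedBall_zero_iff]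
  rcases le_or_gt M.cl l.length with h1 | h1
  · rw [M.nb_eq_zero h1, norm_zero]; positivity
  · refine (key Y hY l hm).trans ?_
    gcongr
omit M in
theorem bxb_norm {a r : ℝ} (ha : |a| ≤ 1) {X : V h} (hX : ‖X‖ ≤ r) : ‖a • X‖ ≤ r := by
  rw [norm_smul]
  exact (mul_le_of_le_one_left (norm_nonneg _) ha).trans hX
omit M in
theorem bxb_compact (U : Submodule ℝ (V h)) (r : ℝ) : IsCompact {X | X ∈ U ∧ ‖X‖ ≤ r} := by
  exact ((isCompact_closedBall (0 : V h) r).inter_left U.closed_of_finiteDimensional).of_isClosed_subset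
    (U.closed_of_finiteDimensional.inter (isClosed_le continuous_norm continuous_const))
    fun X hX => ⟨hX.1, mem_closedBall_zero_iff.2 hX.2⟩
theorem star_RV (w : ℝ) : Star (M.RV w) := by
  refine ⟨Or.inl rfl, ?_⟩
  rintro a ha X (rfl | ⟨α, h0, h1, h2⟩)
  exacts [Or.inl (smul_zero a), Or.inr ⟨α, h0, Submodule.smul_mem _ _ h1, bxb_norm ha h2⟩]
theorem star_EV (ρ : ℝ) : Star (M.EV ρ) := by
  exact ⟨⟨zero_mem _, norm_zero.trans_le (Real.exp_pos ρ).le⟩, fun a ha X hX =>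
    ⟨Submodule.smul_mem _ _ hX.1, bxb_norm ha hX.2⟩⟩
theorem bxb_compact_RV (w : ℝ) : IsCompact (M.RV w) := by
  have h1 : M.RV w = {0} ∪ ⋃ j ∈ {j | M.wt j ≠ 0}, {X | X ∈ M.W (M.wt j) ∧ ‖X‖ ≤ Real.exp (w * nm (M.wt j))} := by
    ext X
    simp only [RV, mem_ofPred_eq, mem_union, mem_singleton_iff, mem_iUnion, exists_prop]
    refine ⟨?_, fun hX => hX.imp_right fun ⟨j, hj⟩ => ⟨_, hj⟩⟩
    rintro (rfl | ⟨α, h0, h1, h2⟩)
    · exact Or.inl rfl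
    by_cases hX : X = 0
    · exact Or.inl hX
    obtain ⟨j, rfl⟩ := M.W_ne_bot.1 ((Submodule.ne_bot_iff _).2 ⟨X, h1, hX⟩)
    exact Or.inr ⟨j, h0, h1, h2⟩
  rw [h1]
  exact isCompact_singleton.union ((toFinite _).isCompact_biUnion fun j _ => bxb_compact _ _)
theorem isCompact_Box (w : ℝ) : IsCompact (M.Box w) := by
  exact M.isCompact_Qi (M.star_RV w) (M.bxb_compact_RV w) 1
theorem isCompact_Gv (ρ : ℝ) : IsCompact (M.Gv ρ) := by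
  exact M.isCompact_Qi (M.star_EV ρ) (bxb_compact _ _) 1
theorem Box_subset_E (w : ℝ) : M.Box w ⊆ M.E := by
  refine M.Qi_subset (Core.IsIdl.isSub _ M.isIdl_E) ?_ 1
  rintro X (rfl | ⟨α, h0, h1, -⟩)
  exacts [M.E.zero_mem, M.W_le_E h0 h1]
theorem Gv_subset_E (ρ : ℝ) : M.Gv ρ ⊆ M.E := by
  exact M.Qi_subset (Core.IsIdl.isSub _ M.isIdl_E) (fun X hX => hX.1) 1
theorem EV_subset_Gv (ρ : ℝ) : M.EV ρ ⊆ M.Gv ρ := by
  exact fun X hX => subset_convexHull _ _ ⟨X, hX, [], le_rfl, by simp, rfl⟩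
theorem RV_subset_Box (w : ℝ) : M.RV w ⊆ M.Box w := by
  exact fun X hX => subset_convexHull _ _ ⟨X, hX, [], le_rfl, by simp, rfl⟩
theorem Box_mono {w w' : ℝ} (hw : w ≤ w') : M.Box w ⊆ M.Box w' := by
  exact Core.Qi_mono fun X hX => hX.imp_right fun ⟨α, h0, h1, h2⟩ =>
    ⟨α, h0, h1, h2.trans (Real.exp_le_exp.2 (mul_le_mul_of_nonneg_right hw (nm_nonneg α)))⟩
theorem Gv_mono {ρ ρ' : ℝ} (hρ : ρ ≤ ρ') : M.Gv ρ ⊆ M.Gv ρ' := by
  exact Core.Qi_mono fun X hX => ⟨hX.1, hX.2.trans (Real.exp_le_exp.2 hρ)⟩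
theorem smul_Qi_mono {𝒱 : Set (V h)} (hs : Star 𝒱) {s t : ℝ} (h0 : 0 ≤ s) (hst : s ≤ t) : s • M.Qi 𝒱 1 ⊆ t • M.Qi 𝒱 1 := by
  exact fun X hX => Core.In.mono hs hX h0 hst
theorem inv_exp_Qi {𝒱 : Set (V h)} (hs : Star 𝒱) (t : ℝ) : (M.exp '' (t • M.Qi 𝒱 1))⁻¹ = M.exp '' (t • M.Qi 𝒱 1) := by
  have h1 : ∀ g ∈ M.exp '' (t • M.Qi 𝒱 1), g⁻¹ ∈ M.exp '' (t • M.Qi 𝒱 1) := by
    rintro _ ⟨X, hX, rfl⟩
    exact ⟨-X, Core.In.neg hs hX, M.exp_neg X⟩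
  exact Subset.antisymm (fun g hg => inv_inv g ▸ h1 _ hg) fun g hg => h1 g hg
theorem bxc_scale {𝒱 𝒱' : Set (V h)} (hs : Star 𝒱') {t T : ℝ} (ht : 0 ≤ t)
    (hT : ∀ n : ℕ, n < M.cl → t ^ (n + 1) ≤ T) (hv : ∀ X ∈ 𝒱, ∃ X' ∈ 𝒱', X = t • X') :
    M.Qi 𝒱 1 ⊆ T • M.Qi 𝒱' 1 := by
  refine convexHull_min ?_ (Core.convex_Qi.smul T)
  rintro _ ⟨Y, hY, l, -, hl, rfl⟩
  by_cases hc : M.cl ≤ l.length
  · rw [M.nb_eq_zero hc]
    exact Core.In.zero hs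
  have key : ∀ l : List (V h), (∀ Z ∈ l, Z ∈ 𝒱) → M.In 𝒱' 1 (t ^ (l.length + 1)) (M.nb l Y) := by
    intro l hl
    induction l with
    | nil =>
      obtain ⟨Y', hY', rfl⟩ := hv Y hY
      simpa using (Core.In.of_gen (c := M.toCore) hY').smul t
    | cons Z l ih =>
      obtain ⟨Z', hZ', rfl⟩ := hv Z (hl Z (by simp))
      have := (((ih fun W hW => hl W (by simp [hW])).br_gen hZ').one).smul t
      rw [Core.nb_cons, map_smul, LinearMap.smul_apply, List.length_cons, pow_succ']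
      exact this
  exact (key l hl).mono hs (by positivity) (hT _ (not_le.1 hc))
theorem bxc_up {𝒱 𝒱' : Set (V h)} (hs : Star 𝒱') {a B : ℝ} (ha : 0 ≤ a) (hB : M.cl * a ≤ B)
    (hv : ∀ X ∈ 𝒱, ∃ X' ∈ 𝒱', X = Real.exp a • X') : M.Qi 𝒱 1 ⊆ Real.exp B • M.Qi 𝒱' 1 := by
  refine M.bxc_scale hs (Real.exp_pos a).le (fun n hn => ?_) hv
  rw [← Real.exp_nat_mul]
  refine Real.exp_le_exp.2 (le_trans (mul_le_mul_of_nonneg_right ?_ ha) hB)
  exact_mod_cast hn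
theorem bxc_down {𝒱 𝒱' : Set (V h)} (hs : Star 𝒱') {a : ℝ} (ha : 0 ≤ a)
    (hv : ∀ X ∈ 𝒱, ∃ X' ∈ 𝒱', X = Real.exp (-a) • X') : M.Qi 𝒱 1 ⊆ Real.exp (-a) • M.Qi 𝒱' 1 :=
  M.bxc_scale hs (Real.exp_pos _).le (fun n hn =>
    pow_le_of_le_one (Real.exp_pos _).le (Real.exp_le_one_iff.2 (by linarith)) n.succ_ne_zero) hv
omit M in
theorem bxc_norm {a r r' : ℝ} {X : V h} (hX : ‖X‖ ≤ Real.exp r) (hr : r ≤ a + r') :
    ‖Real.exp (-a) • X‖ ≤ Real.exp r' ∧ X = Real.exp a • Real.exp (-a) • X := by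
  refine ⟨?_, by rw [smul_smul, ← Real.exp_add, add_neg_cancel, Real.exp_zero, one_smul]⟩
  rw [norm_smul, Real.norm_of_nonneg (Real.exp_pos _).le]
  refine (mul_le_mul_of_nonneg_left hX (Real.exp_pos _).le).trans ?_
  rw [← Real.exp_add]
  exact Real.exp_le_exp.2 (by linarith)
theorem bxc_RV {w w' a : ℝ} (ha : ∀ j, M.wt j ≠ 0 → w * nm (M.wt j) ≤ a + w' * nm (M.wt j)) :
    ∀ X ∈ M.RV w, ∃ X' ∈ M.RV w', X = Real.exp a • X' := by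
  intro X hX
  by_cases h0 : X = 0
  · exact ⟨0, Or.inl rfl, by rw [h0, smul_zero]⟩
  obtain ⟨α, hα0, hα, hX⟩ := hX.resolve_left h0
  obtain ⟨j, rfl⟩ := M.W_ne_bot.1 (Submodule.ne_bot_iff _ |>.2 ⟨X, hα, h0⟩)
  exact ⟨_, Or.inr ⟨_, hα0, Submodule.smul_mem _ _ hα, (bxc_norm hX (ha j hα0)).1⟩, (bxc_norm hX (ha j hα0)).2⟩
theorem bxc_EV {ρ ρ' a : ℝ} (ha : ρ ≤ a + ρ') : ∀ X ∈ M.EV ρ, ∃ X' ∈ M.EV ρ', X = Real.exp a • X' :=
  fun X hX => ⟨_, ⟨Submodule.smul_mem _ _ hX.1, (bxc_norm hX.2 ha).1⟩, (bxc_norm hX.2 ha).2⟩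
theorem bxc_abs {X : V h} (hX : X ∈ M.E) : ∃ t : ℝ, 0 ≤ t ∧ M.In (M.RV 0) 1 t X := by
  have hs := M.star_RV 0
  let P : Submodule ℝ (V h) :=
    { carrier := {X | ∃ t : ℝ, 0 ≤ t ∧ M.In (M.RV 0) 1 t X}
      add_mem' := fun ⟨t, ht, h1⟩ ⟨s, hs', h2⟩ => ⟨t + s, add_nonneg ht hs', h1.add h2 ht hs'⟩
      zero_mem' := ⟨0, le_rfl, Core.In.zero hs⟩
      smul_mem' := fun a X ⟨t, ht, h1⟩ => ⟨|a| * t, by positivity, h1.smul_abs hs ht a⟩ }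
  have hW : ∀ α : Fin k → ℝ, α ≠ 0 → ∀ X ∈ M.W α, ∃ X' ∈ M.RV 0, X = Real.exp ‖X‖ • X' := fun α hα X hX => by
    have h1 := bxc_norm (a := ‖X‖) (r := ‖X‖) (r' := 0 * nm α) (X := X) (by linarith [Real.add_one_le_exp ‖X‖]) (by simp)
    exact ⟨_, Or.inr ⟨α, hα, Submodule.smul_mem _ _ hX, h1.1⟩, h1.2⟩
  suffices H : M.E ≤ P from H hX
  rw [M.E_eq]
  refine iSup_le fun α => sup_le (fun X hX => ?_) (Submodule.map₂_le.2 fun X hX Y hY => ?_)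
  · obtain ⟨X', h1, h2⟩ := hW α.1 α.2 X hX
    rw [h2]
    exact P.smul_mem _ ⟨1, zero_le_one, Core.In.of_gen h1⟩
  · obtain ⟨X', h1, h2⟩ := hW α.1 α.2 X hX
    obtain ⟨Y', h3, h4⟩ := hW _ (neg_ne_zero.2 α.2) Y hY
    rw [h2, h4, map_smul, map_smul, LinearMap.smul_apply]
    exact P.smul_mem _ (P.smul_mem _ ⟨1, zero_le_one, ((Core.In.of_gen h3).br_gen h1).one⟩)
/-- scaling of the boxes: a nested bracket has between `1` and `cl` letters -/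
theorem Box_scale : ∃ b B : ℝ, 0 < b ∧ b ≤ B ∧ ∀ w s : ℝ, 0 ≤ s →
    M.Box (w + s) ⊆ Real.exp (B * s) • M.Box w ∧ M.Box w ⊆ Real.exp (-(b * s)) • M.Box (w + s) := by
  obtain ⟨A, hA, hA'⟩ : ∃ A : ℝ, 0 ≤ A ∧ ∀ j, nm (M.wt j) ≤ A := ⟨∑ j, nm (M.wt j), Finset.sum_nonneg fun j _ => nm_nonneg _,
    fun j => Finset.single_le_sum (f := fun j => nm (M.wt j)) (fun j _ => nm_nonneg _) (Finset.mem_univ j)⟩
  obtain ⟨b, hb, hb'⟩ : ∃ b : ℝ, 0 < b ∧ ∀ j, M.wt j ≠ 0 → b ≤ nm (M.wt j) := by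
    have h0 : ∀ j, 0 ≤ (nm (M.wt j))⁻¹ := fun j => inv_nonneg.2 (nm_nonneg _)
    have h1 : 0 < 1 + ∑ j, (nm (M.wt j))⁻¹ := add_pos_of_pos_of_nonneg one_pos (Finset.sum_nonneg fun j _ => h0 j)
    refine ⟨(1 + ∑ j, (nm (M.wt j))⁻¹)⁻¹, inv_pos.2 h1, fun j hj => inv_le_of_inv_le₀ (nm_pos hj) ?_⟩
    linarith [Finset.single_le_sum (f := fun j => (nm (M.wt j))⁻¹) (fun j _ => h0 j) (Finset.mem_univ j)]
  have h2 : (0 : ℝ) ≤ M.cl * A := by positivity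
  refine ⟨b, b + M.cl * A, hb, by linarith, fun w s hs => ⟨?_, ?_⟩⟩
  · refine M.bxc_up (M.star_RV w) (a := A * s) (by positivity) (by nlinarith) (M.bxc_RV fun j hj => ?_)
    nlinarith [hA' j]
  · refine M.bxc_down (M.star_RV _) (by positivity) (M.bxc_RV fun j hj => ?_)
    nlinarith [hb' j hj]
theorem Gv_scale : ∃ B : ℝ, 1 ≤ B ∧ ∀ ρ s : ℝ, 0 ≤ s →
    M.Gv (ρ + s) ⊆ Real.exp (B * s) • M.Gv ρ ∧ M.Gv ρ ⊆ Real.exp (-s) • M.Gv (ρ + s) := by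
  have h2 : (0 : ℝ) ≤ M.cl := by positivity
  exact ⟨1 + M.cl, by linarith, fun ρ s hs => ⟨M.bxc_up (M.star_EV ρ) hs (by nlinarith) (M.bxc_EV (by linarith)),
    M.bxc_down (M.star_EV _) hs (M.bxc_EV (by linarith))⟩⟩
/-- `E_eq`: `E` is spanned by root vectors and brackets of two root vectors, so its unit ball lies in `D • Box 0` -/
theorem EV_zero_subset : ∃ D : ℝ, 1 ≤ D ∧ M.EV 0 ⊆ D • M.Box 0 := by
  have hs := M.star_RV 0
  let e := Module.finBasis ℝ M.E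
  choose t ht using fun i => M.bxc_abs (e i).2
  obtain ⟨C, hC, hL⟩ := (LinearMap.toContinuousLinearMap e.equivFun.toLinearMap).bound
  refine ⟨1 + ∑ i, C * t i, le_add_of_nonneg_right (Finset.sum_nonneg fun i _ => mul_nonneg hC.le (ht i).1),
    fun X hX => ?_⟩
  have h1 : X = ∑ i, e.equivFun ⟨X, hX.1⟩ i • (e i : V h) := by
    have := congrArg M.E.subtype (e.sum_equivFun ⟨X, hX.1⟩).symm
    rw [map_sum] at this
    exact this
  have h2 : ∀ i, |e.equivFun ⟨X, hX.1⟩ i| ≤ C := fun i => by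
    refine (norm_le_pi_norm (e.equivFun ⟨X, hX.1⟩) i).trans ((hL _).trans (mul_le_of_le_one_right hC.le ?_))
    simpa using hX.2
  have h3 := Core.In.sum hs Finset.univ (r := fun i => C * t i) (f := fun i => e.equivFun ⟨X, hX.1⟩ i • (e i : V h))
    (fun i _ => mul_nonneg hC.le (ht i).1) fun i _ => ((ht i).2.smul_abs hs (ht i).1 _).mono hs
      (mul_nonneg (abs_nonneg _) (ht i).1) (mul_le_mul_of_nonneg_right (h2 i) (ht i).1)
  rw [← h1] at h3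
  exact h3.mono hs (Finset.sum_nonneg fun i _ => mul_nonneg hC.le (ht i).1) (by linarith)
theorem bxd_prob (U : Submodule ℝ (V h)) {S : Set (V h)} (hS : IsCompact S) {r : ℝ} (hr : 0 < r)
    (h : ∀ X ∈ U, ‖X‖ ≤ r → X ∈ S) : IsProbabilityMeasure (M.lw U S) := by
  refine cond_isProbabilityMeasure_of_finite ?_ ?_
  · rw [M.hm_exp]
    refine ((lebU_ball_pos U hr).trans_le ?_).ne'
    rw [← lebU_inter]
    exact measure_mono fun X hX => h X hX.2 (mem_closedBall_zero_iff.1 hX.1)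
  · rw [M.hm_exp]
    exact hS.measure_lt_top.ne

theorem isProbabilityMeasure_lw_Box {t : ℝ} (ht : 0 < t) (w : ℝ) : IsProbabilityMeasure (M.lw M.E (t • M.Box w)) := by
  obtain ⟨D, hD, H⟩ := M.EV_zero_subset
  obtain ⟨b, B, -, -, H'⟩ := M.Box_scale
  have hc : 0 < D * Real.exp (B * |w|) := mul_pos (by linarith) (Real.exp_pos _)
  refine M.bxd_prob _ ((M.isCompact_Box w).smul t) (div_pos ht hc) fun X hX hn => ?_
  have h1 : (D * Real.exp (B * |w|) / t) • X ∈ M.EV 0 := by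
    refine ⟨M.E.smul_mem _ hX, ?_⟩
    rw [norm_smul, Real.norm_of_nonneg (div_pos hc ht).le, Real.exp_zero]
    refine (mul_le_mul_of_nonneg_left hn (div_pos hc ht).le).trans (le_of_eq ?_)
    field_simp
  obtain ⟨Y, hY, e⟩ := H h1
  obtain ⟨Z, hZ, rfl⟩ := (H' w |w| (abs_nonneg w)).1 (M.Box_mono (by linarith [neg_abs_le w]) hY)
  refine ⟨Z, hZ, ?_⟩
  simp only [smul_smul] at e ⊢
  have e2 := congrArg (fun Y => (t / (D * Real.exp (B * |w|))) • Y) e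
  simp only [smul_smul] at e2
  rwa [div_mul_cancel₀ _ hc.ne', div_mul_div_cancel₀ hc.ne', div_self ht.ne', one_smul] at e2
theorem isProbabilityMeasure_lw_Gv {U : Submodule ℝ (V h)} (hU : U ≤ M.E) {t : ℝ} (ht : 0 < t) (ρ : ℝ) :
    IsProbabilityMeasure (M.lw U (t • M.Gv ρ)) := by
  refine M.bxd_prob _ ((M.isCompact_Gv ρ).smul t) (mul_pos ht (Real.exp_pos ρ)) fun X hX hn => ?_
  refine ⟨t⁻¹ • X, M.EV_subset_Gv ρ ⟨M.E.smul_mem _ (hU hX), ?_⟩, smul_inv_smul₀ ht.ne' X⟩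
  rw [norm_smul, Real.norm_of_nonneg (inv_pos.2 ht).le, inv_mul_le_iff₀ ht]
  exact hn
theorem lw_apply (U : Submodule ℝ (V h)) {S : Set (V h)} (hS : IsCompact S) (A : Set M.G) :
    M.lw U S A = (hV U S)⁻¹ * hV U (S ∩ M.exp ⁻¹' A) := by
  unfold lw
  rw [cond_apply (hS.image M.continuous_exp).measurableSet, M.hm_exp, M.hm_apply, preimage_inter,
    preimage_image_eq _ M.exp_inj]
theorem lw_compl (U : Submodule ℝ (V h)) {S : Set (V h)} (hS : IsCompact S) : M.lw U S (M.exp '' (U ∩ S))ᶜ = 0 := by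
  rw [M.lw_apply U hS, preimage_compl, preimage_image_eq _ M.exp_inj]
  refine mul_eq_zero_of_right _ (measure_mono_null (fun X hX hU => hX.2 ⟨hU, hX.1⟩) (lebU_compl U))
/-- products of boxes (`exists_In_mul`) -/
theorem exp_Qi_mul (t : ℝ) : ∃ D : ℝ, 1 ≤ D ∧ t ≤ D ∧ ∀ 𝒱 : Set (V h), Star 𝒱 →
    M.exp '' (t • M.Qi 𝒱 1) * M.exp '' (t • M.Qi 𝒱 1) ⊆ M.exp '' (D • M.Qi 𝒱 1) := by
  obtain ⟨D, n, hD, H⟩ := M.exists_In_mul
  have h1 : 1 ≤ max |t| 1 := le_max_right _ _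
  have h2 : |t| ≤ max |t| 1 := le_max_left _ _
  have h3 : 0 ≤ D * max |t| 1 ^ n * max |t| 1 := by positivity
  refine ⟨max |t| 1 + D * max |t| 1 ^ n * max |t| 1, by linarith, by linarith [le_abs_self t], fun 𝒱 hs => ?_⟩
  rintro _ ⟨_, ⟨X, hX, rfl⟩, _, ⟨Y, hY, rfl⟩, rfl⟩
  have hX' : M.In 𝒱 1 (max |t| 1) X := Core.In.mono' hs hX h2
  have hY' : M.In 𝒱 1 (max |t| 1) Y := Core.In.mono' hs hY h2
  have h4 := hX'.add (H 𝒱 hs 1 _ _ X Y h1 (by linarith) le_rfl hX' hY').1 (by linarith) h3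
  rw [add_sub_cancel] at h4
  exact ⟨M.bch X Y, h4, (M.exp_mul X Y).symm⟩
omit M in
theorem bxe_pow {a σ : ℝ} (ha : 0 ≤ a) (h0 : 0 ≤ σ) (h1 : σ ≤ 1) (d : ℕ) : (1 + a * σ) ^ d ≤ 1 + σ * ((1 + a) ^ d - 1) := by
  induction d with
  | zero => simp
  | succ d ih =>
    have hP : 0 ≤ (1 + a) ^ d - 1 := sub_nonneg.2 (one_le_pow₀ (by linarith))
    have h2 := mul_le_mul_of_nonneg_right ih (show 0 ≤ 1 + a * σ by positivity)
    have h3 : σ * σ * (a * ((1 + a) ^ d - 1)) ≤ σ * (a * ((1 + a) ^ d - 1)) :=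
      mul_le_mul_of_nonneg_right (mul_le_of_le_one_right h0 h1) (mul_nonneg ha hP)
    rw [pow_succ, pow_succ]
    nlinarith
omit M in
theorem bxe_le {μ : Measure (V h)} {f : V h → V h} (hf : MeasurePreserving f μ μ) {S S' : Set (V h)} (hm : MapsTo f S S')
    (B : Set (V h)) : μ (S ∩ f ⁻¹' B) ≤ μ (S' ∩ B) :=
  (measure_mono (t := f ⁻¹' (S' ∩ B)) fun X hX => ⟨hm hX.1, hX.2⟩).trans (hf.measure_preimage_le _)
omit M in
theorem bxe_inv {μ : Measure (V h)} {f : V h → V h} (hf : MeasurePreserving f μ μ) {S S' : Set (V h)} (hm : MapsTo f S S')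
    (hS : MeasurableSet S) (hSS : S ⊆ S') (h0 : μ S ≠ 0) (h1 : μ S ≠ ⊤) {η : ℝ≥0∞} (hη : μ S' ≤ μ S + η * μ S) (B : Set (V h)) :
    (μ S)⁻¹ * μ (S ∩ f ⁻¹' B) ≤ (μ S)⁻¹ * μ (S ∩ B) + η := by
  have h2 : μ (S' \ S) ≤ η * μ S := by
    have := measure_inter_add_sdiff (μ := μ) S' hS
    rw [inter_eq_right.2 hSS] at this
    exact (ENNReal.add_le_add_iff_left h1).1 (this.le.trans hη)
  have h3 : μ (S' ∩ B) ≤ μ (S ∩ B) + η * μ S := by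
    refine (measure_mono (t := S ∩ B ∪ S' \ S) fun X hX => ?_).trans ((measure_union_le _ _).trans (add_le_add le_rfl h2))
    by_cases h4 : X ∈ S
    · exact Or.inl ⟨h4, hX.2⟩
    · exact Or.inr ⟨hX.1, h4⟩
  calc (μ S)⁻¹ * μ (S ∩ f ⁻¹' B) ≤ (μ S)⁻¹ * (μ (S ∩ B) + η * μ S) := by
        gcongr
        exact (bxe_le hf hm B).trans h3
    _ = _ := by rw [mul_add, mul_comm η, ← mul_assoc, ENNReal.inv_mul_cancel h0 h1, one_mul]
theorem bxe_pre (Y : V h) (A : Set M.G) :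
    M.exp ⁻¹' {x | x * M.exp Y ∈ A} = (fun X => M.bch X Y) ⁻¹' (M.exp ⁻¹' A) ∧
      M.exp ⁻¹' {x | M.exp Y * x ∈ A} = (fun X => M.bch Y X) ⁻¹' (M.exp ⁻¹' A) := by
  constructor <;> ext X <;> simp only [mem_preimage, mem_ofPred_eq, M.exp_bch]
theorem bxe_maps {t : ℝ} (ht : 1 ≤ t) : ∃ D : ℝ, 1 ≤ D ∧ ∀ (𝒱 : Set (V h)) (σ : ℝ), Star 𝒱 → 0 ≤ σ → σ ≤ t →
    ∀ Y ∈ σ • M.Qi 𝒱 1, MapsTo (fun X => M.bch X Y) (t • M.Qi 𝒱 1) ((t + D * σ) • M.Qi 𝒱 1) ∧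
      MapsTo (fun X => M.bch Y X) (t • M.Qi 𝒱 1) ((t + D * σ) • M.Qi 𝒱 1) := by
  obtain ⟨D, n, hD, H⟩ := M.exists_In_mul
  have hD' : 1 ≤ D * t ^ n := one_le_mul_of_one_le_of_one_le hD (one_le_pow₀ ht)
  refine ⟨D * t ^ n, hD', fun 𝒱 σ hs h0 h1 Y hY => ⟨fun X hX => ?_, fun X hX => ?_⟩⟩
  · have := Core.In.add (show M.In 𝒱 1 t X from hX) (H 𝒱 hs 1 t σ X Y ht h0 h1 hX hY).1 (by linarith) (by positivity)
    rwa [add_sub_cancel] at this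
  · have := Core.In.add (show M.In 𝒱 1 t X from hX) (H 𝒱 hs 1 t σ X Y ht h0 h1 hX hY).2.1 (by linarith) (by positivity)
    rwa [add_sub_cancel] at this
omit M in
theorem bxe_rk (U : Submodule ℝ (V h)) : Module.finrank ℝ U ≤ h := U.finrank_le.trans (by simp)
/-- Absorption: `bch X Y ∈ (t + D σ) • Q` for `X ∈ t • Q`, `Y ∈ σ • Q`, so the translate of `exp (t • Q)` lies in a set of measure
`≤ (1 + D σ) ^ h` times the measure of `exp (t • Q)` -/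
theorem lw_Inv {t : ℝ} (ht : 1 ≤ t) : ∃ D : ℝ, 1 ≤ D ∧ ∀ (U : Submodule ℝ (V h)) (𝒱 : Set (V h)) (σ : ℝ), M.IsSub U → Star 𝒱 →
    IsCompact 𝒱 → 0 < hV U (M.Qi 𝒱 1) → 0 ≤ σ → σ ≤ 1 → ∀ Y ∈ U, Y ∈ σ • M.Qi 𝒱 1 → ∀ A : Set M.G,
      M.lw U (t • M.Qi 𝒱 1) {x | x * M.exp Y ∈ A} ≤ M.lw U (t • M.Qi 𝒱 1) A + ENNReal.ofReal (D * σ) ∧
      M.lw U (t • M.Qi 𝒱 1) {x | M.exp Y * x ∈ A} ≤ M.lw U (t • M.Qi 𝒱 1) A + ENNReal.ofReal (D * σ) := by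
  obtain ⟨D, hD, H⟩ := M.bxe_maps ht
  refine ⟨(1 + D) ^ h, one_le_pow₀ (by linarith), fun U 𝒱 σ hU hs hc hp h0 h1 Y hYU hY A => ?_⟩
  have hS : IsCompact (t • M.Qi 𝒱 1) := (M.isCompact_Qi hs hc 1).smul t
  have ht0 : 0 < t := by linarith
  have hσ : 0 < 1 + D * σ := by positivity
  have e : (1 + D * σ) • t • M.Qi 𝒱 1 = ((1 + D * σ) * t) • M.Qi 𝒱 1 := smul_smul _ _ _
  have hDσ : 0 ≤ D * σ := by positivity
  have hsub : (t + D * σ) • M.Qi 𝒱 1 ⊆ (1 + D * σ) • t • M.Qi 𝒱 1 := by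
    rw [e]
    exact M.smul_Qi_mono hs (by positivity) (by nlinarith)
  have hsub' : t • M.Qi 𝒱 1 ⊆ (1 + D * σ) • t • M.Qi 𝒱 1 := (M.smul_Qi_mono hs ht0.le (by linarith)).trans hsub
  have h2 : hV U (t • M.Qi 𝒱 1) ≠ 0 := by
    rw [hV_smul U ht0]
    exact mul_ne_zero (ENNReal.ofReal_pos.2 (by positivity)).ne' hp.ne'
  have h3 : hV U ((1 + D * σ) • t • M.Qi 𝒱 1) ≤
      hV U (t • M.Qi 𝒱 1) + ENNReal.ofReal ((1 + D) ^ h * σ) * hV U (t • M.Qi 𝒱 1) := by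
    rw [hV_smul U hσ]
    refine le_trans (mul_le_mul_left (c := 1 + ENNReal.ofReal ((1 + D) ^ h * σ)) ?_ _) (by rw [add_mul, one_mul])
    rw [← ENNReal.ofReal_one, ← ENNReal.ofReal_add zero_le_one (by positivity)]
    refine ENNReal.ofReal_le_ofReal ((pow_le_pow_right₀ (by linarith) (bxe_rk U)).trans
      ((bxe_pow (by linarith) h0 h1 h).trans ?_))
    nlinarith
  obtain ⟨m1, m2⟩ := H 𝒱 σ hs h0 (h1.trans ht) Y hY
  rw [M.lw_apply U hS, M.lw_apply U hS, M.lw_apply U hS, (M.bxe_pre Y A).1, (M.bxe_pre Y A).2]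
  exact ⟨bxe_inv (M.lebU_bch_right hU hYU) (m1.mono_right hsub) hS.measurableSet hsub' h2 hS.measure_lt_top.ne h3 _,
    bxe_inv (M.lebU_bch_left hU hYU) (m2.mono_right hsub) hS.measurableSet hsub' h2 hS.measure_lt_top.ne h3 _⟩
/-- Domination: translating by an element of the box costs a constant factor -/
theorem lw_dom {t : ℝ} (ht : 1 ≤ t) : ∃ t' D : ℝ, t ≤ t' ∧ 1 ≤ D ∧ ∀ (U : Submodule ℝ (V h)) (𝒱 : Set (V h)) (s : ℝ), M.IsSub U →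
    Star 𝒱 → IsCompact 𝒱 → 1 ≤ s → s ≤ t → ∀ Y ∈ U, Y ∈ t • M.Qi 𝒱 1 → ∀ A : Set M.G,
      M.lw U (s • M.Qi 𝒱 1) {x | x * M.exp Y ∈ A} ≤ ENNReal.ofReal D * M.lw U (t' • M.Qi 𝒱 1) A ∧
      M.lw U (s • M.Qi 𝒱 1) {x | M.exp Y * x ∈ A} ≤ ENNReal.ofReal D * M.lw U (t' • M.Qi 𝒱 1) A := by
  obtain ⟨D, hD, H⟩ := M.bxe_maps ht
  have ht' : t ≤ t + D * t := by nlinarith
  refine ⟨t + D * t, (t + D * t) ^ h, ht', one_le_pow₀ (ht.trans ht'), fun U 𝒱 s hU hs hc h1 h2 Y hYU hY A => ?_⟩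
  have hQ := M.isCompact_Qi hs hc 1
  have hsub : s • M.Qi 𝒱 1 ⊆ t • M.Qi 𝒱 1 := M.smul_Qi_mono hs (by linarith) h2
  have h0 : 0 < t + D * t := by linarith
  have h3 : (hV U (s • M.Qi 𝒱 1))⁻¹ ≤ ENNReal.ofReal ((t + D * t) ^ h) * (hV U ((t + D * t) • M.Qi 𝒱 1))⁻¹ := by
    have a0 : ENNReal.ofReal ((t + D * t) ^ Module.finrank ℝ U) ≠ 0 := (ENNReal.ofReal_pos.2 (by positivity)).ne'
    have a1 : M.Qi 𝒱 1 ⊆ s • M.Qi 𝒱 1 := by
      have := M.smul_Qi_mono hs zero_le_one h1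
      rwa [one_smul] at this
    calc (hV U (s • M.Qi 𝒱 1))⁻¹ ≤ (hV U (M.Qi 𝒱 1))⁻¹ := ENNReal.inv_le_inv.2 (measure_mono a1)
      _ = ENNReal.ofReal ((t + D * t) ^ Module.finrank ℝ U) * (hV U ((t + D * t) • M.Qi 𝒱 1))⁻¹ := by
        rw [hV_smul U h0, ENNReal.mul_inv (Or.inl a0) (Or.inl ENNReal.ofReal_ne_top), ← mul_assoc,
          ENNReal.mul_inv_cancel a0 ENNReal.ofReal_ne_top, one_mul]
      _ ≤ _ := mul_le_mul_left (ENNReal.ofReal_le_ofReal (pow_le_pow_right₀ (ht.trans ht') (bxe_rk U))) _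
  obtain ⟨m1, m2⟩ := H 𝒱 t hs (by linarith) le_rfl Y hY
  rw [M.lw_apply U (hQ.smul s), M.lw_apply U (hQ.smul s), M.lw_apply U (hQ.smul _), (M.bxe_pre Y A).1, (M.bxe_pre Y A).2,
    ← mul_assoc]
  exact ⟨mul_le_mul' h3 (bxe_le (M.lebU_bch_right hU hYU) (m1.mono_left hsub) _),
    mul_le_mul' h3 (bxe_le (M.lebU_bch_left hU hYU) (m2.mono_left hsub) _)⟩
/-- `norm_Qi`, `logS_E` -/
theorem len_Box (t : ℝ) : ∃ Λ : ℝ, 1 ≤ Λ ∧ ∀ w : ℝ, 1 ≤ w → M.exp '' (t • M.Box w) ⊆ M.ballR (Λ * w) ∧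
    M.exp '' (t • M.Gv w) ⊆ M.ballR (Λ * w) := by
  obtain ⟨Λ, hΛ, hl⟩ := M.bxf_len
  obtain ⟨B, hB, hb⟩ := M.norm_Qi
  obtain ⟨m, hm, hm'⟩ : ∃ m : ℝ, 1 ≤ m ∧ m = 1 + ∑ j, nm (M.wt j) :=
    ⟨_, le_add_of_nonneg_right (Finset.sum_nonneg fun j _ => nm_nonneg _), rfl⟩
  have h1 : 1 ≤ |t| + B * m := by nlinarith [abs_nonneg t]
  have key : ∀ w : ℝ, 1 ≤ w → ∀ 𝒱 : Set (V h), M.Qi 𝒱 1 ⊆ M.E → (∀ X ∈ 𝒱, ‖X‖ ≤ Real.exp (m * w)) →
      M.exp '' (t • M.Qi 𝒱 1) ⊆ M.ballR (Λ * (|t| + B * m) * w) := by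
    rintro w hw 𝒱 hE hn _ ⟨_, ⟨X, hX, rfl⟩, rfl⟩
    rw [mul_assoc]
    refine hl _ (one_le_mul_of_one_le_of_one_le h1 hw) _ (M.E.smul_mem t (hE hX)) ?_
    rw [norm_smul, add_mul, Real.exp_add, mul_assoc]
    refine mul_le_mul ?_ (hb 𝒱 _ (one_le_mul_of_one_le_of_one_le hm hw) hn X hX) (norm_nonneg _) (by positivity)
    nlinarith [Real.add_one_le_exp (|t| * w), abs_nonneg t, Real.norm_eq_abs t]
  refine ⟨_, one_le_mul_of_one_le_of_one_le hΛ h1, fun w hw => ⟨key w hw _ (M.Box_subset_E w) fun X hX => ?_,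
    key w hw _ (M.Gv_subset_E w) fun X hX => hX.2.trans (Real.exp_le_exp.2 (by nlinarith))⟩⟩
  exact hm' ▸ M.bxf_RV (by linarith) hX
theorem len_exp_E : ∃ Λ : ℝ, 1 ≤ Λ ∧ ∀ r : ℝ, 1 ≤ r → ∀ X ∈ M.E, ‖X‖ ≤ Real.exp r → M.exp X ∈ M.ballR (Λ * r) :=
  M.bxf_len
omit M in
theorem bxg_ev (A Λ : ℝ) (N : ℕ) {ε : ℝ} (hε : 0 < ε) : ∃ w₀ : ℝ, 0 ≤ w₀ ∧ ∀ w ≥ w₀, ∀ ℓ : ℝ, 0 ≤ ℓ → ℓ ≤ Λ * w →
    A * (1 + ℓ) ^ N ≤ Real.exp (ε * w) := by
  have h0 : 0 < |Λ| + 1 := by positivity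
  obtain ⟨C, hC, h1⟩ := apiloga_pow (ε := ε / 2 / (|Λ| + 1)) (by positivity) N
  refine ⟨|A| * C / (ε / 2), by positivity, fun w hw ℓ hl hl' => ?_⟩
  have hw0 : 0 ≤ w := le_trans (by positivity) hw
  have h2 : |A| * C ≤ Real.exp (ε / 2 * w) := by
    rw [ge_iff_le, div_le_iff₀ (by positivity)] at hw
    linarith [Real.add_one_le_exp (ε / 2 * w)]
  have h3 : ε / 2 / (|Λ| + 1) * ℓ ≤ ε / 2 * w := by
    rw [div_mul_eq_mul_div, div_le_iff₀ h0, mul_assoc]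
    exact mul_le_mul_of_nonneg_left (by nlinarith [le_abs_self Λ]) (by positivity)
  calc A * (1 + ℓ) ^ N ≤ |A| * (C * Real.exp (ε / 2 * w)) := by
        refine mul_le_mul (le_abs_self A) ((h1 ℓ hl).trans ?_) (by positivity) (abs_nonneg A)
        gcongr
    _ ≤ Real.exp (ε / 2 * w) * Real.exp (ε / 2 * w) := by rw [← mul_assoc]; gcongr
    _ = _ := by rw [← Real.exp_add]; congr 1; ring
theorem bxg_root : ∃ (B : ℝ) (D : ℕ), 1 ≤ B ∧ ∀ g ∈ M.C, ∀ u : ℝ, nm (M.chi g) ≤ u → ∀ v ∈ M.RV 0,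
    M.In (M.RV u) 1 (B * (1 + M.lenC g) ^ D) (M.Ad g v) := by
  obtain ⟨B, D, hB, h1⟩ := M.norm_Ad_C
  refine ⟨B, D, hB, ?_⟩
  rintro g hg u hu v (rfl | ⟨α, h0, h2, h3⟩)
  · rw [map_zero]; exact Core.In.zero (M.star_RV u)
  have hP : 0 < B * (1 + M.lenC g) ^ D := by positivity
  refine ⟨(B * (1 + M.lenC g) ^ D)⁻¹ • M.Ad g v, M.RV_subset_Box u (Or.inr ⟨α, h0, Submodule.smul_mem _ _ (M.gr.C_W g hg α v h2), ?_⟩),
    smul_inv_smul₀ hP.ne' _⟩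
  rw [zero_mul, Real.exp_zero] at h3
  rw [norm_smul, norm_inv, Real.norm_of_nonneg hP.le, inv_mul_le_iff₀ hP]
  refine (h1 g hg α v h2).trans ((mul_le_of_le_one_right (by positivity) h3).trans ?_)
  gcongr
  exact (le_abs_self _).trans ((abs_dot_le_nm _ _).trans (by rw [mul_comm]; exact mul_le_mul_of_nonneg_right hu (nm_nonneg α)))
/-- ADM.  `Gv (c w) ⊆ exp (B c w) • D • Box 0`-type bound, and `Ad g (RV 0) ⊆ poly(w) * exp (- m b w) • RV w` by `norm_Ad_C`, `abs_dot_le_nm`;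
`Ad g` preserves brackets. -/
theorem Ad_Gv_subset : ∃ b : ℝ, 0 < b ∧ ∀ Λ m : ℝ, 0 < m → m ≤ 1 → ∃ w₀ : ℝ, ∀ w ≥ w₀, ∀ g ∈ M.ballCR (Λ * w),
    nm (M.chi g) ≤ (1 - m) * w → ∀ X ∈ M.Gv (b * m * w), M.Ad g X ∈ Real.exp (-(b * m * w)) • M.Box w := by
  obtain ⟨B₁, hB₁, hG⟩ := M.Gv_scale
  obtain ⟨D₁, hD₁, hE⟩ := M.EV_zero_subset
  obtain ⟨b, B₀, hb, -, hB⟩ := M.Box_scale
  obtain ⟨B, D, hB1, hR⟩ := M.bxg_root
  have h0 : 0 < B₁ + 2 := by linarith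
  refine ⟨b / (B₁ + 2), by positivity, fun Λ m hm hm1 => ?_⟩
  obtain ⟨w₀, hw₀, hP⟩ := bxg_ev ((2 ^ M.cl * (D₁ * (2 ^ M.cl * B) ^ M.cl)) ^ M.cl) Λ (D * M.cl * M.cl)
    (ε := b / (B₁ + 2) * m) (by positivity)
  refine ⟨w₀, fun w hw g hg hc X hX => ?_⟩
  have hw0 : 0 ≤ w := hw₀.trans hw
  have h2 : (1 : ℝ) ≤ 2 ^ M.cl := one_le_pow₀ one_le_two
  have h1 : 1 ≤ B * (1 + (M.lenC g : ℝ)) ^ D := one_le_mul_of_one_le_of_one_le hB1 (one_le_pow₀ (by simp))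
  have h3 : M.In (M.EV 0) 1 _ X := (hG 0 (b / (B₁ + 2) * m * w) (by positivity)).1 (by rwa [zero_add])
  obtain ⟨Y, hY, e⟩ := h3.trans (M.star_RV ((1 - m) * w)) (M.Ad_br g)
    (one_le_mul_of_one_le_of_one_le hD₁ (one_le_pow₀ (one_le_mul_of_one_le_of_one_le h2 h1)))
    fun v hv => Core.In.trans (M.star_RV _) (M.Ad_br g) h1 (hR g hg.1 _ hc) (hE hv)
  have h4 : M.In (M.RV ((1 - m) * w + m * w)) 1 _ Y := (hB _ (m * w) (by positivity)).2 hY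
  rw [show (1 - m) * w + m * w = w by ring] at h4
  rw [← e]
  refine (h4.smul _).mono (M.star_RV w) (by positivity) ?_
  have h5 := hP w hw _ (Nat.cast_nonneg _) hg.2
  calc _ = Real.exp (B₁ * (b / (B₁ + 2) * m * w)) * ((2 ^ M.cl * (D₁ * (2 ^ M.cl * B) ^ M.cl)) ^ M.cl *
        (1 + (M.lenC g : ℝ)) ^ (D * M.cl * M.cl)) * Real.exp (-(b * (m * w))) := by simp only [mul_pow, ← pow_mul]; ring
    _ ≤ Real.exp (B₁ * (b / (B₁ + 2) * m * w)) * Real.exp (b / (B₁ + 2) * m * w) * Real.exp (-(b * (m * w))) := by gcongr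
    _ = _ := by rw [← Real.exp_add, ← Real.exp_add]; congr 1; field_simp; ring
/-- conjugating a box by an element of `C`: `Ad g (RV w) ⊆ RV (w + 2 r)` for `g ∈ ballC r`, `r` large -/
theorem Ad_Box_subset : ∃ r₀ : ℝ, ∀ r ≥ r₀, ∀ w, ∀ g ∈ M.ballCR r, ∀ X ∈ M.Box w, M.Ad g X ∈ M.Box (w + 2 * r) := by
  obtain ⟨B, D, hB, hb⟩ := M.norm_Ad_C
  have : ∀ᶠ r : ℝ in atTop, ∀ j, M.wt j ≠ 0 → B * (1 + r) ^ D ≤ Real.exp (nm (M.wt j) * r) :=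
    eventually_all.2 fun j => eventually_imp_distrib_left.2 fun hj => bxf_poly B D (nm_pos hj)
  obtain ⟨r₀, hr⟩ := eventually_atTop.1 this
  refine ⟨r₀, fun r h w g hg X hX => M.bxf_map g (fun Y hY => ?_) hX⟩
  by_cases h0 : Y = 0
  · exact Or.inl (by rw [h0, map_zero])
  obtain ⟨α, hα0, hα, hY⟩ := hY.resolve_left h0
  obtain ⟨j, rfl⟩ := M.W_ne_bot.1 (Submodule.ne_bot_iff _ |>.2 ⟨Y, hα, h0⟩)
  refine Or.inr ⟨_, hα0, M.grading.C_W g hg.1 _ _ hα, (hb g hg.1 _ Y hα).trans ?_⟩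
  have h1 : M.wt j ⬝ᵥ M.chi g ≤ nm (M.wt j) * r := (le_abs_self _).trans ((abs_dot_le_nm _ _).trans
    (mul_le_mul_of_nonneg_left ((M.nm_chi_le g).trans ((Nat.cast_le.2 (M.len_le_lenC hg.1)).trans hg.2)) (nm_nonneg _)))
  have h2 : B * (1 + (M.lenC g : ℝ)) ^ D ≤ Real.exp (nm (M.wt j) * r) := le_trans (by gcongr; exact hg.2) (hr r h j hα0)
  calc _ ≤ Real.exp (nm (M.wt j) * r) * Real.exp (nm (M.wt j) * r) * Real.exp (w * nm (M.wt j)) := by gcongr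
    _ = _ := by rw [← Real.exp_add, ← Real.exp_add]; congr 1; ring
/-- SLACK: `Box_scale`, `exists_In_mul` -/
theorem slack : ∃ b : ℝ, 0 < b ∧ ∀ t η : ℝ, 0 < η → ∃ w₀ : ℝ, ∀ w ≥ w₀, ∀ Y ∈ t • M.Box ((1 + b * η) * w),
    ∀ X ∈ t • M.Box ((1 - η) * w), M.Ad (M.exp Y) X ∈ Real.exp (-(b * η * w)) • M.Box w := by
  obtain ⟨b₀, B₀, hb₀, hB₀, hs⟩ := M.Box_scale
  obtain ⟨D, n, hD, hd⟩ := M.toCore.exists_In_mul
  obtain ⟨b, hb, e⟩ : ∃ b : ℝ, 0 < b ∧ b₀ = 2 * ((n * B₀ + 1) * b) := by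
    have : 0 < n * B₀ + 1 := by have := hb₀.trans_le hB₀; positivity
    exact ⟨b₀ / (2 * (n * B₀ + 1)), by positivity, by field_simp⟩
  refine ⟨b, hb, fun t η hη => ⟨max 0 (D * (|t| + 1) ^ n * |t| / (b₀ / 2 * η)), ?_⟩⟩
  rintro w hw _ ⟨Y, hY, rfl⟩ _ ⟨X, hX, rfl⟩
  have hw0 : 0 ≤ w := (le_max_left _ _).trans hw
  have hw1 := (div_le_iff₀ (by positivity)).1 ((le_max_right _ _).trans hw)
  have hst := M.star_RV w
  have hB : 0 ≤ B₀ * (b * η * w) := mul_nonneg (hb₀.le.trans hB₀) (by positivity)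
  have h1 : M.In (M.RV w) 1 (Real.exp (B₀ * (b * η * w))) Y :=
    (hs w (b * η * w) (by positivity)).1 (by rwa [show w + b * η * w = (1 + b * η) * w by ring])
  have h2 : M.In (M.RV w) 1 (Real.exp (-(b₀ * (η * w)))) X := by
    have := (hs ((1 - η) * w) (η * w) (by positivity)).2 hX
    rwa [show (1 - η) * w + η * w = w by ring] at this
  have e1 := Real.one_le_exp hB
  have e2 : Real.exp (-(b₀ * (η * w))) ≤ 1 := Real.exp_le_one_iff.2 (neg_nonpos.2 (by positivity))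
  have t0 := abs_nonneg t
  refine (hd _ hst 1 ((|t| + 1) * Real.exp (B₀ * (b * η * w))) _ _ _ (by nlinarith) (by positivity) (by nlinarith)
    ((h1.smul_abs hst (by positivity) t).mono hst (by positivity) (by nlinarith))
    (h2.smul_abs hst (by positivity) t)).2.2.2.2.2.mono hst (by positivity) ?_
  calc _ = D * (|t| + 1) ^ n * |t| * (Real.exp (B₀ * (b * η * w)) ^ n * Real.exp (-(b₀ * (η * w)))) := by rw [mul_pow]; ring
    _ ≤ Real.exp (w * (b₀ / 2 * η)) * (Real.exp (B₀ * (b * η * w)) ^ n * Real.exp (-(b₀ * (η * w)))) := by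
      gcongr; linarith [Real.add_one_le_exp (w * (b₀ / 2 * η))]
    _ = _ := by rw [← Real.exp_nat_mul, ← Real.exp_add, ← Real.exp_add, e]; congr 1; ring
theorem bxh_prod : ∃ D : ℝ, 1 ≤ D ∧ ∀ 𝒱 : Set (V h), Star 𝒱 → ∀ σ : ℝ, 0 ≤ σ → ∀ u : List (V h), (∀ Y ∈ u, M.In 𝒱 1 σ Y) →
    D * u.length * σ ≤ 1 → ∃ Z, M.In 𝒱 1 (D * u.length * σ) Z ∧ (u.map M.exp).prod = M.exp Z := by
  obtain ⟨D, n, hD, h₁⟩ := M.exists_In_mul
  refine ⟨D, hD, fun 𝒱 hs σ hσ u => ?_⟩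
  induction u with
  | nil => exact fun _ _ => ⟨0, Core.In.zero hs, by simp [M.exp_zero]⟩
  | cons Y u ih =>
    intro hu hl
    rw [List.length_cons, Nat.cast_succ] at hl ⊢
    have h0 : 0 ≤ D * u.length * σ := by positivity
    have h1 : σ ≤ D * σ := le_mul_of_one_le_left hσ hD
    obtain ⟨Z, hZ, e⟩ := ih (fun W hW => hu W (by simp [hW])) (by linarith)
    have h2 := (h₁ 𝒱 hs 1 1 σ Z Y le_rfl hσ (by linarith) (hZ.mono hs h0 (by linarith)) (hu Y (by simp))).2.1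
    refine ⟨M.bch Y Z, ?_, by rw [List.map_cons, List.prod_cons, e, M.exp_bch]⟩
    have h3 := hZ.add h2 h0 (by positivity)
    rw [add_sub_cancel] at h3
    convert h3 using 1
    ring
/-- STAY: `exists_split`, `Ad_Gv_subset`; a product of `N` elements of `exp (σ • Q)` lies in `exp (D N σ • Q)` as long as `D N σ ≤ 1` -/
theorem stay (Λ m : ℝ) (hm : 0 < m) : ∃ w₀ : ℝ, ∀ w ≥ w₀, ∀ ℓ ≤ Λ * w, ∀ H ≤ (1 - m) * w, ∀ g ∈ M.Adm ℓ H,
    ∃ X ∈ M.Box w, ∃ c ∈ M.AdmC ℓ H, g = M.exp X * c := by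
  obtain ⟨b, hb, h₀⟩ := M.Ad_Gv_subset
  obtain ⟨B, hB, h₁⟩ := M.exists_split
  obtain ⟨D, hD, h₂⟩ := M.bxh_prod
  have hm' : 0 < min m 1 := lt_min hm one_pos
  obtain ⟨w₀, h₃⟩ := h₀ Λ (min m 1) hm' (min_le_right _ _)
  have hc : 0 < b * min m 1 := by positivity
  generalize b * min m 1 = c at h₃ hc
  refine ⟨max w₀ (max (B / c) (2 * D * |Λ| / c ^ 2)), fun w hw ℓ hℓ H hH g ⟨l, hl, hlen, hpre, e⟩ => ?_⟩
  simp only [ge_iff_le, max_le_iff] at hw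
  obtain ⟨hw₀, hw₁, hw₂⟩ := hw
  rw [div_le_iff₀ (by positivity)] at hw₁ hw₂
  have hw : 0 ≤ w := by nlinarith
  have hq := Real.quadratic_le_exp_of_nonneg (show 0 ≤ c * w by positivity)
  have hH' : H ≤ (1 - min m 1) * w := hH.trans (mul_le_mul_of_nonneg_right (by linarith [min_le_left m 1]) hw)
  obtain ⟨lc, u, hlc, e1, e2, hchi, hu, e3⟩ := h₁ l hl
  have hpre' : ∀ i, nm (M.chi (lc.take i).prod) ≤ H := fun i => hchi i ▸ hpre _ (List.take_prefix i l)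
  have hn : D * u.length * Real.exp (-(c * w)) ≤ 1 := by
    have a1 : (u.length : ℝ) ≤ |Λ| * w := by
      rw [e2]
      exact (hlen.trans hℓ).trans (mul_le_mul_of_nonneg_right (le_abs_self Λ) hw)
    have a2 := mul_le_mul_of_nonneg_left a1 (zero_le_one.trans hD)
    have a3 := mul_le_mul_of_nonneg_right hw₂ hw
    rw [Real.exp_neg, mul_inv_le_iff₀ (Real.exp_pos _), one_mul]
    nlinarith [mul_nonneg hc.le hw]
  obtain ⟨Z, hZ, e4⟩ := h₂ _ (M.star_RV w) _ (Real.exp_pos _).le u (fun X hX => by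
    obtain ⟨i, Y, hY, hn, rfl⟩ := hu X hX
    have hl' : M.WrdC (lc.take i) := fun x hx => hlc x (List.mem_of_mem_take hx)
    refine h₃ w hw₀ _ (M.ballCR_mono ?_ hl'.prod_mem) ((hpre' i).trans hH') Y
      (M.EV_subset_Gv _ ⟨hY, hn.trans (by nlinarith [sq_nonneg (c * w)])⟩)
    refine le_trans ?_ (hlen.trans hℓ)
    rw [← e1]
    exact_mod_cast List.length_take_le' i lc) hn
  have hZ' := hZ.mono (M.star_RV w) (by positivity) hn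
  rw [Core.In, one_smul] at hZ'
  refine ⟨Z, hZ', lc.prod, ⟨lc, hlc, e1 ▸ hlen, fun l' hl' => ?_, rfl⟩, by rw [← e, e3, e4]⟩
  rw [List.prefix_iff_eq_take.1 hl']
  exact hpre' _
theorem bxi_left (H : Subgroup M.G) {A : Set M.G} (hA : A ∈ 𝓝[(H : Set M.G)] 1) :
    ∃ t : Set M.G, t.Countable ∧ ∀ g ∈ H, ∃ a ∈ t, a⁻¹ * g ∈ A := by
  obtain ⟨O, hO, h1, hOA⟩ := mem_nhdsWithin.1 hA
  obtain ⟨t, -, ht, hc⟩ := TopologicalSpace.countable_cover_nhdsWithin (s := (H : Set M.G))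
    (f := fun x => {g | x⁻¹ * g ∈ A}) (fun x hx => by
      refine mem_nhdsWithin.2 ⟨{g | x⁻¹ * g ∈ O}, hO.preimage (by fun_prop), by simpa using h1, ?_⟩
      rintro g ⟨hg, hgH⟩
      exact hOA ⟨hg, H.mul_mem (H.inv_mem hx) hgH⟩)
  refine ⟨t, ht, fun g hg => ?_⟩
  simpa using hc hg
theorem bxi_right (H : Subgroup M.G) {A : Set M.G} (hA : A ∈ 𝓝[(H : Set M.G)] 1) :
    ∃ t : Set M.G, t.Countable ∧ ∀ g ∈ H, ∃ a ∈ t, g * a⁻¹ ∈ A := by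
  obtain ⟨O, hO, h1, hOA⟩ := mem_nhdsWithin.1 hA
  obtain ⟨t, -, ht, hc⟩ := TopologicalSpace.countable_cover_nhdsWithin (s := (H : Set M.G))
    (f := fun x => {g | g * x⁻¹ ∈ A}) (fun x hx => by
      refine mem_nhdsWithin.2 ⟨{g | g * x⁻¹ ∈ O}, hO.preimage (by fun_prop), by simpa using h1, ?_⟩
      rintro g ⟨hg, hgH⟩
      exact hOA ⟨hg, H.mul_mem hgH (H.inv_mem hx)⟩)
  refine ⟨t, ht, fun g hg => ?_⟩
  simpa using hc hg
theorem bxi_lgm_one : M.lgm 1 = 0 := by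
  have := M.lgm_exp 0
  rwa [M.exp_zero] at this
theorem bxi_small (w : ℝ) : ∃ σ : ℝ, 0 < σ ∧ ∀ Y ∈ M.E, ‖Y‖ ≤ σ → Y ∈ M.Box w := by
  obtain ⟨D, hD, h1⟩ := M.EV_zero_subset
  obtain ⟨b, B, -, -, h2⟩ := M.Box_scale
  have hD0 : 0 < D := by linarith
  have he := Real.exp_pos (B * |w|)
  have h3 : M.Box 0 ⊆ Real.exp (B * |w|) • M.Box w :=
    (M.Box_mono (by linarith [neg_abs_le w])).trans (h2 w |w| (abs_nonneg w)).1
  refine ⟨(D * Real.exp (B * |w|))⁻¹, by positivity, fun Y hY hn => ?_⟩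
  have h4 : (D * Real.exp (B * |w|)) • Y ∈ M.EV 0 := by
    refine ⟨M.E.smul_mem _ hY, ?_⟩
    rw [norm_smul, Real.exp_zero, Real.norm_of_nonneg (by positivity)]
    calc D * Real.exp (B * |w|) * ‖Y‖ ≤ D * Real.exp (B * |w|) * (D * Real.exp (B * |w|))⁻¹ := by gcongr
      _ = 1 := mul_inv_cancel₀ (by positivity)
  have h5 := h1 h4
  rw [mul_smul, smul_mem_smul_set_iff₀ hD0.ne'] at h5
  have h6 := h3 h5
  rwa [smul_mem_smul_set_iff₀ he.ne'] at h6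
theorem bxi_Box (w : ℝ) : M.exp '' M.Box w ∈ 𝓝[(M.expSub M.E : Set M.G)] 1 := by
  obtain ⟨σ, hσ, h1⟩ := M.bxi_small w
  refine mem_nhdsWithin.2 ⟨{g | ‖M.lgm g‖ < σ}, isOpen_lt (M.continuous_lgm.norm) continuous_const, ?_, ?_⟩
  · simpa [M.bxi_lgm_one] using hσ
  · rintro g ⟨hg, hgE⟩
    obtain ⟨X, hX, rfl⟩ := (M.mem_expSub (Core.IsIdl.isSub _ M.isIdl_E)).1 hgE
    refine ⟨X, h1 X hX ?_, rfl⟩
    have : ‖M.lgm (M.exp X)‖ < σ := hg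
    rw [M.lgm_exp] at this
    exact this.le
theorem bxi_C {ρ : ℝ} (hρ : 1 ≤ ρ) : M.ballCR ρ ∈ 𝓝[(M.C : Set M.G)] 1 := by
  refine mem_nhdsWithin.2 ⟨{g | ‖M.lgm g‖ < 1} ∩ M.tv ⁻¹' {0},
    (isOpen_lt (M.continuous_lgm.norm) continuous_const).inter ((isOpen_discrete _).preimage M.continuous_tv), ?_, ?_⟩
  · exact ⟨by simp [M.bxi_lgm_one], M.tv_one⟩
  · rintro g ⟨⟨hg, h0⟩, hgC⟩
    have h1 : M.tv g = 0 := h0
    have h2 := M.exp_lgm g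
    rw [h1, M.sec_zero, mul_one] at h2
    have h3 : M.exp (M.lgm g) ∈ M.ballC 1 := M.exp_mem_ballC (M.mem_C.1 hgC) (by simpa using le_of_lt hg)
    rw [h2, ← M.ballCR_nat] at h3
    exact M.ballCR_mono (by simpa using hρ) h3
/-- the set is `exp (Box w) * (c * ballC ρ * c⁻¹) * c` and contains `exp (σ • EV 0) * exp (W 0 ∩ small ball) * c`, a neighbourhood of `c`
(`E_sup_W`; e.g. finitely many right translates of it cover `ball 1`, or Baire / `exists_mul_decomp`) -/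
theorem vol_Z_pos (w : ℝ) {c : M.G} (hc : c ∈ M.C) {ρ : ℝ} (hρ : 1 ≤ ρ) : 0 < volume (M.exp '' M.Box w * {c} * M.ballCR ρ) := by
  rw [pos_iff_ne_zero]
  intro h0
  obtain ⟨s, hs, h1⟩ := M.bxi_left _ (M.bxi_Box w)
  obtain ⟨t, ht, h2⟩ := M.bxi_right _ (M.bxi_C hρ)
  obtain ⟨B, -, h3⟩ := M.exists_dec
  apply M.volume_ball_ne_zero
  have h4 : M.ball 1 ⊆ ⋃ a ∈ s, ⋃ b ∈ t,
      (fun g => a⁻¹ * g) ⁻¹' ((fun g => g * b⁻¹) ⁻¹' (M.exp '' M.Box w * {c} * M.ballCR ρ)) := by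
    intro g hg
    obtain ⟨X, hX, c', hc', -, rfl⟩ := h3 1 g hg
    obtain ⟨a, ha, ha'⟩ := h1 (M.exp X) ((M.exp_mem_expSub (Core.IsIdl.isSub _ M.isIdl_E)).2 hX)
    obtain ⟨b, hb, hb'⟩ := h2 (c⁻¹ * c') (M.C.mul_mem (M.C.inv_mem hc) (M.ballC_subset_C 1 hc'))
    simp only [mem_iUnion, mem_preimage]
    refine ⟨a, ha, b, hb, _, ⟨_, ha', c, rfl, rfl⟩, _, hb', ?_⟩
    group
  refine measure_mono_null h4 ((measure_biUnion_null_iff hs).2 fun a _ => (measure_biUnion_null_iff ht).2 fun b _ => ?_)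
  rw [measure_preimage_mul, measure_preimage_mul_right, h0]
theorem vol0_pos {w : ℝ} (hw : 1 ≤ w) : 0 < M.vol0 w := by
  simpa [vol0] using M.vol_Z_pos w M.C.one_mem hw
theorem vol0_lt_top (w : ℝ) : M.vol0 w < ∞ := by
  exact (((M.isCompact_Box w).image M.continuous_exp).mul (M.isCompact_ballCR w)).measure_lt_top
/-- packing: a maximal subset of `S` whose left translates of `B` are disjoint -/
theorem bxj_pack (μ : Measure M.G) {S B : Set M.G} {D : ℝ} (hD : 0 ≤ D) (hB : MeasurableSet B) (h1 : (1 : M.G) ∈ B)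
    (hμ : ∀ s ∈ S, μ (s • B) = μ B) (h0 : μ B ≠ 0) (ht : μ B ≠ ∞) (hd : μ (S * B) ≤ ENNReal.ofReal D * μ B) :
    ∃ F : Finset M.G, F.card ≤ ⌈D⌉₊ ∧ ∀ c ∈ S, ∃ y ∈ F, ∃ b ∈ B, ∃ b' ∈ B, c = y * (b' * b⁻¹) := by
  classical
  have hb : ∀ F : Finset M.G, ↑F ⊆ S → ((F : Set M.G).PairwiseDisjoint fun s => s • B) → F.card ≤ ⌈D⌉₊ := fun F hF hp => by
    have h1 : (F.card : ℝ≥0∞) * μ B ≤ ENNReal.ofReal D * μ B := by
      refine le_trans ?_ hd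
      rw [← nsmul_eq_mul, ← Finset.sum_const, ← Finset.sum_congr rfl fun s hs => hμ s (hF hs)]
      refine (measure_biUnion_finset hp fun s _ => hB.const_smul s).ge.trans (measure_mono (iUnion₂_subset fun s hs => ?_))
      rintro _ ⟨b, hb, rfl⟩
      exact mul_mem_mul (hF hs) hb
    rw [ENNReal.mul_le_mul_iff_left h0 ht, ← ENNReal.ofReal_natCast, ENNReal.ofReal_le_ofReal_iff hD] at h1
    exact_mod_cast h1.trans (Nat.le_ceil D)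
  obtain ⟨F, hF, hp, hm⟩ := Nat.sSup_mem (s := {n | ∃ F : Finset M.G, ↑F ⊆ S ∧
    ((F : Set M.G).PairwiseDisjoint fun s => s • B) ∧ F.card = n}) ⟨0, ∅, by simp, by simp, rfl⟩
    ⟨_, fun n ⟨F, h1, h2, h3⟩ => h3 ▸ hb F h1 h2⟩
  refine ⟨F, hb F hF hp, fun c hcS => by_contra fun hn => ?_⟩
  have hcF : c ∉ F := fun h' => hn ⟨c, h', 1, h1, 1, h1, by simp⟩
  refine absurd (hm ▸ le_csSup ⟨_, fun n ⟨F, h1, h2, h3⟩ => h3 ▸ hb F h1 h2⟩ ⟨insert c F, ?_, ?_, rfl⟩ :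
    (insert c F).card ≤ F.card) (by rw [Finset.card_insert_of_notMem hcF]; omega)
  · rw [Finset.coe_insert]; exact insert_subset hcS hF
  · rw [Finset.coe_insert]
    refine hp.insert fun s hs _ => Set.disjoint_left.2 ?_
    rintro _ ⟨b, hb, rfl⟩ ⟨b', hb', he⟩
    exact hn ⟨s, hs, b, hb, b', hb', by rw [← mul_assoc, eq_mul_inv_iff_mul_eq]; exact he.symm⟩
/-- `exp (t • Box w)` is covered by boundedly many left translates of `exp (Box w)` -/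
theorem bxj_cover (t : ℝ) : ∃ N : ℕ, ∀ w, ∃ F : Finset M.G, F.card ≤ N ∧
    M.exp '' (t • M.Box w) ⊆ (F : Set M.G) * M.exp '' M.Box w := by
  obtain ⟨D, n, hD, hm⟩ := M.exists_In_mul
  obtain ⟨D', hD', -, hq⟩ := M.exp_Qi_mul (max |t| 1)
  have hE := Core.IsIdl.isSub _ M.isIdl_E
  have hσ : 0 < (D + 1)⁻¹ := by positivity
  have hσ1 : (D + 1)⁻¹ ≤ 1 := inv_le_one_of_one_le₀ (by linarith)
  refine ⟨⌈(D' * (D + 1)) ^ Module.finrank ℝ M.E⌉₊, fun w => ?_⟩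
  have hs := M.star_RV w
  have hp := M.isProbabilityMeasure_lw_Box hσ w
  have h0 := IsProbabilityMeasure.ne_zero (M.lw M.E ((D + 1)⁻¹ • M.Box w))
  rw [lw, Ne, cond_eq_zero, not_or] at h0
  have h1 : ∀ s ∈ M.exp '' (t • M.Box w), M.hm M.E (s • M.exp '' ((D + 1)⁻¹ • M.Box w)) = M.hm M.E (M.exp '' ((D + 1)⁻¹ • M.Box w)) := by
    rintro _ ⟨_, ⟨X, hX, rfl⟩, rfl⟩
    exact M.hm_image_left hE ((M.exp_mem_expSub hE).2 (M.E.smul_mem _ (M.Box_subset_E w hX))) _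
  have h3 : M.hm M.E (M.exp '' (t • M.Box w) * M.exp '' ((D + 1)⁻¹ • M.Box w)) ≤
      ENNReal.ofReal ((D' * (D + 1)) ^ Module.finrank ℝ M.E) * M.hm M.E (M.exp '' ((D + 1)⁻¹ • M.Box w)) := by
    refine (measure_mono ((mul_subset_mul (image_mono fun X hX => Core.In.mono' hs hX (le_max_left _ _))
      (image_mono fun X hX => Core.In.mono hs hX hσ.le (hσ1.trans (le_max_right _ _)))).trans (hq _ hs))).trans (le_of_eq ?_)
    rw [hm_exp, hm_exp, ← hV_smul _ (by positivity), smul_smul, mul_inv_cancel_right₀ (by positivity)]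
    rfl
  obtain ⟨F, hF, hc⟩ := M.bxj_pack (M.hm M.E) (by positivity)
    (((M.isCompact_Box w).smul _).image M.continuous_exp).measurableSet ⟨0, Core.In.zero hs, M.exp_zero⟩ h1 h0.2 h0.1 h3
  refine ⟨F, hF, fun c hcS => ?_⟩
  obtain ⟨y, hy, _, ⟨X, hX, rfl⟩, _, ⟨Y, hY, rfl⟩, rfl⟩ := hc c hcS
  refine mul_mem_mul hy ⟨M.bch Y (-X), ?_, by rw [← M.exp_bch, M.exp_neg]⟩
  have h2 := Core.In.add hY (hm _ hs 1 1 _ Y (-X) le_rfl hσ.le hσ1 (Core.In.mono hs hY hσ.le hσ1) (Core.In.neg hs hX)).1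
    hσ.le (by positivity)
  rwa [add_sub_cancel, show (D + 1)⁻¹ + D * 1 ^ n * (D + 1)⁻¹ = 1 by rw [one_pow]; field_simp; ring, Core.In, one_smul] at h2
/-- VZ.  Cover `exp (t • Box w)` by `D` left translates of `exp (Box w)` and `c⁻¹ * ballC (Λ w)` by `D` right translates of
`ballC (δ w)` (`exists_netC`). -/
theorem vol_region_le (Λ t δ : ℝ) (hδ : 0 < δ) : ∃ D w₀ : ℝ, 1 ≤ D ∧ ∀ w ≥ w₀, ∀ c ∈ M.ballCR (Λ * w),
    volume (M.exp '' (t • M.Box w) * M.ballCR (Λ * w)) ≤ ENNReal.ofReal D * volume (M.exp '' M.Box w * {c} * M.ballCR (δ * w)) := by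
  obtain ⟨N, hN⟩ := M.bxj_cover t
  obtain ⟨N', hN'⟩ := M.exists_netC (2 * Λ / δ)
  refine ⟨max 1 (N' * N), 2 / δ, le_max_left _ _, fun w hw c hc => ?_⟩
  obtain ⟨F, hF, hcov⟩ := hN w
  obtain ⟨-, F', -, hF', hnet⟩ := hN' (δ * w) (by rwa [ge_iff_le, div_le_iff₀' hδ] at hw) _ Subset.rfl
  have h1 : M.exp '' (t • M.Box w) * M.ballCR (Λ * w) ⊆
      ⋃ z ∈ F', (· * z⁻¹) ⁻¹' ((F : Set M.G) * (M.exp '' M.Box w * {c} * M.ballCR (δ * w))) := by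
    rintro _ ⟨x, hx, b, hb, rfl⟩
    obtain ⟨y, hy, q, hq, rfl⟩ := hcov hx
    obtain ⟨z, hz, hs⟩ := hnet (c⁻¹ * b)
      (M.ballCR_mono (le_of_eq (by field_simp; ring)) (M.mul_mem_ballCR (M.inv_mem_ballCR hc) hb))
    exact mem_biUnion hz ⟨y, hy, _, mul_mem_mul (mul_mem_mul hq rfl) hs, by simp [mul_assoc]⟩
  refine (measure_mono h1).trans ((measure_biUnion_finset_le _ _).trans ?_)
  simp only [measure_preimage_mul_right, Finset.sum_const, nsmul_eq_mul]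
  refine (mul_le_mul_right (M.volume_finset_mul_le _ _) _).trans ?_
  rw [← mul_assoc]
  refine mul_le_mul_left (le_trans ?_ (ENNReal.ofReal_le_ofReal (le_max_right _ _))) _
  rw [← Nat.cast_mul, ← Nat.cast_mul, ENNReal.ofReal_natCast]
  exact_mod_cast Nat.mul_le_mul hF' hF
omit M in
theorem bxk_shift {G : Type*} [MeasurableSpace G] {μ : Measure G} {T : G → G} (hT : MeasurePreserving T μ μ) {Θ Θ' : Set G}
    (hΘ : MeasurableSet Θ) (hΘ' : MeasurableSet Θ') (hs : Θ ⊆ Θ') (hT' : Θ ⊆ T ⁻¹' Θ') (h0 : μ Θ ≠ 0) (h1 : μ Θ ≠ ∞) {ε : ℝ≥0∞}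
    (hε : μ Θ' ≤ (1 + ε) * μ Θ) {f : G → ℝ≥0∞} (hf : Measurable f) (hf1 : ∀ x, f x ≤ 1) :
    ∫⁻ c, f (T c) ∂μ[|Θ] ≤ ∫⁻ c, f c ∂μ[|Θ] + ε := by
  have h2 : μ (Θ' \ Θ) ≤ ε * μ Θ := by
    rw [measure_sdiff hs hΘ.nullMeasurableSet h1, tsub_le_iff_left]
    rwa [add_mul, one_mul] at hε
  have h3 : ∫⁻ c in Θ, f (T c) ∂μ ≤ ∫⁻ c in Θ, f c ∂μ + ε * μ Θ :=
    calc ∫⁻ c in Θ, f (T c) ∂μ ≤ ∫⁻ c in T ⁻¹' Θ', f (T c) ∂μ := lintegral_mono_set hT'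
      _ = ∫⁻ c in Θ', f c ∂μ := hT.setLIntegral_comp_preimage hΘ' hf
      _ = ∫⁻ c in Θ, f c ∂μ + ∫⁻ c in Θ' \ Θ, f c ∂μ := by
        rw [← lintegral_inter_add_sdiff f Θ' hΘ, inter_eq_right.2 hs]
      _ ≤ _ := by
        refine add_le_add le_rfl (le_trans (lintegral_mono hf1) ?_)
        simpa using h2
  simp only [ProbabilityTheory.cond, lintegral_smul_measure, smul_eq_mul]
  refine (mul_le_mul' le_rfl h3).trans_eq ?_
  rw [mul_add, mul_left_comm, ENNReal.inv_mul_cancel h0 h1, mul_one]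
omit M in
theorem bxk_pigeon {a : ℕ → ℝ≥0∞} {q D : ℝ≥0∞} {N : ℕ} (h0 : a 0 ≠ 0) (h1 : a 0 ≠ ∞) (hN : a N ≤ D * a 0) (hD : D < q ^ N) :
    ∃ i < N, a (i + 1) ≤ q * a i := by
  by_contra hn
  push Not at hn
  have key : ∀ i ≤ N, q ^ i * a 0 ≤ a i := fun i hi => by
    induction i with
    | zero => simp
    | succ i ih =>
      rw [pow_succ', mul_assoc]
      exact (mul_le_mul' le_rfl (ih (by omega))).trans (hn i (by omega)).le
  exact absurd ((ENNReal.mul_le_mul_iff_left h0 h1).1 ((key N le_rfl).trans hN)) hD.not_ge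
theorem bxk_cpt (a b : ℝ) : IsCompact {c | c ∈ M.ballCR a ∧ nm (M.chi c) ≤ b} := by
  have hc := M.continuous_chi
  refine (M.isCompact_ballCR a).inter_right (t := {c | nm (M.chi c) ≤ b}) (isClosed_le ?_ continuous_const)
  unfold nm
  fun_prop
theorem bxk_nm {a : ℝ} {c : M.G} (hc : c ∈ M.ballCR a) : nm (M.chi c) ≤ a := (M.nm_chi_le c).trans (M.ballCR_subset_ballR a hc)
/-- FOL, the Følner product law.  `Θ i = {c ∈ ballC ((Λ + i / N) w) | nm (chi c) ≤ (1 + η / 3 + i η / (3 N)) w}`, `Θ i * ballC r ⊆ Θ (i + 1)`,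
`hC (Θ N) ≤ D hC (Θ 0)` by `hC_doubling`; pigeonhole.  For `s = exp Y * c₀ ∈ ball r` (`exists_decR`): `p * c * s = p * exp (Ad c Y) * (c * c₀)`,
`Ad_Gv_subset` at scale `(1 + η) w`. -/
theorem exists_folner (Λ η r η' : ℝ) (hΛ : 1 ≤ Λ) (hη : 0 < η) (hη' : 0 < η') : ∃ w₀ : ℝ, ∀ w ≥ w₀, ∃ Θ : Set M.G, IsCompact Θ ∧
    {c | c ∈ M.ballCR (Λ * w) ∧ nm (M.chi c) ≤ (1 + η / 3) * w} ⊆ Θ ∧ Θ ⊆ M.ballCR ((Λ + 1) * w) ∧
    ∀ ν : Measure M.G, IsProbabilityMeasure ν → Inv ν (M.exp '' M.Box ((1 + η) * w)) (w⁻¹ ^ 2) →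
      Inv ((ν.prod (M.hC[|Θ])).map fun z => z.1 * z.2) (M.ballR r) η' := by
  obtain ⟨Λd, hΛd, hdec⟩ := M.exists_decR
  obtain ⟨b, hb, hAd⟩ := M.Ad_Gv_subset
  obtain ⟨w₁, hw₁⟩ := hAd (Λ + 1) (η / 3 / (1 + η)) (by positivity) (by rw [div_le_one (by positivity)]; linarith)
  obtain ⟨D, hD, hdbl⟩ := M.hC_doubling (Λ + 1)
  obtain ⟨N, hN⟩ := pow_unbounded_of_one_lt D (show 1 < 1 + η' / 2 by linarith)
  have hN0 : (0 : ℝ) < N := by
    rcases Nat.eq_zero_or_pos N with rfl | h0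
    · rw [pow_zero] at hN; linarith
    · exact_mod_cast h0
  set r' := max r 1 with hr'
  have hr1 : 1 ≤ r' := le_max_right _ _
  refine ⟨max (max (max 1 w₁) (max (N * r') (3 * N * r' / η))) (max (3 * Λd * r' / (b * η)) (2 / η')), fun w hw => ?_⟩
  simp only [ge_iff_le, max_le_iff] at hw
  obtain ⟨⟨⟨a1, a2⟩, a3, a4⟩, a5, a6⟩ := hw
  rw [div_le_iff₀ (by positivity)] at a4 a5 a6
  let Θ : ℕ → Set M.G := fun i => {c | c ∈ M.ballCR (Λ * w + i * (w / N)) ∧ nm (M.chi c) ≤ (1 + η / 3) * w + i * (η * w / (3 * N))}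
  have hc : ∀ i, IsCompact (Θ i) := fun i => M.bxk_cpt _ _
  have b1 : r' ≤ w / N := by rw [le_div_iff₀ hN0]; linarith
  have b2 : r' ≤ η * w / (3 * N) := by rw [le_div_iff₀ (by positivity)]; linarith
  have hmono : ∀ {i j : ℕ}, i ≤ j → Θ i ⊆ Θ j := fun {i j} hij c hc => by
    have : (i : ℝ) ≤ j := by exact_mod_cast hij
    exact ⟨M.ballCR_mono (by gcongr) hc.1, hc.2.trans (by gcongr)⟩
  have hN' : ∀ c ∈ Θ N, c ∈ M.ballCR ((Λ + 1) * w) ∧ nm (M.chi c) ≤ (1 - η / 3 / (1 + η)) * ((1 + η) * w) := fun c hc =>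
    ⟨M.ballCR_mono (le_of_eq (by field_simp)) hc.1, hc.2.trans_eq (by field_simp; ring)⟩
  have hw0 : M.ballCR w ⊆ Θ 0 := fun c hc =>
    ⟨M.ballCR_mono (by simp; nlinarith) hc, (M.bxk_nm hc).trans (by simp; nlinarith)⟩
  have hne : ∀ i, M.hC (Θ i) ≠ 0 := fun i =>
    ((M.hC_ballCR_pos a1).trans_le (measure_mono (hw0.trans (hmono i.zero_le)))).ne'
  obtain ⟨i, hi, hq⟩ := bxk_pigeon (a := fun i => M.hC (Θ i)) (q := 1 + ENNReal.ofReal (η' / 2)) (D := ENNReal.ofReal D) (N := N)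
    (hne 0) (hc 0).measure_lt_top.ne
    ((measure_mono fun c hc => (hN' c hc).1).trans ((hdbl w a1).trans (mul_le_mul' le_rfl (measure_mono hw0))))
    (by
      rw [← ENNReal.ofReal_one, ← ENNReal.ofReal_add zero_le_one (by positivity), ← ENNReal.ofReal_pow (by positivity)]
      exact (ENNReal.ofReal_lt_ofReal_iff (by positivity)).2 hN)
  refine ⟨Θ i, hc i, fun c hc => hmono i.zero_le ⟨by simpa using hc.1, by simpa using hc.2⟩,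
    fun c hc => (hN' c (hmono hi.le hc)).1, fun ν hν hinv s hs A hA => ?_⟩
  have := cond_isProbabilityMeasure_of_finite (hne i) (hc i).measure_lt_top.ne
  obtain ⟨Y, hY, c₀, hc₀, hYn, rfl⟩ := hdec r' hr1 s (M.ballR_mono (le_max_left _ _) hs)
  have hm : Measurable fun z : M.G × M.G => z.1 * z.2 := measurable_mul
  have key : ∀ B : Set M.G, MeasurableSet B → ((ν.prod (M.hC[|Θ i])).map fun z => z.1 * z.2) B =
      ∫⁻ c, ν {p | p * c ∈ B} ∂M.hC[|Θ i] := fun B hB => by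
    rw [Measure.map_apply hm hB, Measure.prod_apply_symm (hm hB)]
    rfl
  have hf : Measurable fun c => ν {p | p * c ∈ A} := measurable_measure_prodMk_right (hm hA)
  rw [key _ (measurable_mul_const _ hA), key _ hA]
  have h1 : ∀ᵐ c ∂M.hC[|Θ i], ν {p | p * c ∈ (· * (M.exp Y * c₀)) ⁻¹' A} ≤
      ν {p | p * (c * c₀) ∈ A} + ENNReal.ofReal (w⁻¹ ^ 2) := by
    filter_upwards [ae_cond_mem (hc i).measurableSet] with c hc
    obtain ⟨d1, d2⟩ := hN' c (hmono hi.le hc)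
    have h2 := hw₁ ((1 + η) * w) (by nlinarith) c (M.ballCR_mono (by gcongr; nlinarith) d1) d2 Y
      (M.Gv_mono (by field_simp; linarith) (M.EV_subset_Gv _ ⟨hY, hYn⟩))
    have h3 := M.smul_Qi_mono (M.star_RV ((1 + η) * w)) (Real.exp_pos _).le
      (Real.exp_le_one_iff.2 (neg_nonpos.2 (by positivity))) h2
    rw [one_smul] at h3
    convert hinv _ ⟨_, h3, rfl⟩ {p | p * (c * c₀) ∈ A} (measurable_mul_const _ hA) using 2
    ext p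
    simp only [mem_ofPred_eq, mem_preimage, ← M.conj]
    congr! 1
    group
  refine (lintegral_mono_ae h1).trans ?_
  rw [lintegral_add_right _ measurable_const, lintegral_const, measure_univ, mul_one]
  have h4 := bxk_shift (M.hC_mul_right hc₀.1) (hc i).measurableSet (hc (i + 1)).measurableSet (hmono i.le_succ)
    (fun c hc => ⟨M.ballCR_mono (by push_cast; linarith) (M.mul_mem_ballCR hc.1 hc₀), by
      have := nm_add_le (M.chi c) (M.chi c₀)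
      have := M.bxk_nm hc₀
      have := hc.2
      rw [M.chi_mul]; push_cast; linarith⟩) (hne i) (hc i).measure_lt_top.ne hq hf fun _ => prob_le_one
  refine (add_le_add h4 le_rfl).trans ?_
  rw [add_assoc, ← ENNReal.ofReal_add (by positivity) (by positivity)]
  refine add_le_add le_rfl (ENNReal.ofReal_le_ofReal ?_)
  have h5 : w⁻¹ ≤ η' / 2 := by rw [inv_le_iff_one_le_mul₀ (by positivity)]; linarith
  have h6 : w⁻¹ ≤ 1 := inv_le_one_of_one_le₀ a1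
  have h7 : 0 ≤ w⁻¹ := by positivity
  nlinarith

end Model

end Crest.Agent.R182
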