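import Crest.Agent.R182.CMP.Cov

/-! R182/B/CMP: comparison of modular characters (public statements FROZEN). -/

set_option autoImplicit false
set_option linter.unusedVariables false
set_option linter.unusedSectionVars false
open Set Filter Topology MeasureTheory ProbabilityTheory Matrix Crest.GroupTheory
open scoped Pointwise commutatorElement ENNReal

noncomputable section
namespace Crest.Agent.R182

namespace Model
variable {h k : ℕ} (M : Model h k)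

/-- COV (Vitali).  Let `A` be the set of good `x ∈ exp (U ∩ Gv R)` (fraction `≥ 1 / 2`).  For `x ∈ A`: `φ (q x) = φ q * m x * b x`, `m x ∈ exp U₁`,
`b x ∈ Qb r₁`, and there is `s x ∈ ball 1` with `P2 ψ U₁ U r r₁ (φ (q x) * s x) 1`.  Put `T = exp (U₁ ∩ exp (B r₁) • Gv r)`, which contains all
`b * exp (U₁ ∩ Gv r) * b⁻¹`, `b ∈ Qb (B r₁)`.  Take a maximal finite family `xᵢ ∈ A` with the `m xᵢ * T` pairwise disjoint.  The good `z` give points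
`φ (q xᵢ) sᵢ z = φ q * m xᵢ * (bᵢ z bᵢ⁻¹) * bᵢ` whose `ψ`-images lie in `q * exp (U ∩ D • Gv R) * Qb (B r₁)`.  `hm_conj_GI`, `hm_le_volR`, `vol_mul_Qb`,
`vol_le_image` for `f.symm`, `vol_le_hmR` give `n * hm U₁ (exp (Gv r)) ≤ exp (B r₁) * hm U (exp (Gv R))`. -/
theorem exists_cov (K : ℝ) {U U₁ : Submodule ℝ (V h)} (hU : M.GI U) (hU₁ : M.GI U₁) : ∃ B : ℝ, 1 ≤ B ∧
    ∀ (f : M.QP K) (R r r₁ : ℝ) (q : M.G), 1 ≤ r₁ → B * r₁ ≤ r → B * r ≤ R → ∀ A ⊆ M.exp '' (U ∩ M.Gv R),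
      (∀ x ∈ A, M.G1 f.φ U₁ r₁ q x ∧ M.H3 f.φ f.ψ U U₁ r r₁ (q * x)) → ∃ F : Finset M.G, ↑F ⊆ M.exp '' U₁ ∧
        (F.card : ℝ≥0∞) * hV U₁ (M.Gv r) ≤ ENNReal.ofReal (Real.exp (B * r₁)) * hV U (M.Gv R) ∧
        ∀ x ∈ A, ∃ y ∈ F, (f.φ q)⁻¹ * f.φ (q * x) ∈
          {y} * M.exp '' (U₁ ∩ Real.exp (B * r₁) • M.Gv r) * M.Qb r₁ := by
  classical
  obtain ⟨B₁, hB₁, hp⟩ := M.cov_piece K hU hU₁
  obtain ⟨B₂, hB₂, hc⟩ := M.cov_count K hU hU₁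
  obtain ⟨B₃, hB₃, hm⟩ := M.Sx_mul
  have h23 : 1 ≤ B₂ * B₃ := one_le_mul_of_one_le_of_one_le hB₂ hB₃
  refine ⟨B₁ * (B₂ * B₃), one_le_mul_of_one_le_of_one_le hB₁ h23, fun f R r r₁ q h1 hr hR A hA hG => ?_⟩
  have hB : B₁ ≤ B₁ * (B₂ * B₃) := le_mul_of_one_le_right (by linarith) h23
  have hr1 : r₁ ≤ r := le_trans (le_mul_of_one_le_left (by linarith) (hB₁.trans hB)) hr
  have hR1 : B₁ * r ≤ R := le_trans (mul_le_mul_of_nonneg_right hB (by linarith)) hR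
  have hR0 : 0 ≤ R := le_trans (mul_nonneg (by linarith) (by linarith)) hR1
  have ha : 1 ≤ B₁ * r₁ := one_le_mul_of_one_le_of_one_le hB₁ h1
  choose! m hm1 b hb1 he Z hZ1 hZ2 hZ3 hZ4 using fun x (hx : x ∈ A) =>
    hp f R r r₁ q h1 hr1 hR1 x (hA hx) (hG x hx).1 (hG x hx).2
  have hcount : ∀ F : Finset M.G, ↑F ⊆ A → (F : Set M.G).PairwiseDisjoint (fun x => {m x} * M.Sx U₁ (B₁ * r₁) r) →
      (F.card : ℝ≥0∞) * hV U₁ (M.Gv r) ≤ ENNReal.ofReal (Real.exp (B₂ * (B₁ * r₁))) * hV U (M.Gv R) := by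
    intro F hF hd
    refine hc f R (B₁ * r₁) q _ F m Z ha hR0 (fun x hx => ⟨hm1 x (hF hx), hZ1 x (hF hx), hZ3 x (hF hx), fun z hz => ?_⟩) ?_
    · obtain ⟨y, h1', h2'⟩ := hZ4 x (hF hx) z hz
      refine ⟨y, h1', mul_subset_mul_right (mul_subset_mul_left (M.Sx_mono U ?_ le_rfl)) h2'⟩
      exact le_mul_of_one_le_right (by linarith) h1
    · exact hd.mono_on fun x hx => mul_subset_mul_left (hZ2 x (hF hx))
  obtain ⟨N, hN⟩ := ENNReal.exists_nat_gt (r := ENNReal.ofReal (Real.exp (B₂ * (B₁ * r₁))) * hV U (M.Gv R) / hV U₁ (M.Gv r))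
    (ENNReal.div_ne_top (ENNReal.mul_ne_top ENNReal.ofReal_ne_top (M.hV_Gv_ne_top U R)) (M.hV_Gv_ne_zero hU₁.le r))
  obtain ⟨F, hF, hd, hcov⟩ := exists_vitali A (M.Sx U₁ (B₁ * r₁) r) m (M.one_mem_Sx _ _ _) N fun F hF hd => by
    have := ((ENNReal.le_div_iff_mul_le (Or.inl (M.hV_Gv_ne_zero hU₁.le r)) (Or.inl (M.hV_Gv_ne_top U₁ r))).2
      (hcount F hF hd)).trans_lt hN
    exact_mod_cast this.le
  refine ⟨F.image m, ?_, ?_, fun x hx => ?_⟩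
  · intro y hy
    obtain ⟨x, hx, rfl⟩ := Finset.mem_image.1 (Finset.mem_coe.1 hy)
    exact hm1 x (hF hx)
  · refine le_trans ?_ ((hcount F hF hd).trans ?_)
    · exact mul_le_mul_left (Nat.cast_le.2 (Finset.card_image_le (s := F) (f := m))) _
    · refine mul_le_mul_left (ENNReal.ofReal_le_ofReal (Real.exp_le_exp.2 ?_)) _
      nlinarith [mul_nonneg (mul_nonneg (by linarith : 0 ≤ B₁) (by linarith : 0 ≤ B₂)) (by linarith : 0 ≤ r₁)]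
  · obtain ⟨y, hy, t, ht, t', ht', he'⟩ := hcov x hx
    refine ⟨m y, Finset.mem_image_of_mem m hy, ?_⟩
    have h3 := hm U₁ hU₁.idl.isSub _ r ha t ht _ (M.inv_mem_Sx ht')
    have h4 := M.Sx_mono U₁ (a' := B₁ * (B₂ * B₃) * r₁) (by
      nlinarith [mul_nonneg (mul_nonneg (by linarith : 0 ≤ B₁) (by linarith : 0 ≤ B₃)) (by linarith : 0 ≤ r₁)]) le_rfl h3
    rw [he x hx, he', mul_assoc (m y)]
    exact mul_mem_mul (mul_mem_mul rfl h4) (hb1 x hx)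

/-- CMP.  With `g' = (φ q)⁻¹ * φ (q g) ∈ ball (K r₀ + K)`: `φ (q x g) = φ (q g) * m'' * b'`, and `g' m'' g'⁻¹ ∈ y * exp (U' ∩ exp (B r₁) • D • Gv r)` for the
`y ∈ F` of `x` (the correction lies in `exp U' ∩ Qb (B (r₀ + r₁)) ⊆ exp (U' ∩ Gv r)`).  Then
`exp (rb U ⬝ chi g) hm A = hm (g⁻¹ A g) ≲ vol (q A g * ball 1) ≲ vol (φ (q A g) * ball 1) ≲ exp (B r₁) exp (rb U' ⬝ chi g') * card F * hm U' (Gv r)`. -/
theorem cmp (K : ℝ) {U U' : Submodule ℝ (V h)} (hU : M.GI U) (hU' : M.GI U') : ∃ B : ℝ, 1 ≤ B ∧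
    ∀ (f : M.QP K) (R r r₀ r₁ : ℝ) (q g : M.G), 1 ≤ r₀ → 1 ≤ r₁ → B * (r₀ + r₁) ≤ r → B * r ≤ R → g ∈ M.ballR r₀ →
      M.CH f.φ f.ψ U U' U' R r r₁ q g → M.rb U ⬝ᵥ M.chi g ≤ M.rb U' ⬝ᵥ M.cc f.φ g q + B * r₁ := by
  classical
  obtain ⟨B₁, hB₁, hcov⟩ := M.exists_cov K hU hU'
  obtain ⟨B₂, hB₂, htr⟩ := M.cmp_transfer K hU'
  obtain ⟨B₃, hB₃, hup⟩ := M.cmp_upper hU'
  obtain ⟨B₄, hB₄, hlo⟩ := M.cmp_lower K hU
  refine ⟨B₁ + B₂ + B₃ * (2 * |K| + 1) + B₃ * (B₂ * B₁) + 2 * B₄, by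
    have := abs_nonneg K
    nlinarith [mul_nonneg (by linarith : 0 ≤ B₃) (mul_nonneg (by linarith : 0 ≤ B₂) (by linarith : 0 ≤ B₁))],
    fun f R r r₀ r₁ q g h0 h1 hr hR hg hC => ?_⟩
  have hK := f.one_le
  rw [abs_of_nonneg (by linarith : 0 ≤ K)] at hr hR ⊢
  have hp1 : 0 ≤ B₃ * (2 * K + 1) := by positivity
  have hp2 : 0 ≤ B₃ * (B₂ * B₁) := by positivity
  set B := B₁ + B₂ + B₃ * (2 * K + 1) + B₃ * (B₂ * B₁) + 2 * B₄ with hB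
  have hr0 : 0 ≤ r := le_trans (mul_nonneg (by linarith) (by linarith)) hr
  obtain ⟨A, hA, hAv, hAg⟩ := hC.good hU.le
  obtain ⟨F, hF, hFc, hFA⟩ := hcov f R r r₁ q h1
    (le_trans (mul_le_mul (by linarith) (by linarith) (by linarith) (by linarith)) hr)
    (le_trans (mul_le_mul_of_nonneg_right (by linarith) hr0) hR) A hA fun x hx => ⟨(hAg x hx).1, (hAg x hx).2.2⟩
  set g' := (f.φ q)⁻¹ * f.φ (q * g) with hg'
  have ha : 1 ≤ B₁ * r₁ := one_le_mul_of_one_le_of_one_le hB₁ h1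
  have ha' : 1 ≤ B₂ * (B₁ * r₁) := one_le_mul_of_one_le_of_one_le hB₂ ha
  have hg'b : g' ∈ M.ballR ((2 * K + 1) * r₀) := by
    have h2 := f.lφ q (q * g)
    rw [inv_mul_cancel_left] at h2
    have h3 : (M.len g : ℝ) ≤ r₀ := hg
    show (M.len g' : ℝ) ≤ _
    nlinarith
  have h5 := hup r ((2 * K + 1) * r₀) (B₂ * (B₁ * r₁)) (f.φ (q * g)) g' F (by nlinarith) ha'
    (le_trans (by rw [← mul_assoc]; exact mul_le_mul (by linarith) (by linarith) (by linarith) (by linarith)) hr) hg'b hF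
  have h6 : f.φ '' ((fun x => q * x * g) '' A) ⊆ {z | ∃ y ∈ F, ∃ t ∈ M.Sx U' (B₂ * (B₁ * r₁)) r, ∃ b ∈ M.Qb (B₂ * (B₁ * r₁)),
      z = f.φ (q * g) * (g'⁻¹ * (y * t) * g') * b} := by
    rintro _ ⟨_, ⟨x, hx, rfl⟩, rfl⟩
    obtain ⟨y, hy, hxy⟩ := hFA x hx
    obtain ⟨t, ht, b, hb, he⟩ := htr f r r₀ r₁ (B₁ * r₁) q g x y h0 h1 ha
      (le_trans (mul_le_mul_of_nonneg_right (by linarith) (by linarith)) hr) hg (hF hy) hxy (hAg x hx).2.1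
    refine ⟨y, hy, t, ht, b, M.Qb_mono ?_ hb, he⟩
    calc r₁ ≤ B₁ * r₁ := le_mul_of_one_le_left (by linarith) hB₁
      _ ≤ _ := le_mul_of_one_le_left (by linarith) hB₂
  have h7 : ENNReal.ofReal (Real.exp (M.rb U ⬝ᵥ M.chi g)) * hV U (M.Gv R) ≤
      ENNReal.ofReal (2 * B₄ * (Real.exp (B₃ * (B₂ * (B₁ * r₁)) + M.rb U' ⬝ᵥ M.chi g') * Real.exp (B₁ * r₁))) * hV U (M.Gv R) := by
    calc _ ≤ ENNReal.ofReal (Real.exp (M.rb U ⬝ᵥ M.chi g)) * (2 * M.hm U A) := by gcongr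
      _ = 2 * (ENNReal.ofReal (Real.exp (M.rb U ⬝ᵥ M.chi g)) * M.hm U A) := by ring
      _ ≤ 2 * (ENNReal.ofReal B₄ * (ENNReal.ofReal (Real.exp (B₃ * (B₂ * (B₁ * r₁)) + M.rb U' ⬝ᵥ M.chi g')) *
          (ENNReal.ofReal (Real.exp (B₁ * r₁)) * hV U (M.Gv R)))) := by
        exact mul_le_mul_right ((hlo f q g A).trans (mul_le_mul_right
          (le_trans (measure_mono (mul_subset_mul_right h6)) (h5.trans (mul_le_mul_right hFc _))) _)) _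
      _ = _ := by
        rw [ENNReal.ofReal_mul (by positivity), ENNReal.ofReal_mul (by positivity), ENNReal.ofReal_mul (by positivity),
          ENNReal.ofReal_ofNat]
        ring
  have h8 := (ENNReal.ofReal_le_ofReal_iff (by positivity)).1
    ((ENNReal.mul_le_mul_iff_left (M.hV_Gv_ne_zero hU.le R) (M.hV_Gv_ne_top U R)).1 h7)
  have h9 : 2 * B₄ ≤ Real.exp (2 * B₄ * r₁) := by
    have := Real.add_one_le_exp (2 * B₄ * r₁)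
    nlinarith
  have h10 : Real.exp (M.rb U ⬝ᵥ M.chi g) ≤
      Real.exp (2 * B₄ * r₁ + (B₃ * (B₂ * (B₁ * r₁)) + M.rb U' ⬝ᵥ M.chi g' + B₁ * r₁)) := by
    rw [Real.exp_add, Real.exp_add _ (B₁ * r₁)]
    exact h8.trans (by gcongr)
  rw [Real.exp_le_exp] at h10
  rw [M.cc_eq, ← hg']
  have h11 : 0 ≤ (B₂ + B₃ * (2 * K + 1)) * r₁ := by positivity
  rw [hB]
  nlinarith

/-- CMP2.  `p2` and `ℓ U₂ = 0` give `‖bb ((φ q)⁻¹ φ (q x))‖ ≤ exp (B (r₀ + r₁))` on `A`; `ℓ ∘ log` is additive on `N`; in each piece of `exists_cov` the slab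
`‖ℓ z - a‖ ≤ exp (B (r₀ + r₁))` has fraction `≤ exp (B (r₀ + r₁) - r)` (translate by multiples of `X0`); so
`hm A ≲ vol (φ (q A) * ball 1) ≲ exp (B (r₀ + r₁) - r) * hm (Gv R)`, contradicting `hm A ≥ hm (Gv R) / 2`. -/
theorem cmp2 (K : ℝ) {U U₁ U₂ : Submodule ℝ (V h)} (hU : M.GI U) (hU₁ : M.GI U₁) (hU₂ : M.GI U₂) {β : Fin k → ℝ} (A : M.Aff β)
    (h₁ : A.X0 ∈ U₁) (h₂ : ∀ X ∈ U₂, A.ℓ X = 0) : ∃ B : ℝ, 1 ≤ B ∧
    ∀ (f : M.QP K) (R r r₀ r₁ : ℝ) (q g : M.G), 1 ≤ r₀ → 1 ≤ r₁ → B * (r₀ + r₁) ≤ r → B * r ≤ R → g ∈ M.ballR r₀ →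
      ¬M.CH f.φ f.ψ U U₁ U₂ R r r₁ q g := by
  classical
  obtain ⟨B₁, hB₁, hcov⟩ := M.exists_cov K hU hU₁
  obtain ⟨B₂, hB₂, hbb⟩ := M.cmp2_bb K hU₂ A h₂
  obtain ⟨B₃, hB₃, hup⟩ := M.cmp2_upper hU₁ A h₁
  obtain ⟨B₄, hB₄, hlo⟩ := M.cmp_lower K hU
  have hp2 : 0 ≤ B₃ * B₁ := by positivity
  refine ⟨B₁ + B₂ + B₃ * B₁ + 2 * B₄, by linarith, fun f R r r₀ r₁ q g h0 h1 hr hR hg hC => ?_⟩
  have hr0 : 0 ≤ r := le_trans (mul_nonneg (by linarith) (by linarith)) hr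
  obtain ⟨S, hS, hSv, hSg⟩ := hC.good hU.le
  obtain ⟨F, hF, hFc, hFA⟩ := hcov f R r r₁ q h1
    (le_trans (mul_le_mul (by linarith) (by linarith) (by linarith) (by linarith)) hr)
    (le_trans (mul_le_mul_of_nonneg_right (by linarith) hr0) hR) S hS fun x hx => ⟨(hSg x hx).1, (hSg x hx).2.2⟩
  have ha : 1 ≤ B₁ * r₁ := one_le_mul_of_one_le_of_one_le hB₁ h1
  have h5 := hup r (B₁ * r₁) (B₂ * (r₀ + r₁)) (f.φ q) F hr0 ha (by positivity) hF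
  have h6 : f.φ '' ((fun x => q * x * 1) '' S) ⊆ {z | (∃ y ∈ F, (f.φ q)⁻¹ * z ∈ {y} * M.Sx U₁ (B₁ * r₁) r * M.Qb (B₁ * r₁)) ∧
      ‖A.bb ((f.φ q)⁻¹ * z)‖ ≤ Real.exp (B₂ * (r₀ + r₁))} := by
    rintro _ ⟨_, ⟨x, hx, rfl⟩, rfl⟩
    obtain ⟨y, hy, hxy⟩ := hFA x hx
    simp only [mul_one]
    exact ⟨⟨y, hy, mul_subset_mul_left (M.Qb_mono (le_mul_of_one_le_left (by linarith) hB₁)) hxy⟩,
      hbb f r₀ r₁ q g x h0 h1 hg (hSg x hx).2.1⟩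
  have h7 : ENNReal.ofReal 1 * hV U (M.Gv R) ≤
      ENNReal.ofReal (2 * B₄ * (Real.exp (B₃ * (B₁ * r₁) + B₂ * (r₀ + r₁) - r) * Real.exp (B₁ * r₁))) * hV U (M.Gv R) := by
    have h3 := hlo f q 1 S
    rw [M.chi_one, dotProduct_zero, Real.exp_zero, ENNReal.ofReal_one, one_mul] at h3
    calc _ ≤ 2 * M.hm U S := by rwa [ENNReal.ofReal_one, one_mul]
      _ ≤ 2 * (ENNReal.ofReal B₄ * (ENNReal.ofReal (Real.exp (B₃ * (B₁ * r₁) + B₂ * (r₀ + r₁) - r)) *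
          (ENNReal.ofReal (Real.exp (B₁ * r₁)) * hV U (M.Gv R)))) := by
        exact mul_le_mul_right (h3.trans (mul_le_mul_right
          (le_trans (measure_mono (mul_subset_mul_right h6)) (h5.trans (mul_le_mul_right hFc _))) _)) _
      _ = _ := by
        rw [ENNReal.ofReal_mul (by positivity), ENNReal.ofReal_mul (by positivity), ENNReal.ofReal_mul (by positivity),
          ENNReal.ofReal_ofNat]
        ring
  have h8 := (ENNReal.ofReal_le_ofReal_iff (by positivity)).1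
    ((ENNReal.mul_le_mul_iff_left (M.hV_Gv_ne_zero hU.le R) (M.hV_Gv_ne_top U R)).1 h7)
  have h9 : 2 * B₄ < Real.exp (2 * B₄ * (r₀ + r₁)) := by
    have := Real.add_one_le_exp (2 * B₄ * (r₀ + r₁))
    nlinarith
  have h10 : 1 < Real.exp (2 * B₄ * (r₀ + r₁) + (B₃ * (B₁ * r₁) + B₂ * (r₀ + r₁) - r + B₁ * r₁)) := by
    rw [Real.exp_add, Real.exp_add _ (B₁ * r₁)]
    exact h8.trans_lt (by gcongr)
  rw [Real.one_lt_exp_iff] at h10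
  nlinarith [mul_nonneg hp2 (by linarith : 0 ≤ r₀), mul_nonneg (by linarith : 0 ≤ B₁) (by linarith : 0 ≤ r₀)]

end Model

end Crest.Agent.R182
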