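import Crest.Agent.R182.B.PM

/-! R182/B/SP: spread (public statement FROZEN). -/

set_option autoImplicit false
set_option linter.unusedVariables false
set_option linter.unusedSectionVars false
open Set Filter Topology MeasureTheory ProbabilityTheory Matrix Crest.GroupTheory
open scoped Pointwise commutatorElement ENNReal

noncomputable section
namespace Crest.Agent.R182

namespace Model
variable {h k : ℕ} (M : Model h k)

theorem sp_left (p : M.G) (A : Set M.G) : volume ({p} * A) = volume A := by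
  rw [singleton_mul, image_mul_left, measure_preimage_mul]
theorem sp_right (p : M.G) (A : Set M.G) : volume (A * {p}) = volume A := by
  rw [mul_singleton, image_mul_right, measure_preimage_mul_right]

/-- subexponential covering of the balls of `C` -/
theorem sp_cov {ε : ℝ} (hε : 0 < ε) : ∃ B : ℝ, 1 ≤ B ∧ ∀ m : ℝ, 1 ≤ m → ∀ A : Set M.G,
    volume (A * M.ballCR m) ≤ ENNReal.ofReal (B * Real.exp (ε * m)) * volume (A * M.ballR 1) := by
  obtain ⟨D, hD⟩ := M.exists_netC 2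
  obtain ⟨B, hB, h0⟩ := M.vol_mul_le (M.isCompact_ballCR 2) M.ballR_mem_nhds
  have h1 : ∀ w : ℝ, 2 ≤ w → ∀ A : Set M.G, volume (A * M.ballCR (2 * w)) ≤ D * volume (A * M.ballCR w) := fun w hw A => by
    obtain ⟨F, -, hF, hc⟩ := (hD w hw _ subset_rfl).2
    have : A * M.ballCR (2 * w) ⊆ ⋃ y ∈ F, A * M.ballCR w * {y} := by
      rintro _ ⟨a, ha, c, hc', rfl⟩
      obtain ⟨y, hy, h⟩ := hc c hc'
      exact mem_biUnion hy ⟨_, mul_mem_mul ha h, y, rfl, by simp [mul_assoc]⟩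
    refine (measure_mono this).trans ((measure_biUnion_finset_le _ _).trans ?_)
    simp only [sp_right, Finset.sum_const, nsmul_eq_mul]
    gcongr
  have h2 : ∀ (j : ℕ) (A : Set M.G), volume (A * M.ballCR (2 ^ (j + 1))) ≤ D ^ j * volume (A * M.ballCR 2) := fun j A => by
    induction j with
    | zero => simp
    | succ j ih =>
      rw [pow_succ' (2 : ℝ) (j + 1), pow_succ' (D : ℝ≥0∞), mul_assoc]
      refine (h1 _ (le_self_pow₀ one_le_two (Nat.succ_ne_zero j)) A).trans ?_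
      gcongr
  have hf : (0 : ℝ) < D.factorial / ε ^ D := by positivity
  refine ⟨B * (1 + D.factorial / ε ^ D), one_le_mul_of_one_le_of_one_le hB (by linarith), fun m hm A => ?_⟩
  obtain ⟨j, hj, hj'⟩ := exists_nat_pow_near hm one_lt_two
  have h3 : (D : ℝ) ^ j ≤ (1 + D.factorial / ε ^ D) * Real.exp (ε * m) := by
    have e1 : (D : ℝ) ≤ 2 ^ D := by exact_mod_cast Nat.lt_two_pow_self.le
    have e2 := Real.pow_div_factorial_le_exp (ε * m) (by positivity) D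
    calc (D : ℝ) ^ j ≤ (2 ^ D) ^ j := by gcongr
      _ = (2 ^ j) ^ D := by rw [← pow_mul, ← pow_mul, mul_comm]
      _ ≤ m ^ D := by gcongr
      _ = D.factorial / ε ^ D * ((ε * m) ^ D / D.factorial) := by
        rw [mul_pow]
        field_simp
      _ ≤ (1 + D.factorial / ε ^ D) * Real.exp (ε * m) := by gcongr; linarith
  refine (measure_mono (mul_subset_mul_left (M.ballCR_mono hj'.le))).trans ((h2 j A).trans ?_)
  refine (mul_le_mul_right (h0 A) _).trans ?_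
  rw [← mul_assoc, mul_assoc B, ENNReal.ofReal_mul (by linarith), mul_comm (ENNReal.ofReal B)]
  gcongr
  rw [← ENNReal.ofReal_natCast, ← ENNReal.ofReal_pow (Nat.cast_nonneg D)]
  exact ENNReal.ofReal_le_ofReal h3

/-- translates along the root group lie in disjoint slabs of `z ↦ bb (z⁻¹ * y)` -/
theorem sp_slab {β : Fin k → ℝ} (A : M.Aff β) : ∃ S : ℝ, 1 ≤ S ∧ ∀ (y : M.G) (a : ℝ), 1 ≤ a → ∀ Z : Set M.G,
    (∀ z ∈ Z, ‖A.bb (z⁻¹ * y)‖ ≤ a) → ∀ n : ℕ, n * volume (Z * M.ballR 1) ≤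
      volume (⋃ i ∈ Finset.range n, Z * M.ballR 1 * {M.exp ((i * (S * a)) • A.X0)}) := by
  obtain ⟨B₁, h1⟩ := (M.isCompact_ballR 1).exists_bound_of_continuousOn A.continuous_bb.continuousOn
  obtain ⟨B₂, h2⟩ := (M.isCompact_ballR 1).exists_bound_of_continuousOn
    (f := fun s => Real.exp (β ⬝ᵥ M.chi s)) (Real.continuous_exp.comp (continuous_const.dotProduct M.continuous_chi)).continuousOn
  have h0 : 0 < ‖A.ℓ A.X0‖ := norm_pos_iff.2 A.X0_ne
  have hB₁ : 0 ≤ B₁ := (norm_nonneg _).trans (h1 1 (M.one_mem_ballR zero_le_one))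
  have hB₂ : 0 ≤ B₂ := (norm_nonneg _).trans (h2 1 (M.one_mem_ballR zero_le_one))
  have hq : 0 ≤ 2 * (B₁ + B₂) / ‖A.ℓ A.X0‖ := by positivity
  refine ⟨1 + 2 * (B₁ + B₂) / ‖A.ℓ A.X0‖, by linarith, fun y a ha Z hZ n => ?_⟩
  have hS : 2 * (B₁ + B₂) < (1 + 2 * (B₁ + B₂) / ‖A.ℓ A.X0‖) * ‖A.ℓ A.X0‖ := by
    rw [add_mul, div_mul_cancel₀ _ h0.ne']
    linarith
  generalize 1 + 2 * (B₁ + B₂) / ‖A.ℓ A.X0‖ = S at hS
  set U := ⋃ i ∈ Finset.range n, Z * M.ballR 1 * {M.exp ((i * (S * a)) • A.X0)}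
  let L : ℕ → Set M.G := fun i => {w | ‖A.bb (w⁻¹ * y) + ((i * (S * a) : ℝ) : ℂ) * A.ℓ A.X0‖ ≤ (B₁ + B₂) * a}
  have hL : ∀ i, MeasurableSet (L i) := fun i =>
    (isClosed_le ((A.continuous_bb.comp (continuous_inv.mul continuous_const)).add continuous_const).norm
      continuous_const).measurableSet
  have hd : (Finset.range n : Set ℕ).PairwiseDisjoint L := fun i _ j _ hij => Set.disjoint_left.2 fun w hi hj => by
    have e1 := (norm_sub_le _ _).trans (add_le_add hi hj)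
    rw [add_sub_add_left_eq_sub, ← sub_mul, ← Complex.ofReal_sub, ← sub_mul, norm_mul, Complex.norm_real, Real.norm_eq_abs,
      abs_mul] at e1
    have e2 : (1 : ℝ) ≤ |(i : ℝ) - j| := by
      have : (1 : ℤ) ≤ |(i : ℤ) - j| := Int.one_le_abs (sub_ne_zero.2 (by exact_mod_cast hij))
      exact_mod_cast this
    have e3 : S * a * ‖A.ℓ A.X0‖ ≤ |(i : ℝ) - j| * |S * a| * ‖A.ℓ A.X0‖ :=
      mul_le_mul_of_nonneg_right ((le_abs_self _).trans (le_mul_of_one_le_left (abs_nonneg _) e2)) h0.le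
    nlinarith
  have hsub : ∀ i : ℕ, Z * M.ballR 1 * {M.exp ((i * (S * a)) • A.X0)} ⊆ L i := by
    rintro i _ ⟨_, ⟨z, hz, s, hs, rfl⟩, _, rfl, rfl⟩
    have e1 : A.lam (M.exp (-((i * (S * a)) • A.X0))) = 1 := by
      rw [A.lam_congr (g' := 1) (by rw [M.tv_exp, M.tv_one]), map_one]
    have e2 : (z * s * M.exp ((i * (S * a)) • A.X0))⁻¹ * y = M.exp (-((i * (S * a)) • A.X0)) * (s⁻¹ * (z⁻¹ * y)) := by
      rw [M.exp_neg]
      group
    show ‖A.bb ((z * s * M.exp ((i * (S * a)) • A.X0))⁻¹ * y) + _‖ ≤ _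
    rw [e2, A.bb_mul, A.bb_exp, e1, map_neg, map_smul, Complex.real_smul, Units.val_one, one_mul, neg_add_cancel_comm,
      A.bb_mul]
    refine (norm_add_le _ _).trans ?_
    have e3 := h1 _ (M.inv_mem_ballR hs)
    have e4 := h2 _ (M.inv_mem_ballR hs)
    rw [Real.norm_of_nonneg (Real.exp_pos _).le] at e4
    rw [norm_mul, A.norm_lam]
    nlinarith [mul_le_mul e4 (hZ z hz) (norm_nonneg _) hB₂]
  calc (n : ℝ≥0∞) * volume (Z * M.ballR 1) = ∑ i ∈ Finset.range n, volume (Z * M.ballR 1 * {M.exp ((i * (S * a)) • A.X0)}) := by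
        simp
    _ ≤ ∑ i ∈ Finset.range n, volume.restrict U (L i) := Finset.sum_le_sum fun i hi => by
        rw [Measure.restrict_apply (hL i)]
        exact measure_mono (subset_inter (hsub i) (subset_biUnion_of_mem (u := fun i : ℕ =>
          Z * M.ballR 1 * {M.exp ((i * (S * a)) • A.X0)}) hi))
    _ = volume.restrict U (⋃ i ∈ Finset.range n, L i) := (measure_biUnion_finset hd fun i _ => hL i).symm
    _ ≤ volume U := (measure_mono (subset_univ _)).trans_eq (Measure.restrict_apply_univ U)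

theorem sp_pull {K m : ℝ} (f : M.QP K) (T : Set M.G) :
    f.ψ '' (f.φ '' T * M.ballR m) * M.ballR 1 ⊆ T * M.ballR (K + (K * m + K) + 1) := by
  rintro _ ⟨_, ⟨_, ⟨_, ⟨x, hx, rfl⟩, g, hg, rfl⟩, rfl⟩, s, hs, rfl⟩
  have h1 : (f.ψ (f.φ x))⁻¹ * f.ψ (f.φ x * g) ∈ M.ballR (K * m + K) := by
    have := f.lψ (f.φ x) (f.φ x * g)
    rw [inv_mul_cancel_left] at this
    exact this.trans (add_le_add_left (mul_le_mul_of_nonneg_left hg (zero_le_one.trans f.one_le)) _)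
  exact ⟨x, hx, _, M.mul_mem_ballR (M.mul_mem_ballR (f.left x) h1) hs, by simp [mul_assoc]⟩

/-- SP.  Split the set `T` into `≤ (B ρ) ^ k` classes according to `tv (φ (p x))`; on a class `lam (y⁻¹ φ (p x)) = l₀` is constant, `‖l₀‖ ≥ exp (-r)`.
`A₀ = φ (p T_c) * exp (closedBall 0 1)`, `Aᵢ = A₀ * exp ((i S) • X0)`, `i < n = ⌊exp (c' ρ) / S⌋`; `bb (y⁻¹ ·)` is shifted by `l₀ i S ℓ X0`, and varies on `A₀` by at most
`2 exp r + B ‖l₀‖`, so the `Aᵢ` are disjoint for `S = B exp (2 r)`; they have the same volume and lie in `φ (p T) * ball (B c' ρ)`; `vol_le_image` for `f.symm`, `exists_decR`: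
`ψ` maps them into `p * exp (D • Gv ρ) * ballC (B ρ)` for `c'` small, whose volume is `≤ poly ρ * hV E (Gv ρ)` (`norm_lgm_C`, cover `ballC` by `poly` many
`ball 1 * y`, `vol_le_hmR`).  (Disjointness of non measurable sets: use the measurable slabs `{bb ∈ ball (aᵢ)}` and `toMeasurable`, or open thickenings.) -/
theorem sp (K : ℝ) {β : Fin k → ℝ} (A : M.Aff β) : ∃ B c : ℝ, 1 ≤ B ∧ 0 < c ∧ ∀ (f : M.QP K) (p y : M.G) (ρ r : ℝ), 1 ≤ ρ → 0 ≤ r →
    M.lw M.E (M.Gv ρ) {x | ‖A.bb (y⁻¹ * f.φ (p * x))‖ ≤ Real.exp r ∧ -r ≤ β ⬝ᵥ M.chi (y⁻¹ * f.φ (p * x))} ≤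
      ENNReal.ofReal (B * Real.exp (B * r - c * ρ)) := by
  by_cases hK : 1 ≤ K
  swap
  · exact ⟨1, 1, le_rfl, one_pos, fun f => absurd f.one_le hK⟩
  have hE := M.isIdl_E.isSub
  obtain ⟨S, hS, hslab⟩ := M.sp_slab A
  obtain ⟨Λ', hΛ', hlen⟩ := M.len_exp_E
  obtain ⟨Λ, hΛ, hdec⟩ := M.exists_decR
  obtain ⟨c, hc, hc'⟩ : ∃ c : ℝ, 0 < c ∧ Λ * K * Λ' * c = 1 / 2 := ⟨1 / (2 * (Λ * K * Λ')), by positivity, by field_simp⟩
  obtain ⟨B₁, hB₁, h₁⟩ := M.hm_le_volR hE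
  obtain ⟨B₂, hB₂, h₂⟩ := M.vol_le_image K 1
  obtain ⟨B₄, hB₄, h₄⟩ := M.sp_cov (half_pos hc)
  obtain ⟨B₅, hB₅, h₅⟩ := M.vol_le_hmR hE
  obtain ⟨D₁, hD₁, -, hq₁⟩ := M.exp_Qi_mul 1
  obtain ⟨D₂, hD₂, -, hq₂⟩ := M.exp_Qi_mul D₁
  set ρ₀ := 2 * (Λ * (3 * K + 1 + K * Λ'))
  set C := B₁ * B₂ * B₂ * B₄ * B₅ * D₂ ^ Module.finrank ℝ M.E
  have hC : 0 ≤ C * S := by positivity
  have hx := Real.exp_pos (c / 2 * ρ₀)
  refine ⟨2 + C * S + Real.exp (c / 2 * ρ₀), c / 2, by linarith, half_pos hc, fun f p y ρ r hρ hr => ?_⟩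
  have hBr : 2 * r ≤ (2 + C * S + Real.exp (c / 2 * ρ₀)) * r := mul_le_mul_of_nonneg_right (by linarith) hr
  rcases le_total ρ ρ₀ with h0 | h0
  · have := M.isProbabilityMeasure_lw_Gv le_rfl one_pos ρ
    rw [one_smul] at this
    refine prob_le_one.trans (ENNReal.one_le_ofReal.2 ?_)
    calc (1 : ℝ) ≤ Real.exp (c / 2 * ρ₀) * Real.exp ((2 + C * S + Real.exp (c / 2 * ρ₀)) * r - c / 2 * ρ) := by
          rw [← Real.exp_add]
          exact Real.one_le_exp (by nlinarith)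
      _ ≤ _ := mul_le_mul_of_nonneg_right (by linarith) (Real.exp_pos _).le
  rw [M.lw_apply _ (M.isCompact_Gv ρ)]
  set T := M.Gv ρ ∩ M.exp ⁻¹' {x | ‖A.bb (y⁻¹ * f.φ (p * x))‖ ≤ Real.exp r ∧ -r ≤ β ⬝ᵥ M.chi (y⁻¹ * f.φ (p * x))}
  set Z := f.φ '' ({p} * M.exp '' T)
  have hZ : ∀ z ∈ Z, ‖A.bb (z⁻¹ * y)‖ ≤ Real.exp (2 * r) := by
    rintro _ ⟨_, ⟨q, rfl, _, ⟨X, ⟨-, e1, e2⟩, rfl⟩, rfl⟩, rfl⟩
    beta_reduce
    generalize f.φ (q * M.exp X) = z at e1 e2 ⊢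
    have e3 := A.bb_mul (y⁻¹ * z) (z⁻¹ * y)
    rw [show y⁻¹ * z * (z⁻¹ * y) = 1 by group, A.bb_C M.C.one_mem, eq_comm, add_eq_zero_iff_eq_neg] at e3
    rw [e3, norm_neg, norm_mul, A.norm_lam] at e1
    have e4 := (mul_le_mul_of_nonneg_right (Real.exp_le_exp.2 e2) (norm_nonneg _)).trans e1
    rwa [Real.exp_neg, inv_mul_le_iff₀ (Real.exp_pos r), ← Real.exp_add, ← two_mul] at e4
  have ha : 1 ≤ Real.exp (2 * r) := Real.one_le_exp (by linarith)
  have hSa : 0 < S * Real.exp (2 * r) := by positivity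
  have hcρ : 0 ≤ c * ρ := by positivity
  set t := Real.exp (c * ρ) / (S * Real.exp (2 * r)) with ht
  have ht0 : 0 < t := by positivity
  have h1 := hslab y _ ha Z hZ (⌊t⌋₊ + 1)
  set U := ⋃ i ∈ Finset.range (⌊t⌋₊ + 1), Z * M.ballR 1 * {M.exp ((i * (S * Real.exp (2 * r))) • A.X0)}
  have hU : U ⊆ Z * M.ballR (1 + Λ' * (1 + c * ρ)) := iUnion₂_subset fun i hi => by
    rintro _ ⟨_, ⟨z, hz, s, hs, rfl⟩, _, rfl, rfl⟩
    refine ⟨z, hz, _, M.mul_mem_ballR hs (hlen _ (by linarith) _ (M.E.smul_mem _ (M.W_le_E A.ne A.X0_mem)) ?_),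
      (mul_assoc _ _ _).symm⟩
    have e1 : (i : ℝ) ≤ t := (Nat.le_floor_iff ht0.le).1 (Nat.lt_succ_iff.1 (Finset.mem_range.1 hi))
    rw [norm_smul, Real.norm_of_nonneg (by positivity)]
    exact (mul_le_of_le_one_right (by positivity) A.X0_norm).trans
      (((le_div_iff₀ hSa).1 e1).trans (Real.exp_le_exp.2 (by linarith)))
  set m := K + (K * (1 + Λ' * (1 + c * ρ)) + K) + 1 with hm
  have hm1 : 1 ≤ m := by
    have : 0 ≤ K * (1 + Λ' * (1 + c * ρ)) := by positivity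
    linarith
  have hmρ : Λ * m ≤ ρ := by
    have : Λ * m = ρ₀ / 2 + Λ * K * Λ' * c * ρ := by rw [hm]; ring
    rw [this, hc']
    linarith
  have hG : M.EV ρ ⊆ M.Gv ρ := M.EV_subset_Gv ρ
  have h2 : M.exp '' T * M.ballR m ⊆ M.exp '' (D₁ • M.Gv ρ) * M.ballCR m := by
    rintro _ ⟨_, ⟨X, hX, rfl⟩, g, hg, rfl⟩
    obtain ⟨Y, hY, b, hb, hY', rfl⟩ := hdec m hm1 g hg
    refine ⟨_, hq₁ _ (M.star_EV ρ) (mul_mem_mul ⟨X, ?_, rfl⟩ ⟨Y, ?_, rfl⟩), b, hb, mul_assoc _ _ _⟩ <;> rw [one_smul]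
    · exact hX.1
    · exact hG ⟨hY, hY'.trans (Real.exp_le_exp.2 hmρ)⟩
  have h3 : M.exp '' (D₁ • M.Gv ρ) ⊆ M.exp '' M.E := image_mono <| by
    rintro _ ⟨X, hX, rfl⟩
    exact M.E.smul_mem _ (M.Gv_subset_E ρ hX)
  have h4 : M.exp '' (D₁ • M.Gv ρ) * M.exp '' (M.E ∩ Metric.closedBall 0 1) ⊆ M.exp '' (D₂ • M.Gv ρ) := by
    refine (mul_subset_mul_left (image_mono fun X hX => ?_)).trans (hq₂ _ (M.star_EV ρ))
    refine M.smul_Qi_mono (M.star_EV ρ) zero_le_one hD₁ ?_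
    rw [one_smul]
    exact hG ⟨hX.1, (mem_closedBall_zero_iff.1 hX.2).trans (Real.one_le_exp (by linarith))⟩
  have h5 : volume U ≤ ENNReal.ofReal B₂ * (ENNReal.ofReal (B₄ * Real.exp (c / 2 * m)) * (ENNReal.ofReal B₅ *
      (ENNReal.ofReal (D₂ ^ Module.finrank ℝ M.E) * hV M.E (M.Gv ρ)))) := by
    refine (measure_mono (subset_mul_left _ (M.one_mem_ballR zero_le_one))).trans ((h₂ f.symm U).trans ?_)
    gcongr
    refine (measure_mono ((mul_subset_mul_right (image_mono hU)).trans (M.sp_pull f _))).trans ?_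
    rw [mul_assoc ({p} : Set M.G), sp_left]
    refine (measure_mono h2).trans ((h₄ m hm1 _).trans ?_)
    gcongr
    refine (h₅ _ h3).trans ?_
    gcongr
    rw [← hV_smul _ (by linarith), ← M.hm_exp]
    exact measure_mono h4
  have h6 : hV M.E T ≤ ENNReal.ofReal B₁ * (ENNReal.ofReal B₂ * volume (Z * M.ballR 1)) := by
    rw [← M.hm_exp]
    refine (h₁ _).trans ?_
    gcongr
    rw [← M.sp_left p, ← mul_assoc]
    exact h₂ f _
  have h7 : volume (Z * M.ballR 1) ≤ ENNReal.ofReal t⁻¹ * volume U := by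
    refine le_trans ?_ (mul_le_mul_right h1 _)
    rw [← mul_assoc, ← ENNReal.ofReal_natCast, ← ENNReal.ofReal_mul (by positivity)]
    refine le_mul_of_one_le_left' (ENNReal.one_le_ofReal.2 ?_)
    rw [le_inv_mul_iff₀ ht0, mul_one]
    exact_mod_cast (Nat.lt_floor_add_one t).le
  have h8 : hV M.E T ≤ ENNReal.ofReal (C * (t⁻¹ * Real.exp (c / 2 * m))) * hV M.E (M.Gv ρ) := by
    refine h6.trans ((mul_le_mul_right (mul_le_mul_right (h7.trans (mul_le_mul_right h5 _)) _) _).trans_eq ?_)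
    simp only [← mul_assoc]
    iterate 6 rw [← ENNReal.ofReal_mul (by positivity)]
    congr 2
    simp only [C]
    ring
  refine (mul_le_mul_right h8 _).trans ?_
  rw [mul_left_comm]
  refine (mul_le_of_le_one_right' (ENNReal.inv_mul_le_one _)).trans (ENNReal.ofReal_le_ofReal ?_)
  rw [ht, inv_div, div_mul_eq_mul_div, mul_assoc S, ← Real.exp_add, mul_div_assoc, ← Real.exp_sub, ← mul_assoc]
  have hmρ' : m ≤ ρ := (le_mul_of_one_le_left (by linarith) hΛ).trans hmρ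
  exact mul_le_mul (by linarith) (Real.exp_le_exp.2 (by nlinarith)) (Real.exp_pos _).le (by linarith)

end Model

end Crest.Agent.R182
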