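import Crest.Agent.R182.B.NA
import Crest.Agent.R182.H.Loc

/-! R182/B/HIL: coarse differentiation by an ergodic theorem (public statements FROZEN). -/

set_option autoImplicit false
set_option linter.unusedVariables false
set_option linter.unusedSectionVars false
open Set Filter Topology MeasureTheory ProbabilityTheory Matrix Crest.GroupTheory
open scoped Pointwise commutatorElement ENNReal

noncomputable section
namespace Crest.Agent.R182

namespace Model
variable {h k : ℕ} (M : Model h k)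

/-- LOC (proved in `R182/H/*`) -/
theorem loc (K Λ₀ ε δ : ℝ) (hε : 0 < ε) (hδ : 0 < δ) (n₁ : ℕ) : ∃ (n₂ : ℕ) (r η : ℝ), 0 < η ∧ ∀ (f : M.QP K) (μ : Measure M.G),
    IsProbabilityMeasure μ → Inv μ (M.ballR r) η → ∃ n : ℕ, n₁ ≤ n ∧ n ≤ n₂ ∧ ∀ g ∈ M.ballR (Λ₀ * n),
      μ {p | ε * n < ‖M.cc f.φ g p - M.Ln f.φ n p *ᵥ M.chi g‖} ≤ ENNReal.ofReal δ :=
  M.loc' K Λ₀ ε δ hε hδ n₁

end Model

end Crest.Agent.R182
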