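import Crest.Agent.R182.B.ENG
import Crest.Agent.R182.B.CMP
import Crest.Agent.R182.B.HIL
import Crest.Agent.R182.CLX.Det
import Crest.Agent.R182.CLZ.Cls
import Crest.Agent.R182.CLS.Rb
import Crest.Agent.R182.CLX.Ray
import Crest.Agent.R182.CLZ.LocB

/-! R182/B/CLS: the linear part lies in W1 (public statements FROZEN). -/

set_option autoImplicit false
set_option linter.unusedVariables false
set_option linter.unusedSectionVars false
open Set Filter Topology MeasureTheory ProbabilityTheory Matrix Crest.GroupTheory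
open scoped Pointwise commutatorElement ENNReal

noncomputable section
namespace Crest.Agent.R182

namespace Model
variable {h k : ℕ} (M : Model h k)

/-- `L` occurs as the linear part at all precisions -/
def Occ (K : ℝ) (L : Mat k) : Prop := ∀ t ε w₀ : ℝ, 0 < ε → ∃ (f : M.QP K) (p : M.G) (w : ℝ) (κ : Fin k → ℝ), w₀ ≤ w ∧ M.PF f.φ p w L κ t ε

/-- P1.  Otherwise `a ᵥ* L = 0` for some `a` with `a i ≠ 0`.  `T = {z | p⁻¹ ψ z ∈ exp (Box w) * ballC (δ w) * ball K}` has volume `≥ c vol0 w`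
(`vol_le_image`, `vol_region_le`); by `pv` and right invariance there is `z ∈ T` with `ψ z` and `ψ (z * gen i ^ j)`, `j ≈ δ w`, both good; then
`|a i| j ≤ B (ε₁ w + K)`. -/
theorem Occ.det_ne {M : Model h k} {K : ℝ} {L : Mat k} (hL : M.Occ K L) : L.det ≠ 0 := by
  exact M.det_ne_of_occ hL

/-- P2.  `exists_dir`; `eng3` at `c = 1` and `exists_fibre`-type choice of `b` (apply Fubini directly: there is `z = x₀ b` ...; or use `ν = lw E (s • Box w)` shifted by `p`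
with `lw_Inv`), `eng1` at `c = b` and `c = b * g`, `g = gen i ^ (± j)`, `j ≈ θ w`; `cmp` gives `rb U ⬝ chi g ≤ rb U' ⬝ L chi g + B ε₁ w`. -/
theorem Occ.rb {M : Model h k} {K : ℝ} {L : Mat k} (hL : M.Occ K L) : ∀ r ∈ M.RB, ∃ r' ∈ M.RB, r = r' ᵥ* L := by
  exact M.rb_of_occ2 hL.det_ne hL

/-- P3.  Otherwise for every `α ∈ R1` there is `t α ∈ C` with `0 < α ⬝ chi (t α)`, `(β ᵥ* L) ⬝ chi (t α) < 0` (`exists_sep_ray`, `exists_int_cone`).  For fixed
`x' ∈ exp (Gv (δ w))` take its word (`idl_R1`, `exists_word`), `path`, `Aff.norm_bb_image`: for most `x` the point `φ (p x x')` is in the tube of radius `B ε₁ w` of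
`φ (p x)`; Fubini contradicts `sp`. -/
theorem Occ.ray {M : Model h k} {K : ℝ} {L : Mat k} (hL : M.Occ K L) : ∀ β ∈ M.R1, ∃ α ∈ M.R1, ∃ c : ℝ, 0 < c ∧ β ᵥ* L = c • α := by
  exact M.cx_ray hL

/-- compactness of `{L | Mb L Λ}`, `PF.perturb`, `PF.mono` -/
theorem cls (K Λ η : ℝ) (hη : 0 < η) : ∃ t ε w₀ : ℝ, 1 ≤ t ∧ 0 < ε ∧ ∀ (f : M.QP K) (p : M.G) (w : ℝ) (L : Mat k) (κ : Fin k → ℝ),
    w₀ ≤ w → Mb L Λ → M.PF f.φ p w L κ t ε → ∃ L' ∈ M.W1, Mb (L - L') η := by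
  exact M.cls_of K Λ η hη fun L hL => ⟨Occ.det_ne hL, Occ.rb hL, Occ.ray hL⟩

/-- LOC with linear parts in `W1`.  At scale `w = n`: `stay` and `exists_netC` reduce `PF f.φ p n (Ln n p) (er (Ln n p) p) t ε'` to finitely many `cᵢ`;
`markov_fubini` over `x ∈ exp (t' • Box n)`; `cls`; `Lp p` is the element of `W1` within `η` of `Ln n p` (`exists_sep_W1`), or `1`. -/
theorem loc1 (K Λ₀ ε δ : ℝ) (hε : 0 < ε) (hδ : 0 < δ) (n₁ : ℕ) : ∃ (n₂ : ℕ) (r η : ℝ), 0 < η ∧ ∀ (f : M.QP K) (μ : Measure M.G),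
    IsProbabilityMeasure μ → Inv μ (M.ballR r) η → ∃ n : ℕ, n₁ ≤ n ∧ n ≤ n₂ ∧ ∃ Lp : M.G → Mat k, (∀ p, Lp p ∈ M.W1) ∧
      (∀ L, MeasurableSet {p | Lp p = L}) ∧ ∀ g ∈ M.ballR (Λ₀ * n),
        μ {p | ε * n < ‖M.cc f.φ g p - Lp p *ᵥ M.chi g‖} ≤ ENNReal.ofReal δ := by
  by_cases hK : 1 ≤ K
  swap
  · exact ⟨0, 0, 1, one_pos, fun f => absurd f.one_le hK⟩
  obtain ⟨η₀, hη₀, hsep⟩ := M.exists_sep_W1
  obtain ⟨η₁, hη₁, e1, e2⟩ : ∃ η₁ : ℝ, 0 < η₁ ∧ 2 * η₁ ≤ η₀ ∧ k * η₁ * |Λ₀| ≤ ε / 2 := by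
    refine ⟨min (η₀ / 2) (ε / (2 * (k * |Λ₀| + 1))), by positivity, by linarith [min_le_left (η₀ / 2) (ε / (2 * (k * |Λ₀| + 1)))], ?_⟩
    have h2 := min_le_right (η₀ / 2) (ε / (2 * (k * |Λ₀| + 1)))
    rw [le_div_iff₀ (by positivity)] at h2
    have h3 : 0 < min (η₀ / 2) (ε / (2 * (k * |Λ₀| + 1))) := by positivity
    nlinarith
  obtain ⟨t, ε', w₀, ht, hε', hc⟩ := M.cls K (2 * K) η₁ hη₁
  obtain ⟨Λ', ε'', δ'', w₁, hε'', hδ'', hp⟩ := M.loc_pf K t ε' (δ / 2) (by linarith) ht hε' (half_pos hδ)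
  obtain ⟨n₂, r, η, hη, H⟩ := M.loc K (max Λ₀ Λ') (min (ε / 2) ε'') (min (δ / 2) δ'') (by positivity) (by positivity)
    (max n₁ ⌈max w₀ w₁⌉₊)
  refine ⟨n₂, r, η, hη, fun f μ hμ hi => ?_⟩
  obtain ⟨n, h1, h2, h3⟩ := H f μ hμ hi
  have h4 : max w₀ w₁ ≤ n := Nat.ceil_le.1 ((le_max_right _ _).trans h1)
  have hn : (0 : ℝ) ≤ n := n.cast_nonneg
  obtain ⟨Lp, a1, a2, a3⟩ := M.exists_round (M.Ln f.φ n) (M.measurable_Ln f.mφ n) (η := η₁)
    fun L hL L' hL' hm => hsep L hL L' hL' fun i j => (hm i j).trans e1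
  have h5 := hp f μ n hμ ((le_max_right _ _).trans h4) fun g hg =>
    le_trans (measure_mono fun p hp => lt_of_le_of_lt (mul_le_mul_of_nonneg_right (min_le_right _ _) hn) hp)
      ((h3 g (M.ballR_mono (mul_le_mul_of_nonneg_right (le_max_right _ _) hn) hg)).trans (ENNReal.ofReal_le_ofReal (min_le_right _ _)))
  refine ⟨n, (le_max_left _ _).trans h1, h2, Lp, a1, a2, fun g hg => ?_⟩
  have h6 := (h3 g (M.ballR_mono (mul_le_mul_of_nonneg_right (le_max_left _ _) hn) hg)).trans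
    (ENNReal.ofReal_le_ofReal (min_le_left _ _))
  refine le_trans (measure_mono fun p hp => ?_) ((measure_union_le _ _).trans ((add_le_add h5 h6).trans_eq ?_))
  · by_contra hcon
    simp only [mem_union, mem_ofPred_eq, not_or, not_not, not_lt] at hcon hp
    obtain ⟨L', hL', hm⟩ := hc f p n _ _ ((le_max_left _ _).trans h4) (f.lφ.mb_Ln (by linarith) n p) hcon.1
    rw [a3 p L' hL' hm] at hp
    have b1 := hm.norm_mulVec (M.chi g)
    have b2 : ‖M.chi g‖ ≤ |Λ₀| * n := ((M.norm_chi_le g).trans hg).trans (mul_le_mul_of_nonneg_right (le_abs_self _) hn)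
    have b3 := norm_sub_le_norm_sub_add_norm_sub (M.cc f.φ g p) (M.Ln f.φ n p *ᵥ M.chi g) (L' *ᵥ M.chi g)
    rw [sub_mulVec] at b1
    have b4 := mul_le_mul_of_nonneg_left b2 (show 0 ≤ k * η₁ by positivity)
    have b5 := mul_le_mul_of_nonneg_right e2 hn
    have b6 := mul_le_mul_of_nonneg_right (min_le_left (ε / 2) ε'') hn
    linarith [hcon.2]
  · rw [← ENNReal.ofReal_add (by positivity) (by positivity), add_halves]

end Model

end Crest.Agent.R182
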