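import Crest.Agent.R182.B.Al

/-! R182/B/Cg: geometry of the supplement C, algebraic part (public statements FROZEN). -/

set_option autoImplicit false
set_option linter.unusedVariables false
set_option linter.unusedSectionVars false
open Set Filter Topology MeasureTheory ProbabilityTheory Matrix Crest.GroupTheory
open scoped Pointwise commutatorElement ENNReal

noncomputable section
namespace Crest.Agent.R182

namespace Model
variable {h k : ℕ} (M : Model h k)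

/-- `Grading.growth` on a geodesic `KC`-word -/
theorem norm_Ad_C : ∃ (B : ℝ) (D : ℕ), 1 ≤ B ∧ ∀ c ∈ M.C, ∀ α, ∀ X ∈ M.W α,
    ‖M.Ad c X‖ ≤ B * (1 + M.lenC c) ^ D * Real.exp (α ⬝ᵥ M.chi c) * ‖X‖ := by
  obtain ⟨B₀, hB₀, h₀⟩ := M.exists_norm_Ad_le
  obtain ⟨B, D, hB, hg⟩ := M.grading.growth (Real.exp B₀)
  refine ⟨B + 1, D, by linarith, fun c hc α X hX => ?_⟩
  obtain ⟨l, h1, h2, rfl⟩ := M.mem_ballC_lenC hc
  refine (hg l (fun g hg => ?_) α X hX).trans ?_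
  · have h3 := M.mem_ballC_one (h2 g hg)
    have h4 : (M.len g : ℝ) ≤ 1 := by exact_mod_cast M.ballC_subset_ball 1 h3
    refine ⟨M.ballC_subset_C 1 h3, fun X => (h₀ g X).trans ?_, fun i => (M.abs_tv_le g i).trans (h4.trans (Real.one_le_exp hB₀))⟩
    gcongr
    exact mul_le_of_le_one_right hB₀ h4
  · change _ ≤ _ * _ * Real.exp (M.ht α l.prod) * _
    gcongr
    linarith

/-- `norm_lgm_ballC`, `mem_ballC_lenC` -/
theorem norm_lgm_C : ∃ (B : ℝ) (D : ℕ), 1 ≤ B ∧ ∀ c ∈ M.C, ‖M.lgm c‖ ≤ B * (1 + M.lenC c) ^ D := by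
  obtain ⟨B, D, hB, hg⟩ := M.norm_lgm_ballC
  exact ⟨B, D, hB, fun c hc => hg _ c (M.mem_ballC_lenC hc)⟩

/-- Splitting off the `C`-part of a word.  A letter `exp X` is `exp Y * exp X₀` with `X₀` the `W 0`-component of `X` (so `exp X₀ ∈ KC`) and
`Y = bch X (-X₀) ∈ E` bounded.  With `π` the `C`-part of a letter, `l.prod = (u.map exp).prod * (l.map π).prod`, where the `i`-th entry of `u`
is `Ad ((l.map π).take i).prod Yᵢ`. -/
theorem exists_split : ∃ B : ℝ, 1 ≤ B ∧ ∀ l, M.Wrd l → ∃ (lc : List M.G) (u : List (V h)), M.WrdC lc ∧ lc.length = l.length ∧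
    u.length = l.length ∧ (∀ i, M.chi (lc.take i).prod = M.chi (l.take i).prod) ∧
    (∀ X ∈ u, ∃ i, ∃ Y ∈ M.E, ‖Y‖ ≤ B ∧ X = M.Ad (lc.take i).prod Y) ∧ l.prod = (u.map M.exp).prod * lc.prod := by
  obtain ⟨B, hB, h₀⟩ := M.cgb_letter
  refine ⟨B, hB, fun l hl => ?_⟩
  induction l with
  | nil => exact ⟨[], [], by simp [WrdC], rfl, rfl, fun _ => rfl, by simp, by simp⟩
  | cons x l ih =>
    obtain ⟨lc, u, h1, h2, h3, h4, h5, h6⟩ := ih fun y hy => hl y (List.mem_cons_of_mem _ hy)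
    obtain ⟨Z, hZ, hZn, c, hc, e⟩ := h₀ x (hl x List.mem_cons_self)
    refine ⟨c :: lc, Z :: u.map (M.Ad c), fun y hy => ?_, by simp [h2], by simp [h3], fun i => ?_, fun X hX => ?_, ?_⟩
    · rcases List.mem_cons.1 hy with rfl | hy
      · rw [M.cga_ballC_one] at hc
        rcases hc with hc | hc
        · exact hc
        · exact Or.inl (Or.inl ⟨0, ⟨by simp, Submodule.zero_mem _⟩, M.exp_zero.trans hc.symm⟩)
      · exact h1 y hy
    · rcases i with _ | i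
      · rfl
      · rw [List.take_succ_cons, List.take_succ_cons, List.prod_cons, List.prod_cons, M.chi_mul, M.chi_mul, h4, e,
          M.chi_mul, M.chi_exp, zero_add]
    · rcases List.mem_cons.1 hX with rfl | hX
      · exact ⟨0, X, hZ, hZn, by simp⟩
      · obtain ⟨X', hX', rfl⟩ := List.mem_map.1 hX
        obtain ⟨i, Y, hY, hYn, rfl⟩ := h5 X' hX'
        exact ⟨i + 1, Y, hY, hYn, by rw [List.take_succ_cons, List.prod_cons, map_mul]; rfl⟩
    · rw [List.prod_cons, h6, e, List.map_cons, List.prod_cons, List.prod_cons, mul_assoc, mul_assoc, ← mul_assoc c,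
        M.cgb_conj, mul_assoc]

/-- DEC: `exists_dec` -/
theorem exists_decR : ∃ Λ : ℝ, 1 ≤ Λ ∧ ∀ n : ℝ, 1 ≤ n → ∀ g ∈ M.ballR n, ∃ Y ∈ M.E, ∃ c ∈ M.ballCR n,
    ‖Y‖ ≤ Real.exp (Λ * n) ∧ g = M.exp Y * c := by
  obtain ⟨B, hB, hg⟩ := M.exists_dec
  refine ⟨B + 1, by linarith, fun n hn g hg' => ?_⟩
  obtain ⟨X, hX, c, hc, h1, h2⟩ := hg (M.len g) g (le_refl (M.len g))
  have h3 : (M.len g : ℝ) ≤ n := hg'
  refine ⟨X, hX, c, ⟨M.ballC_subset_C _ hc, (Nat.cast_le.2 (M.lenC_le hc)).trans h3⟩, h1.trans ?_, h2⟩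
  gcongr
  linarith




end Model

end Crest.Agent.R182
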