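import Crest.Agent.R182.A.Main
import Crest.Agent.R182.A.ApiVol
import Crest.Agent.R182.A.ApiLog
import Crest.Agent.R182.U.Reach
import Crest.Agent.R182.V.Defs

/-! # R182/B: definitions for the rigidity part (FROZEN; owner helper47).  Route: `Crest/Agent/notes182/route.md`. -/

set_option autoImplicit false
set_option linter.unusedVariables false
set_option linter.unusedSectionVars false
open Set Filter Topology MeasureTheory ProbabilityTheory Matrix Crest.GroupTheory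
open scoped Pointwise commutatorElement ENNReal

noncomputable section
namespace Crest.Agent.R182

/-- real `k × k` matrices -/
abbrev Mat (k : ℕ) : Type := Matrix (Fin k) (Fin k) ℝ

/-- the Euclidean norm -/
def nm {k : ℕ} (a : Fin k → ℝ) : ℝ := √(a ⬝ᵥ a)

/-- entrywise bound -/
def Mb {k : ℕ} (L : Mat k) (Λ : ℝ) : Prop := ∀ i j, |L i j| ≤ Λ

/-- Lebesgue measure of a subspace -/
abbrev hV {h : ℕ} (U : Submodule ℝ (V h)) : Measure (V h) := lebU U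

/-- almost invariance of a measure under right multiplication by the elements of `S` -/
def Inv {G : Type*} [Mul G] [MeasurableSpace G] (μ : Measure G) (S : Set G) (η : ℝ) : Prop :=
  ∀ s ∈ S, ∀ A : Set G, MeasurableSet A → μ ((· * s) ⁻¹' A) ≤ μ A + ENNReal.ofReal η

namespace Model
variable {h k : ℕ} (M : Model h k)

/-- the real height vector -/
def chi (g : M.G) : Fin k → ℝ := fun i => (M.tv g i : ℝ)
/-- balls of the word metric with real radius (`ball`, `KC`, `lenC`, `ballC`, `hm`, `hC` are in `V/Defs`) -/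
def ballR (r : ℝ) : Set M.G := {g | (M.len g : ℝ) ≤ r}
/-- balls of `C` with real radius -/
def ballCR (r : ℝ) : Set M.G := {g | g ∈ M.C ∧ (M.lenC g : ℝ) ≤ r}
/-- words in the generators of `G` -/
def Wrd (l : List M.G) : Prop := ∀ x ∈ l, x ∈ M.K ∨ x⁻¹ ∈ M.K
/-- words in the generators of `C` -/
def WrdC (l : List M.G) : Prop := ∀ x ∈ l, x ∈ M.KC ∨ x⁻¹ ∈ M.KC
/-- products of words of length `≤ ℓ` all of whose prefixes have height of Euclidean norm `≤ H` -/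
def Adm (ℓ H : ℝ) : Set M.G :=
  {g | ∃ l, M.Wrd l ∧ (l.length : ℝ) ≤ ℓ ∧ (∀ l', l' <+: l → nm (M.chi l'.prod) ≤ H) ∧ l.prod = g}
/-- the same inside `C` -/
def AdmC (ℓ H : ℝ) : Set M.G :=
  {g | ∃ l, M.WrdC l ∧ (l.length : ℝ) ≤ ℓ ∧ (∀ l', l' <+: l → nm (M.chi l'.prod) ≤ H) ∧ l.prod = g}
/-- coordinate boxes -/
def Qb (r : ℝ) : Set M.G := {g | ‖M.lgm g‖ ≤ Real.exp r ∧ ‖M.chi g‖ ≤ r}

/-- the uniform law on `exp (U ∩ S)` -/
def lw (U : Submodule ℝ (V h)) (S : Set (V h)) : Measure M.G := (M.hm U)[|M.exp '' S]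
/-- the uniform law on a ball of `C` -/
def lwC (r : ℝ) : Measure M.G := M.hC[|M.ballCR r]

/-- root vectors at scale `w` -/
def RV (w : ℝ) : Set (V h) := {X | X = 0 ∨ ∃ α, α ≠ 0 ∧ X ∈ M.W α ∧ ‖X‖ ≤ Real.exp (w * nm α)}
/-- the box at scale `w` -/
def Box (w : ℝ) : Set (V h) := M.Qi (M.RV w) 1
/-- balls of `E` -/
def EV (ρ : ℝ) : Set (V h) := {X | X ∈ M.E ∧ ‖X‖ ≤ Real.exp ρ}
/-- the isotropic box of `E` -/
def Gv (ρ : ℝ) : Set (V h) := M.Qi (M.EV ρ) 1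
/-- the normalising volume of the region over the box -/
def vol0 (w : ℝ) : ℝ≥0∞ := volume (M.exp '' M.Box w * M.ballCR w)

/-- the ideal generated by the root spaces `W α`, `α ∈ 𝒜` -/
def idl (𝒜 : Set (Fin k → ℝ)) : Submodule ℝ (V h) := sInf {U | M.IsIdl U ∧ ∀ α ∈ 𝒜, M.W α ≤ U}
/-- regular vectors -/
def RegV (v : Fin k → ℝ) : Prop := ∀ j, M.wt j ≠ 0 → M.wt j ⬝ᵥ v ≠ 0
/-- the positive part -/
def npos (v : Fin k → ℝ) : Submodule ℝ (V h) := ⨆ α : {α : Fin k → ℝ // 0 < α ⬝ᵥ v}, M.W α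
/-- the ideal generated by the negative part -/
def mI (v : Fin k → ℝ) : Submodule ℝ (V h) := M.idl {α | α ⬝ᵥ v < 0}
/-- `|det (Ad g | U)| = exp (- rb U ⬝ᵥ chi g)` -/
def rb (U : Submodule ℝ (V h)) : Fin k → ℝ :=
  -∑ α ∈ Finset.univ.image M.wt, (Module.finrank ℝ ↥(U ⊓ M.W α) : ℝ) • α
/-- invariant ideals inside `E` -/
structure GI (U : Submodule ℝ (V h)) : Prop where
  idl : M.IsIdl U
  le : U ≤ M.E
  Ad : ∀ g, ∀ X ∈ U, M.Ad g X ∈ U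
/-- the modular characters of the chamber ideals -/
def RB : Set (Fin k → ℝ) := {r | ∃ v, M.RegV v ∧ r = M.rb (M.mI v)}
/-- nonzero roots of depth one -/
def R1 : Set (Fin k → ℝ) := {α | α ≠ 0 ∧ ∃ j, M.dep j = 1 ∧ M.wt j = α}
/-- the finite group of admissible linear parts -/
def W1 : Set (Mat k) := {L | L.det ≠ 0 ∧ (∀ r ∈ M.RB, ∃ r' ∈ M.RB, r = r' ᵥ* L) ∧
  ∀ β ∈ M.R1, ∃ α ∈ M.R1, ∃ c : ℝ, 0 < c ∧ β ᵥ* L = c • α}
/-- same sign pattern -/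
def Sim (v v' : Fin k → ℝ) : Prop := ∀ j, (0 < M.wt j ⬝ᵥ v ↔ 0 < M.wt j ⬝ᵥ v') ∧ (M.wt j ⬝ᵥ v < 0 ↔ M.wt j ⬝ᵥ v' < 0)
/-- matching directions in the source and in the target -/
structure Dir (L : Mat k) (d d' : M.G) : Prop where
  mem : d ∈ M.C
  mem' : d' ∈ M.C
  reg : M.RegV (M.chi d)
  reg' : M.RegV (M.chi d')
  fwd : M.Sim (L *ᵥ M.chi d) (M.chi d')
  bwd : M.Sim (L⁻¹ *ᵥ M.chi d') (M.chi d)
/-- a finite family of directions meeting every chamber of the arrangement `{wt j ᵥ* L}` -/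
structure Dirs (𝒟 : Finset M.G) : Prop where
  mem : ∀ d ∈ 𝒟, d ∈ M.C
  reg : ∀ d ∈ 𝒟, ∀ L ∈ M.W1, M.RegV (L *ᵥ M.chi d)
  rep : ∀ v, (∀ L ∈ M.W1, M.RegV (L *ᵥ v)) → ∃ d ∈ 𝒟, ∀ L ∈ M.W1, M.Sim (L *ᵥ M.chi d) (L *ᵥ v)

/-- affine cocycles -/
structure Aff (β : Fin k → ℝ) where
  ℓ : V h →ₗ[ℝ] ℂ
  lam : M.G →* ℂˣ
  X0 : V h
  ne : β ≠ 0
  F2 : ∀ X ∈ M.F 2, ℓ X = 0
  oth : ∀ γ, γ ≠ β → ∀ X ∈ M.W γ, ℓ X = 0
  X0_mem : X0 ∈ M.W β
  X0_norm : ‖X0‖ ≤ 1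
  X0_ne : ℓ X0 ≠ 0
  Ad : ∀ g X, ℓ (M.Ad g X) = lam g * ℓ X
  norm_lam : ∀ g, ‖(lam g : ℂ)‖ = Real.exp (β ⬝ᵥ M.chi g)
  mul : ∀ g g', ℓ (M.lgm (g * g')) = ℓ (M.lgm g) + lam g * ℓ (M.lgm g')

/-- the translation part -/
def Aff.bb {M : Model h k} {β : Fin k → ℝ} (A : M.Aff β) (g : M.G) : ℂ := A.ℓ (M.lgm g)

/-- coarsely Lipschitz maps -/
def Lip (K : ℝ) (φ : M.G → M.G) : Prop := ∀ x y, (M.len ((φ x)⁻¹ * φ y) : ℝ) ≤ K * M.len (x⁻¹ * y) + K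

/-- measurable quasi-isometries with a quasi-inverse -/
structure QP (K : ℝ) where
  φ : M.G → M.G
  ψ : M.G → M.G
  one_le : 1 ≤ K
  mφ : Measurable φ
  mψ : Measurable ψ
  lφ : M.Lip K φ
  lψ : M.Lip K ψ
  left : ∀ x, (M.len (x⁻¹ * ψ (φ x)) : ℝ) ≤ K
  right : ∀ y, (M.len (y⁻¹ * φ (ψ y)) : ℝ) ≤ K

/-- the inverse pair -/
def QP.symm {M : Model h k} {K : ℝ} (f : M.QP K) : M.QP K :=
  ⟨f.ψ, f.φ, f.one_le, f.mψ, f.mφ, f.lψ, f.lφ, f.right, f.left⟩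

/-- height increments -/
def cc (φ : M.G → M.G) (g p : M.G) : Fin k → ℝ := M.chi (φ (p * g)) - M.chi (φ p)
/-- the deviation from the linear map `L` -/
def er (φ : M.G → M.G) (L : Mat k) (p : M.G) : Fin k → ℝ := M.chi (φ p) - L *ᵥ M.chi p
/-- the finite difference approximation of the linear part -/
def Ln (φ : M.G → M.G) (n : ℕ) (p : M.G) : Mat k := Matrix.of fun i j => M.cc φ (M.gen j ^ n) p i / n

/-- purity over the box at `p` of scale `w` -/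
def PF (φ : M.G → M.G) (p : M.G) (w : ℝ) (L : Mat k) (κ : Fin k → ℝ) (t ε : ℝ) : Prop :=
  ∀ s ∈ Icc 1 t, ∀ g ∈ M.Adm (t * w) ((1 - ε) * w),
    M.lw M.E (s • M.Box w) {x | ε * w < ‖M.er φ L (p * x * g) - κ‖} ≤ ENNReal.ofReal ε

/-- `φ` maps `q * x` into the `exp U`-coset of `φ q` up to `Qb r` -/
def G1 (φ : M.G → M.G) (U : Submodule ℝ (V h)) (r : ℝ) (q x : M.G) : Prop :=
  (φ q)⁻¹ * φ (q * x) ∈ (M.expSub U : Set M.G) * M.Qb r
/-- `G1` holds at `q` for `g⁻¹ * x * g` for all but a sixth of the `x` in the box of `U` -/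
def P2 (φ : M.G → M.G) (U U' : Submodule ℝ (V h)) (R r₁ : ℝ) (q g : M.G) : Prop :=
  M.lw U (M.Gv R) {x | ¬M.G1 φ U' r₁ q (g⁻¹ * x * g)} ≤ 6⁻¹
/-- near `φ q` the inverse map satisfies `G1` -/
def H3 (φ ψ : M.G → M.G) (U U' : Submodule ℝ (V h)) (r r₁ : ℝ) (q : M.G) : Prop :=
  (volume[|M.ballR 1]) {s | ¬M.P2 ψ U' U r r₁ (φ q * s) 1} ≤ 2⁻¹
/-- `H3` holds at most points of the box of `U` over `q` -/
def P3 (φ ψ : M.G → M.G) (U U' : Submodule ℝ (V h)) (R r r₁ : ℝ) (q : M.G) : Prop :=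
  M.lw U (M.Gv R) {x | ¬M.H3 φ ψ U U' r r₁ (q * x)} ≤ 6⁻¹
/-- the hypothesis of the comparison lemmas -/
structure CH (φ ψ : M.G → M.G) (U U₁ U₂ : Submodule ℝ (V h)) (R r r₁ : ℝ) (q g : M.G) : Prop where
  p1 : M.P2 φ U U₁ R r₁ q 1
  p2 : M.P2 φ U U₂ R r₁ (q * g) g
  p3 : M.P3 φ ψ U U₁ R r r₁ q

/-- linked points -/
def Lk (φ : M.G → M.G) (L : Mat k) (ζ : ℝ) (F : Finset M.G) (p p' : M.G) : Prop :=
  ∀ c ∈ F, ∀ c' ∈ F, ‖M.er φ L (p * c) - M.er φ L (p' * c')‖ ≤ ζ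

/-- `φ` has linear part `L` with error `e (len g)` -/
def Prof (φ : M.G → M.G) (L : Mat k) (e : ℝ → ℝ) : Prop := ∀ p g, ‖M.cc φ g p - L *ᵥ M.chi g‖ ≤ e (M.len g)

end Model

end Crest.Agent.R182
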