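import Crest.Agent.R182.B.CMP

/-! R182/B/DetCore: the deterministic end of LINK, in terms of `CH` (helper31). -/

set_option autoImplicit false
set_option linter.unusedVariables false
set_option linter.unusedSectionVars false
open Set Filter Topology MeasureTheory ProbabilityTheory Matrix Crest.GroupTheory
open scoped Pointwise commutatorElement ENNReal

noncomputable section
namespace Crest.Agent.R182

theorem detc_mono {B B' R r r₀ r₁ : ℝ} (hB : 1 ≤ B) (hB' : B ≤ B') (h0 : 1 ≤ r₀) (h1 : 1 ≤ r₁) (h2 : B' * (r₀ + r₁) ≤ r)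
    (h3 : B' * r ≤ R) : B * (r₀ + r₁) ≤ r ∧ B * r ≤ R := by
  have a1 : B * (r₀ + r₁) ≤ r := (mul_le_mul_of_nonneg_right hB' (by linarith)).trans h2
  have a2 : 0 ≤ r := le_trans (by positivity) a1
  exact ⟨a1, (mul_le_mul_of_nonneg_right hB' a2).trans h3⟩

namespace Model
variable {h k : ℕ} (M : Model h k)

theorem detc_cmp (K : ℝ) (d d' : M.G) : ∀ᶠ B : ℝ in atTop, ∀ (f : M.QP K) (R r r₀ r₁ : ℝ) (q g : M.G), 1 ≤ r₀ → 1 ≤ r₁ →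
    B * (r₀ + r₁) ≤ r → B * r ≤ R → g ∈ M.ballR r₀ → M.chi g = 0 →
      M.CH f.φ f.ψ (M.mI (M.chi d)) (M.mI (M.chi d')) (M.mI (M.chi d')) R r r₁ q g →
        0 ≤ M.rb (M.mI (M.chi d')) ⬝ᵥ M.cc f.φ g q + B * r₁ := by
  obtain ⟨B₀, hB₀, H⟩ := M.cmp K (M.gi_mI (M.chi d)) (M.gi_mI (M.chi d'))
  filter_upwards [eventually_ge_atTop B₀] with B hB f R r r₀ r₁ q g h0 h1 h2 h3 hg hg0 hC
  obtain ⟨a1, a2⟩ := detc_mono hB₀ hB h0 h1 h2 h3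
  have := H f R r r₀ r₁ q g h0 h1 a1 a2 hg hC
  rw [hg0, dotProduct_zero] at this
  have a3 : B₀ * r₁ ≤ B * r₁ := mul_le_mul_of_nonneg_right hB (by linarith)
  linarith

theorem detc_cmp2 (K : ℝ) (d d₁ d₂ : M.G) {β : Fin k → ℝ} (hβ : β ∈ M.R1) : ∀ᶠ B : ℝ in atTop,
    ∀ (f : M.QP K) (R r r₀ r₁ : ℝ) (q g : M.G), 1 ≤ r₀ → 1 ≤ r₁ → B * (r₀ + r₁) ≤ r → B * r ≤ R → g ∈ M.ballR r₀ →
      M.CH f.φ f.ψ (M.mI (M.chi d)) (M.mI (M.chi d₁)) (M.mI (M.chi d₂)) R r r₁ q g → β ⬝ᵥ M.chi d₁ < 0 → β ⬝ᵥ M.chi d₂ < 0 := by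
  by_cases hc : β ⬝ᵥ M.chi d₁ < 0 ∧ ¬β ⬝ᵥ M.chi d₂ < 0
  · obtain ⟨A⟩ := M.exists_Aff hβ
    obtain ⟨B₀, hB₀, H⟩ := M.cmp2 K (M.gi_mI (M.chi d)) (M.gi_mI (M.chi d₁)) (M.gi_mI (M.chi d₂)) A
      (M.W_le_idl (𝒜 := {α | α ⬝ᵥ M.chi d₁ < 0}) hc.1 A.X0_mem)
      fun X hX => A.idl_zero (𝒜 := {α | α ⬝ᵥ M.chi d₂ < 0}) hc.2 hX
    filter_upwards [eventually_ge_atTop B₀] with B hB f R r r₀ r₁ q g h0 h1 h2 h3 hg hC
    obtain ⟨a1, a2⟩ := detc_mono hB₀ hB h0 h1 h2 h3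
    exact absurd hC (H f R r r₀ r₁ q g h0 h1 a1 a2 hg)
  · exact Eventually.of_forall fun B f R r r₀ r₁ q g _ _ _ _ _ _ h1 => by_contra fun h2 => hc ⟨h1, h2⟩

theorem det_core (K : ℝ) {𝒟 : Finset M.G} {dd : Mat k → M.G → M.G} (h𝒟 : M.Dirs 𝒟) (hmem : ∀ L ∈ M.W1, ∀ d ∈ 𝒟, dd L d ∈ 𝒟)
    (hdir : ∀ L ∈ M.W1, ∀ d ∈ 𝒟, M.Dir L d (dd L d)) : ∃ B : ℝ, 1 ≤ B ∧
    ∀ (f : M.QP K) (j : Fin h) (R r r₀ r₁ : ℝ) (q g : M.G), ∀ L ∈ M.W1, ∀ L' ∈ M.W1, M.wt j ≠ 0 → 1 ≤ r₀ → 1 ≤ r₁ →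
      B * (r₀ + r₁) ≤ r → B * r ≤ R → g ∈ M.ballR r₀ → M.chi g = 0 →
      (∀ d ∈ 𝒟, 0 < M.wt j ⬝ᵥ M.chi d →
        M.CH f.φ f.ψ (M.mI (M.chi d)) (M.mI (M.chi (dd L d))) (M.mI (M.chi (dd L' d))) R r r₁ q g ∧
        M.CH f.φ f.ψ (M.mI (M.chi d)) (M.mI (M.chi (dd L' d))) (M.mI (M.chi (dd L d))) R r r₁ (q * g) g⁻¹) →
      L = L' ∧ ‖M.cc f.φ g q‖ ≤ B * r₁ := by
  have e1 := (𝒟.eventually_all (l := atTop)).2 fun d (_ : d ∈ 𝒟) =>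
    (𝒟.eventually_all (l := atTop)).2 fun d' (_ : d' ∈ 𝒟) => M.detc_cmp K d d'
  have e2 := (𝒟.eventually_all (l := atTop)).2 fun d (_ : d ∈ 𝒟) =>
    (𝒟.eventually_all (l := atTop)).2 fun d₁ (_ : d₁ ∈ 𝒟) => (𝒟.eventually_all (l := atTop)).2 fun d₂ (_ : d₂ ∈ 𝒟) =>
      (M.finite_R1.eventually_all (l := atTop)).2 fun β hβ => M.detc_cmp2 K d d₁ d₂ hβ
  obtain ⟨B, hB, H1, H2⟩ := ((eventually_ge_atTop (1 : ℝ)).and (e1.and e2)).exists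
  obtain ⟨B', hB', H3⟩ := h𝒟.span
  have hBB : 0 ≤ B' * B := by positivity
  refine ⟨B + B' * B, by linarith, fun f j R r r₀ r₁ q g L hL L' hL' hj h0 h1 h2 h3 hg hg0 hC => ?_⟩
  obtain ⟨a1, a2⟩ := detc_mono hB (by linarith) h0 h1 h2 h3
  have hg' := M.inv_mem_ballR hg
  obtain rfl : L = L' := by
    refine h𝒟.eq_of_pattern hL hL' hj fun d hd hd0 β hβ => ?_
    have b1 := H2 d hd _ (hmem L hL d hd) _ (hmem L' hL' d hd) β hβ f R r r₀ r₁ q g h0 h1 a1 a2 hg (hC d hd hd0).1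
    have b2 := H2 d hd _ (hmem L' hL' d hd) _ (hmem L hL d hd) β hβ f R r r₀ r₁ _ _ h0 h1 a1 a2 hg' (hC d hd hd0).2
    obtain ⟨hβ0, i, -, rfl⟩ := hβ
    have c1 := (hdir L hL d hd).reg' i hβ0
    have c2 := (hdir L' hL' d hd).reg' i hβ0
    rw [((hdir L hL d hd).fwd i).1, ((hdir L' hL' d hd).fwd i).1]
    exact ⟨fun c => lt_of_le_of_ne (not_lt.1 fun c' => lt_asymm c (b2 c')) c2.symm,
      fun c => lt_of_le_of_ne (not_lt.1 fun c' => lt_asymm c (b1 c')) c1.symm⟩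
  refine ⟨rfl, (H3 L hL j hj _ (B * r₁) (by positivity) fun d hd hd0 => ?_).trans ?_⟩
  · have b1 := H1 d hd _ (hmem L hL d hd) f R r r₀ r₁ q g h0 h1 a1 a2 hg hg0 (hC d hd hd0).1
    have b2 := H1 d hd _ (hmem L hL d hd) f R r r₀ r₁ _ _ h0 h1 a1 a2 hg' (by rw [M.chi_inv, hg0, neg_zero]) (hC d hd hd0).2
    rw [M.cc_inv, dotProduct_neg] at b2
    rw [M.mI_congr (hdir L hL d hd).fwd, abs_le]
    constructor <;> linarith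
  · have : 0 ≤ B * r₁ := by positivity
    nlinarith

end Model

end Crest.Agent.R182
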