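import Crest.Agent.R182.ENG.Eng3

/-! R182/B/ENG: from purity to the events G1, H3.  The public statements (`path`, `Reg`, `pv`, `pull`, `Room`, `eng1`, `eng3`, `exists_fibre`; FROZEN) are in
`R182/ENG/*.lean` (owner helper94). -/
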