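import Crest.Agent.R182.B.Al
import Crest.Agent.R182.A.ApiPoly
import Crest.Agent.R182.C.Main

/-! R182/B/Fin: the group side (block C; public statements FROZEN).  Recipe: notes182/route.md, head. -/

set_option autoImplicit false
set_option linter.unusedVariables false
set_option linter.unusedSectionVars false
open Set Filter Topology MeasureTheory ProbabilityTheory Matrix Crest.GroupTheory
open scoped Pointwise commutatorElement ENNReal

noncomputable section
namespace Crest.Agent.R182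

namespace Model
variable {h k : ℕ} (M : Model h k)

/-- the conclusion of the geometric part -/
def StB3 : Prop := ∀ K : ℝ, ∃ B : ℝ, ∀ f : M.QP K, ∃ L ∈ M.W1, M.Prof f.φ L fun n => B * Real.log (2 + n)

theorem fina_net : ∃ (x : ℕ → M.G) (N : M.G → ℕ), Measurable N ∧ ∀ g, wordDist M.K (x (N g)) g ≤ 1 := by
  classical
  have : Nonempty M.G := ⟨1⟩
  have hex : ∀ g : M.G, ∃ n, (M.len ((TopologicalSpace.denseSeq M.G n)⁻¹ * g) : ℝ) ≤ 1 := by
    intro g
    have h1 : (fun y : M.G => y⁻¹ * g) ⁻¹' M.ballR 1 ∈ 𝓝 g := by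
      refine ContinuousAt.preimage_mem_nhds (by fun_prop) ?_
      simpa using M.ballR_mem_nhds
    obtain ⟨y, hy, n, rfl⟩ := (TopologicalSpace.denseRange_denseSeq M.G).inter_nhds_nonempty h1 |>.imp fun y hy => And.symm hy
    exact ⟨n, hy⟩
  refine ⟨TopologicalSpace.denseSeq M.G, fun g => Nat.find (hex g), ?_, fun g => Nat.find_spec (hex g)⟩
  refine measurable_find hex fun n => ?_
  have hm : Measurable fun g : M.G => (M.len ((TopologicalSpace.denseSeq M.G n)⁻¹ * g) : ℝ) :=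
    (measurable_of_countable (fun n : ℕ => (n : ℝ))).comp (M.measurable_len.comp (measurable_const_mul _))
  exact measurableSet_le hm measurable_const

theorem fina_symm (x y : M.G) : wordDist M.K x y = wordDist M.K y x := by
  have := M.len_inv (x⁻¹ * y)
  rw [_root_.mul_inv_rev, inv_inv] at this
  exact congrArg (fun n : ℕ => (n : ℝ)) this.symm

theorem fina_tri (x y z : M.G) : wordDist M.K x z ≤ wordDist M.K x y + wordDist M.K y z := by
  have := M.len_mul (x⁻¹ * y) (y⁻¹ * z)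
  rw [mul_assoc, mul_inv_cancel_left] at this
  change (M.len (x⁻¹ * z) : ℝ) ≤ (M.len (x⁻¹ * y) : ℝ) + (M.len (y⁻¹ * z) : ℝ)
  exact_mod_cast this

/-- Measurable modification.  Take a countable dense sequence `xₙ`, `π g = x (least n with g ∈ xₙ * ball 1)` (measurable, countable range), a set theoretic
quasi-inverse `ψ₀` of `φ`, and put `f.φ = φ ∘ π`, `f.ψ = ψ₀ ∘ π`. -/
theorem exists_QP (K : ℝ) (hK : 1 ≤ K) : ∃ K' : ℝ, ∀ φ, M.QK K φ → ∃ f : M.QP K', ∀ x, (M.len ((φ x)⁻¹ * f.φ x) : ℝ) ≤ K' := by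
  obtain ⟨x, N, hN, hx⟩ := M.fina_net
  refine ⟨5 * K ^ 2, fun φ hφ => ?_⟩
  choose ψ hψ using hφ.2
  have hK0 : 0 < K := by linarith
  have hup : ∀ a b, wordDist M.K (φ a) (φ b) ≤ K * wordDist M.K a b + K := fun a b => (hφ.1 a b).2
  have hlo : ∀ a b, wordDist M.K a b ≤ K * wordDist M.K (φ a) (φ b) + K ^ 2 := by
    intro a b
    have h1 := (hφ.1 a b).1
    have h2 : wordDist M.K a b = K * (K⁻¹ * wordDist M.K a b) := by field_simp
    rw [h2]
    nlinarith
  have hx' : ∀ g, wordDist M.K g (x (N g)) ≤ 1 := fun g => by rw [M.fina_symm]; exact hx g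
  have hψ' : ∀ g, wordDist M.K (φ (ψ g)) g ≤ K := fun g => by rw [M.fina_symm]; exact hψ g
  have hπ : ∀ a b, wordDist M.K (x (N a)) (x (N b)) ≤ wordDist M.K a b + 2 := by
    intro a b
    have h1 := M.fina_tri (x (N a)) a (x (N b))
    have h2 := M.fina_tri a b (x (N b))
    linarith [hx a, hx' b]
  have hnn : ∀ a b, 0 ≤ wordDist M.K a b := fun a b => Nat.cast_nonneg _
  have hcl : ∀ a, wordDist M.K (φ a) (φ (x (N a))) ≤ 2 * K := by
    intro a
    have h1 := hup a (x (N a))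
    nlinarith [hx' a]
  have hKK : K ≤ K ^ 2 := by nlinarith
  refine ⟨⟨fun g => φ (x (N g)), fun g => ψ (x (N g)), by nlinarith,
    (measurable_of_countable fun n => φ (x n)).comp hN, (measurable_of_countable fun n => ψ (x n)).comp hN,
    fun a b => ?_, fun a b => ?_, fun a => ?_, fun a => ?_⟩, fun a => ?_⟩
  · change wordDist M.K (φ (x (N a))) (φ (x (N b))) ≤ 5 * K ^ 2 * wordDist M.K a b + 5 * K ^ 2
    have h1 := hup (x (N a)) (x (N b))
    have h2 := mul_le_mul_of_nonneg_left (hπ a b) hK0.le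
    have h3 := mul_le_mul_of_nonneg_right (show K ≤ 5 * K ^ 2 by linarith) (hnn a b)
    linarith
  · change wordDist M.K (ψ (x (N a))) (ψ (x (N b))) ≤ 5 * K ^ 2 * wordDist M.K a b + 5 * K ^ 2
    have h1 := hlo (ψ (x (N a))) (ψ (x (N b)))
    have h2 := M.fina_tri (φ (ψ (x (N a)))) (x (N a)) (φ (ψ (x (N b))))
    have h3 := M.fina_tri (x (N a)) (x (N b)) (φ (ψ (x (N b))))
    have h4 : wordDist M.K (φ (ψ (x (N a)))) (φ (ψ (x (N b)))) ≤ wordDist M.K a b + 2 + 2 * K := by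
      linarith [hψ' (x (N a)), hψ (x (N b)), hπ a b]
    have h5 := mul_le_mul_of_nonneg_left h4 hK0.le
    have h6 := mul_le_mul_of_nonneg_right (show K ≤ 5 * K ^ 2 by linarith) (hnn a b)
    nlinarith
  · change wordDist M.K a (ψ (x (N (φ (x (N a)))))) ≤ 5 * K ^ 2
    have h1 := M.fina_tri a (x (N a)) (ψ (x (N (φ (x (N a))))))
    have h2 := hlo (x (N a)) (ψ (x (N (φ (x (N a))))))
    have h3 := M.fina_tri (φ (x (N a))) (x (N (φ (x (N a))))) (φ (ψ (x (N (φ (x (N a)))))))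
    have h4 : wordDist M.K (φ (x (N a))) (φ (ψ (x (N (φ (x (N a))))))) ≤ 1 + K := by
      linarith [hx' (φ (x (N a))), hψ (x (N (φ (x (N a)))))]
    have h5 := mul_le_mul_of_nonneg_left h4 hK0.le
    nlinarith [hx' a]
  · change wordDist M.K a (φ (x (N (ψ (x (N a)))))) ≤ 5 * K ^ 2
    have h1 := M.fina_tri a (x (N a)) (φ (x (N (ψ (x (N a))))))
    have h2 := M.fina_tri (x (N a)) (φ (ψ (x (N a)))) (φ (x (N (ψ (x (N a))))))
    linarith [hx' a, hψ (x (N a)), hcl (ψ (x (N a)))]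
  · change wordDist M.K (φ a) (φ (x (N a))) ≤ 5 * K ^ 2
    linarith [hcl a]

theorem StB3.stC {M : Model h k} (hB : M.StB3) : M.StC := by
  refine ⟨M.W1, M.finite_W1, fun K hK => ?_⟩
  obtain ⟨K', hK'⟩ := M.exists_QP K hK
  obtain ⟨B, hB⟩ := hB K'
  refine ⟨B + 2 * K' / Real.log 2, fun φ hφ => ?_⟩
  obtain ⟨f, hf⟩ := hK' φ hφ
  obtain ⟨L, hL, hP⟩ := hB f
  refine ⟨L, hL, fun p g => ?_⟩
  have h0 : 0 ≤ K' := le_trans zero_le_one f.one_le
  have hl2 : 0 < Real.log 2 := Real.log_pos one_lt_two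
  have hl : Real.log 2 ≤ Real.log (2 + M.len g) :=
    Real.log_le_log two_pos (le_add_of_nonneg_right (Nat.cast_nonneg _))
  have h1 : ∀ a, ‖M.chi (f.φ a) - M.chi (φ a)‖ ≤ K' := by
    intro a
    have h2 := (M.norm_chi_le ((φ a)⁻¹ * f.φ a)).trans (hf a)
    rwa [M.chi_mul, M.chi_inv, neg_add_eq_sub] at h2
  have h2 : M.chR (φ (p * g)) - M.chR (φ p) - L *ᵥ M.chR g = (M.cc f.φ g p - L *ᵥ M.chi g) -
      (M.chi (f.φ (p * g)) - M.chi (φ (p * g))) + (M.chi (f.φ p) - M.chi (φ p)) := by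
    change M.chi (φ (p * g)) - M.chi (φ p) - L *ᵥ M.chi g = (M.chi (f.φ (p * g)) - M.chi (f.φ p) - L *ᵥ M.chi g) -
      (M.chi (f.φ (p * g)) - M.chi (φ (p * g))) + (M.chi (f.φ p) - M.chi (φ p))
    abel
  have h3 : 2 * K' ≤ 2 * K' / Real.log 2 * Real.log (2 + M.len g) := by
    rw [div_mul_eq_mul_div, le_div_iff₀ hl2]
    exact mul_le_mul_of_nonneg_left hl (by linarith)
  have h4 : ‖M.cc f.φ g p - L *ᵥ M.chi g‖ ≤ B * Real.log (2 + M.len g) := hP p g
  rw [h2, add_mul]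
  refine (norm_add_le _ _).trans ?_
  have h5 := norm_sub_le (M.cc f.φ g p - L *ᵥ M.chi g) (M.chi (f.φ (p * g)) - M.chi (φ (p * g)))
  linarith [h1 p, h1 (p * g)]

end Model

end Crest.Agent.R182
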