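import Crest.Agent.R182.B.LinkA

/-! R182/B/LinkC: the events of LINK hold for most points (owner helper34) -/

set_option autoImplicit false
set_option linter.unusedVariables false
set_option linter.unusedSectionVars false
open Set Filter Topology MeasureTheory ProbabilityTheory Matrix Crest.GroupTheory
open scoped Pointwise commutatorElement ENNReal

noncomputable section
namespace Crest.Agent.R182

namespace Model
variable {h k : ℕ} (M : Model h k)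

/-- `m = θ / 2`, `Λ = max (k + 1) (exists_mb_W1)`, `Λ₁` the maximum of the constants of `eng1` over `d ∈ 𝒟`, `c₁ = min 1 (c / (2 Λ₁))` with `c` from
`exists_room` (`s = (1 - θ) w ≥ w / 2`, `ρ = θ w / 4`).  `Eng.finset` of `eng1` (three times for each `d`: `g = 1, g, g⁻¹`); `Eng.pf` with a small `ε₂`
(`2 ε₂ ≤ ε₁`, `(N + k + 1) ε₂ ≤ ε₁`, `2 ε₂ w ≤ η₀ ⌊θ w / 8⌋₊`) at the points `c`, `c * gen i ^ J` (`mul_mem_Adm'`), `c' ∈ F`; union bound. -/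
theorem eng_bad1 (K : ℝ) {𝒟 : Finset M.G} {dd : Mat k → M.G → M.G} (hD : M.DD 𝒟 dd) {j : Fin h} (hj : M.wt j ≠ 0) : ∃ c₁ : ℝ, 0 < c₁ ∧
    ∀ (θ η₀ ε₁ : ℝ) (N : ℕ), 0 < θ → θ ≤ 1 / 2 → 0 < η₀ → 0 < ε₁ → M.Eng K fun f p w L κ =>
      ∀ c ∈ M.Adm ((k + 1) * w) ((1 - 3 / 4 * θ) * w), nm (M.chi c - ((1 - θ) * w) • (nm (M.wt j))⁻¹ • M.wt j) ≤ θ * w / 4 →
        ∀ R : ℝ, 1 ≤ R → R ≤ c₁ * w → ∀ g ∈ M.ballR R, ∀ F : Finset M.G, F.card ≤ N → ↑F ⊆ M.Adm (N * w) (w / 2) →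
          M.lw M.E (M.Box w) {x | ¬(M.Pin f.φ η₀ ⌊θ * w / 8⌋₊ (p * x * c) L ∧ M.E1 f.φ 𝒟 dd (M.wt j) L F R (ε₁ * w) c g (p * x))} ≤
            ENNReal.ofReal ((3 * 𝒟.card + 1) * ε₁) := by
  classical
  obtain ⟨Λ, hΛ, hmb⟩ := M.exists_mb_W1
  obtain ⟨c₀, hc₀, hroom⟩ := M.exists_room hD hj
  choose! Λ₁ hΛ₁ he using fun d (hd : d ∈ 𝒟) => M.eng1 (hD.dirs.mem d hd)
  obtain ⟨S, hS⟩ := (insert 1 (𝒟.image Λ₁)).exists_le
  have hS1 : 1 ≤ S := hS 1 (Finset.mem_insert_self _ _)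
  have hk : (0 : ℝ) ≤ k := Nat.cast_nonneg k
  refine ⟨min 1 (c₀ / (2 * S)), by positivity, fun θ η₀ ε₁ N hθ hθ2 hη hε => ?_⟩
  have hN : (0 : ℝ) ≤ N := Nat.cast_nonneg N
  obtain ⟨ε₂, hε₂, e1, e2⟩ : ∃ ε₂ : ℝ, 0 < ε₂ ∧ ε₂ ≤ η₀ * θ / 32 ∧ (N + k + 2) * ε₂ ≤ ε₁ :=
    ⟨min (η₀ * θ / 32) (ε₁ / (N + k + 2)), by positivity, min_le_left _ _, (le_div_iff₀' (by positivity)).1 (min_le_right _ _)⟩
  have h1 := Eng.finset (M := M) (K := K) 𝒟 (C := fun d f p w L κ => ∀ R d', 1 ≤ R → R ≤ w → M.Dir L d d' →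
      ∀ c ∈ M.Adm ((k + 1 + Λ) * w) ((1 - 3 / 4 * θ) * w), Room (M.chi c) (M.chi d) (Λ₁ d * R) ((1 - 3 / 4 * θ) * w) → ∀ g ∈ M.ballR R,
        M.lw M.E (M.Box w) {x | ¬M.P2 f.φ (M.mI (M.chi d)) (M.mI (M.chi d')) R (ε₁ * w) (p * x * c) g} ≤ ENNReal.ofReal ε₁)
    fun d hd => by
      obtain ⟨t, ε, w₀, ht, hε', H⟩ := he d hd K (k + 1 + Λ) (3 / 4 * θ) ε₁ (by positivity) hε
      exact ⟨t, ε, w₀, ht, hε', fun f p w L κ hw hL hp R d' h1 h2 h3 =>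
        H f p w R L κ d' hw h1 h2 (fun a b => (hmb L hL a b).trans (by linarith)) h3 hp⟩
  refine ((h1.and (Eng.pf K (k + 2 + N) (half_pos hθ) hε₂)).and (Eng.of_ev K (eventually_ge_atTop (16 / θ)))).mono
    fun f p w L κ hL ⟨⟨a1, a2⟩, a3⟩ c hc hcn R hR hRw g hg F hF hFA => ?_
  rw [div_le_iff₀' hθ] at a3
  have hw : 0 ≤ w := by by_contra h'; nlinarith
  have hJ : (⌊θ * w / 8⌋₊ : ℝ) ≤ θ * w / 8 := Nat.floor_le (by positivity)
  have hJ' := Nat.lt_floor_add_one (θ * w / 8)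
  generalize ⌊θ * w / 8⌋₊ = J at hJ hJ' ⊢
  have hθw : θ * w ≤ w / 2 := by nlinarith
  have hkw : 0 ≤ k * w := by positivity
  have hNw : 0 ≤ N * w := by positivity
  have hP : ∀ d ∈ 𝒟.filter fun d => 0 < M.wt j ⬝ᵥ M.chi d, ∀ g ∈ M.ballR R, M.lw M.E (M.Box w)
      {x | ¬M.P2 f.φ (M.mI (M.chi d)) (M.mI (M.chi (dd L d))) R (ε₁ * w) (p * x * c) g} ≤ ENNReal.ofReal ε₁ := fun d hd => by
    obtain ⟨hd, hd'⟩ := Finset.mem_filter.1 hd
    refine a1 d hd R _ hR (hRw.trans (mul_le_of_le_one_left hw (min_le_left _ _))) (hD.dir L hL d hd) c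
      (M.Adm_mono (by nlinarith) le_rfl hc) ?_
    rw [show (1 - 3 / 4 * θ) * w = (1 - θ) * w + θ * w / 4 by ring]
    refine (hroom _ _ _ _ (by linarith) ?_ hcn L hL d hd hd').1
    have b1 := mul_le_mul (hS _ (Finset.mem_insert_of_mem (Finset.mem_image_of_mem _ hd)))
      (hRw.trans (mul_le_mul_of_nonneg_right (min_le_right _ _) hw)) (by linarith) (by linarith)
    rw [show S * (c₀ / (2 * S) * w) = c₀ * (w / 2) by field_simp] at b1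
    exact b1.trans (mul_le_mul_of_nonneg_left (by linarith) hc₀.le)
  have hG : ∀ y ∈ insert c (Finset.univ.image (fun i => c * M.gen i ^ J) ∪ F), M.lw M.E (M.Box w)
      {x | ε₂ * w < ‖M.er f.φ L (p * x * y) - κ‖} ≤ ENNReal.ofReal ε₂ := fun y hy => by
    refine a2 y ?_
    simp only [Finset.mem_insert, Finset.mem_union, Finset.mem_image, Finset.mem_univ, true_and] at hy
    rcases hy with rfl | ⟨i, rfl⟩ | hy
    · exact M.Adm_mono (by linarith) (by linarith) hc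
    · exact M.Adm_mono (by linarith) (by linarith)
        (M.mul_mem_Adm' hc (M.ballCR_subset_ballR _ (M.pow_mem_ballCR (M.gen_mem_ballCR i) J)))
    · exact M.Adm_mono (by linarith) (by linarith) (hFA hy)
  refine (measure_mono (t := (⋃ y ∈ insert c (Finset.univ.image (fun i => c * M.gen i ^ J) ∪ F),
      {x | ε₂ * w < ‖M.er f.φ L (p * x * y) - κ‖}) ∪ ⋃ d ∈ 𝒟.filter fun d => 0 < M.wt j ⬝ᵥ M.chi d, ⋃ g' ∈ ({1, g, g⁻¹} : Finset M.G),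
      {x | ¬M.P2 f.φ (M.mI (M.chi d)) (M.mI (M.chi (dd L d))) R (ε₁ * w) (p * x * c) g'}) fun x hx => ?_).trans
    ((measure_union_le _ _).trans ?_)
  · by_contra hn
    simp only [mem_union, mem_iUnion, mem_ofPred_eq, not_or, not_exists, not_lt, not_not, Finset.mem_filter, and_imp] at hn
    have b1 : ∀ y ∈ insert c (Finset.univ.image (fun i => c * M.gen i ^ J) ∪ F),
        ‖M.er f.φ L (p * x * y) - M.er f.φ L (p * x * c)‖ ≤ 2 * ε₂ * w := fun y hy => by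
      have := norm_sub_le_norm_sub_add_norm_sub (M.er f.φ L (p * x * y)) κ (M.er f.φ L (p * x * c))
      rw [norm_sub_rev κ] at this
      linarith [hn.1 y hy, hn.1 c (Finset.mem_insert_self _ _)]
    refine hx ⟨fun i => ?_, fun c' hc' => (b1 c' (by simp [hc'])).trans (mul_le_mul_of_nonneg_right (by nlinarith) hw),
      fun d hd hd' => hn.2 d hd hd' 1 (by simp), fun d hd hd' => hn.2 d hd hd' g (by simp),
      fun d hd hd' => hn.2 d hd hd' g⁻¹ (by simp)⟩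
    rw [mul_assoc (p * x)]
    refine (b1 _ (by simp)).trans ?_
    nlinarith [mul_le_mul_of_nonneg_right e1 hw, mul_le_mul_of_nonneg_left (show θ * w / 16 ≤ J by linarith) hη.le]
  rw [show (3 * 𝒟.card + 1) * ε₁ = ε₁ + 𝒟.card * (3 * ε₁) by ring, ENNReal.ofReal_add hε.le (by positivity)]
  refine add_le_add ((measure_biUnion_finset_le _ _).trans ((Finset.sum_le_card_nsmul _ _ _ hG).trans ?_))
    ((measure_biUnion_finset_le _ _).trans ((Finset.sum_le_card_nsmul _ _ (ENNReal.ofReal (3 * ε₁)) fun d hd => ?_).trans ?_))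
  · rw [nsmul_eq_mul, ← ENNReal.ofReal_natCast, ← ENNReal.ofReal_mul (Nat.cast_nonneg _)]
    refine ENNReal.ofReal_le_ofReal (le_trans (mul_le_mul_of_nonneg_right ?_ hε₂.le) e2)
    have := (Finset.card_insert_le c _).trans (Nat.succ_le_succ ((Finset.card_union_le
      (Finset.univ.image fun i => c * M.gen i ^ J) F).trans (add_le_add Finset.card_image_le hF)))
    rw [Finset.card_univ, Fintype.card_fin] at this
    exact_mod_cast this.trans (by omega)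
  · refine (measure_biUnion_finset_le _ _).trans ((Finset.sum_le_card_nsmul _ _ _ fun g' hg' => hP d hd g' ?_).trans ?_)
    · simp only [Finset.mem_insert, Finset.mem_singleton] at hg'
      rcases hg' with rfl | rfl | rfl
      exacts [M.one_mem_ballR (by linarith), hg, M.inv_mem_ballR hg]
    · rw [nsmul_eq_mul, ENNReal.ofReal_mul zero_le_three, ENNReal.ofReal_ofNat]
      exact mul_le_mul_left (by exact_mod_cast Finset.card_le_three) _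
  · rw [nsmul_eq_mul, ENNReal.ofReal_mul (Nat.cast_nonneg _), ENNReal.ofReal_natCast]
    exact mul_le_mul_left (by exact_mod_cast Finset.card_filter_le _ _) _

theorem linkc3_pin (K : ℝ) {Λ θ δ η₀ ε₁ : ℝ} (hΛ : 1 ≤ Λ) (hθ : 0 < θ) (hθ' : θ ≤ 1 / 2) (hδ : 0 < δ) (hδθ : δ ≤ θ / 8)
    (hη : 0 < η₀) (hε : 0 < ε₁) : M.Eng K fun f p w L κ => ∀ c ∈ M.AdmC (Λ * w) ((1 - θ / 2) * w),
      (volume[|M.exp '' M.Box w * {c} * M.ballCR (δ * w)]) {z | ¬M.Pin f.φ η₀ ⌊θ * w / 8⌋₊ (p * z) L} ≤ ENNReal.ofReal ε₁ := by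
  obtain ⟨D, w₁, hD, h1⟩ := M.vol_region_le Λ 1 δ hδ
  obtain ⟨ε₂, hε₂, h2, h3⟩ : ∃ ε₂ : ℝ, 0 < ε₂ ∧ ε₂ ≤ η₀ * θ / 32 ∧ (k + 1) * (ε₂ * D) ≤ ε₁ := by
    refine ⟨min (η₀ * θ / 32) (ε₁ / ((k + 1) * D)), by positivity, min_le_left _ _, ?_⟩
    have := (le_div_iff₀ (by positivity)).1 (min_le_right (η₀ * θ / 32) (ε₁ / ((k + 1) * D)))
    linarith
  obtain ⟨t, ε, w₂, ht, hε', h4⟩ := M.pv 1 (Λ + 1) (θ / 4) ε₂ (by positivity) hε₂
  refine ⟨t, ε, max (16 / θ) (max w₁ w₂), ht, hε', fun f p w L κ hw hL hP c hc => ?_⟩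
  have hw0 : 16 ≤ θ * w := (div_le_iff₀' hθ).1 ((le_max_left _ _).trans hw)
  have hw' : 0 < w := (mul_pos_iff_of_pos_left hθ).1 (by linarith)
  have h5 := h1 w (((le_max_left _ _).trans (le_max_right _ _)).trans hw) c (M.AdmC_subset_ballCR _ _ hc)
  have h6 := h4 f.φ p w L κ f.mφ (((le_max_right _ _).trans (le_max_right _ _)).trans hw) hP
  have h7 : M.vol0 w ≤ volume (M.exp '' ((1 : ℝ) • M.Box w) * M.ballCR (Λ * w)) := by
    rw [one_smul]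
    exact measure_mono (mul_subset_mul_left (M.ballCR_mono (le_mul_of_one_le_left hw'.le hΛ)))
  have hZ : MeasurableSet (M.exp '' M.Box w * {c} * M.ballCR (δ * w)) :=
    ((((M.isCompact_Box w).image M.continuous_exp).mul isCompact_singleton).mul (M.isCompact_ballCR _)).measurableSet
  have hJ : θ * w / 16 ≤ ⌊θ * w / 8⌋₊ := by linarith [Nat.lt_floor_add_one (θ * w / 8)]
  have hR : ∀ z ∈ M.exp '' M.Box w * {c} * M.ballCR (δ * w), ∀ y ∈ M.ballR (θ * w / 8), z * y ∈ M.Reg 1 (Λ + 1) (θ / 4) w := by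
    rintro _ ⟨_, ⟨x, hx, _, rfl, rfl⟩, b, hb, rfl⟩ y hy
    refine ⟨x, by rwa [one_smul], _, M.Adm_mono ?_ ?_ (M.mul_mem_Adm' (M.AdmC_subset_Adm _ _ hc)
      (M.mul_mem_ballR (M.ballCR_subset_ballR _ hb) hy)), by simp only [mul_assoc]⟩ <;> nlinarith
  generalize M.exp '' M.Box w * {c} * M.ballCR (δ * w) = Z at h5 hZ hR ⊢
  generalize hB : {y | y ∈ M.Reg 1 (Λ + 1) (θ / 4) w ∧ ε₂ * w < ‖M.er f.φ L (p * y) - κ‖} = B at h6
  have h8 : Z ∩ {z | ¬M.Pin f.φ η₀ ⌊θ * w / 8⌋₊ (p * z) L} ⊆ B ∪ ⋃ i, (· * M.gen i ^ ⌊θ * w / 8⌋₊) ⁻¹' B := by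
    rintro z ⟨hz, hz'⟩
    by_contra hn
    simp only [← hB, mem_union, mem_iUnion, mem_preimage, mem_ofPred_eq, not_or, not_exists, not_and, not_lt] at hn
    refine hz' fun i => ?_
    have a1 := hn.1 (by simpa using hR z hz 1 (M.one_mem_ballR (by positivity)))
    have a2 := hn.2 i (hR z hz _ (M.ballCR_subset_ballR _ (M.ballCR_mono
      (by rw [mul_one]; exact Nat.floor_le (by positivity)) (M.pow_mem_ballCR (M.gen_mem_ballCR i) _))))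
    have a3 := norm_sub_le_norm_sub_add_norm_sub (M.er f.φ L (p * (z * M.gen i ^ ⌊θ * w / 8⌋₊))) κ (M.er f.φ L (p * z))
    rw [norm_sub_rev κ, ← mul_assoc] at a3
    rw [← mul_assoc] at a2
    nlinarith [mul_le_mul_of_nonneg_left hJ hη.le, mul_le_mul_of_nonneg_right h2 hw'.le]
  have h9 : volume (Z ∩ {z | ¬M.Pin f.φ η₀ ⌊θ * w / 8⌋₊ (p * z) L}) ≤ ENNReal.ofReal ε₁ * volume Z := by
    refine (measure_mono h8).trans ((measure_union_le _ _).trans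
      ((add_le_add le_rfl (measure_iUnion_fintype_le _ _)).trans ?_))
    simp only [measure_preimage_mul_right, Finset.sum_const, Finset.card_univ, Fintype.card_fin, nsmul_eq_mul]
    rw [← one_add_mul]
    refine (mul_le_mul_right (h6.trans (mul_le_mul_right (h7.trans h5) _)) _).trans ?_
    rw [← mul_assoc, ← mul_assoc]
    refine mul_le_mul_left (le_of_eq_of_le ?_ (ENNReal.ofReal_le_ofReal h3)) _
    rw [ENNReal.ofReal_mul (by positivity), ENNReal.ofReal_mul hε₂.le, ENNReal.ofReal_add (by positivity) zero_le_one,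
      ENNReal.ofReal_natCast, ENNReal.ofReal_one, add_comm, mul_assoc]
  rw [cond_apply hZ]
  refine (mul_le_mul_right h9 _).trans ?_
  rw [mul_left_comm]
  exact mul_le_of_le_one_right' (ENNReal.inv_mul_le_one _)

/-- `m = θ / 2`, `Λ = max (k + 1) (exists_mb_W1)` (`inv_mem_W1`), `δ₀ ≤ θ / 8`, `Λ₁` the maximum of the constants of `eng3` over `d, d' ∈ 𝒟`,
`c₃ = min 1 (c / (2 Λ₁))` with `c` from `exists_room` (`s = (1 - θ) w`, `ρ = k`), `sec_mem_AdmC`.  `Eng.finset` of `eng3` over `𝒟 ×ˢ 𝒟`.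
Pin: for `y = 1`, `gen i ^ J` and `z` in `Z = exp (Box w) * {sec a} * ballCR (δ w)` the point `z * y` lies in `Reg 1 (k + 2) (θ / 2) w`; right
invariance of `volume`, `pv` with a small `ε₂`, `vol0 w ≤ D * volume Z` (`vol_region_le`), `(k + 1) D ε₂ ≤ ε₁`, `2 ε₂ w ≤ η₀ ⌊θ w / 8⌋₊`;
`cond_apply` (`Z` is compact). -/
theorem eng_bad3 (K : ℝ) {𝒟 : Finset M.G} {dd : Mat k → M.G → M.G} (hD : M.DD 𝒟 dd) {j : Fin h} (hj : M.wt j ≠ 0) : ∃ c₃ : ℝ, 0 < c₃ ∧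
    ∀ θ : ℝ, 0 < θ → θ ≤ 1 / 2 → ∃ δ : ℝ, 0 < δ ∧ δ ≤ θ / 8 ∧ ∀ η₀ ε₁ : ℝ, 0 < η₀ → 0 < ε₁ → M.Eng K fun f p w L κ =>
      ∀ a : Fin k → ℤ, nm ((fun i => (a i : ℝ)) - ((1 - θ) * w) • (nm (M.wt j))⁻¹ • M.wt j) ≤ k → ∀ R r : ℝ, 1 ≤ r → r ≤ R → R ≤ c₃ * w →
        (volume[|M.exp '' M.Box w * {M.sec a} * M.ballCR (δ * w)])
          {z | ¬(M.Pin f.φ η₀ ⌊θ * w / 8⌋₊ (p * z) L ∧ M.E3 f.φ f.ψ 𝒟 dd (M.wt j) L R r (ε₁ * w) (p * z))} ≤
            ENNReal.ofReal ((𝒟.card + 1) * ε₁) := by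
  obtain ⟨Λ₀, -, hΛ₀⟩ := M.exists_mb_W1
  obtain ⟨Λ, hΛk, hΛ⟩ : ∃ Λ : ℝ, k + 1 ≤ Λ ∧ ∀ L ∈ M.W1, Mb L Λ :=
    ⟨max (k + 1) Λ₀, le_max_left _ _, fun L hL i j => (hΛ₀ L hL i j).trans (le_max_right _ _)⟩
  choose Λ₁ hΛ₁ H using fun x : 𝒟 × 𝒟 => M.eng3 (hD.dirs.mem _ x.1.2) (hD.dirs.mem _ x.2.2)
  obtain ⟨Λ₂, hΛ₂⟩ := Finite.exists_le Λ₁
  obtain ⟨c₀, hc₀, hroom⟩ := M.exists_room hD hj
  have hk0 : (0 : ℝ) ≤ k := Nat.cast_nonneg _
  have hΛ3 : 0 < max 1 Λ₂ := lt_max_of_lt_left one_pos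
  refine ⟨min 1 (c₀ / (2 * max 1 Λ₂)), by positivity, fun θ hθ hθ' => ?_⟩
  choose δ₀ hδ₀ H using fun x => H x K Λ (θ / 2) (by positivity)
  obtain ⟨δ, hδ, hδθ⟩ := ((eventually_all.2 fun x => Ioc_mem_nhdsGT (hδ₀ x)).and
    (Ioc_mem_nhdsGT (show 0 < θ / 8 by positivity))).exists
  refine ⟨δ, hδθ.1, hδθ.2, fun η₀ ε₁ hη hε => ?_⟩
  have E1 := M.linkc3_pin K (Λ := Λ) (by linarith) hθ hθ' hδθ.1 hδθ.2 hη hε
  have E2 := Eng.finset (M := M) (K := K) (Finset.univ : Finset (𝒟 × 𝒟)) (C := fun x f p w L κ => ∀ R r : ℝ, 1 ≤ r → r ≤ R → R ≤ w →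
      M.Dir L x.1 x.2 → ∀ c ∈ M.AdmC (Λ * w) ((1 - θ / 2) * w), Room (M.chi c) (M.chi x.1) (Λ₁ x * R) ((1 - θ / 2) * w) →
        Room (M.chi c) (L⁻¹ *ᵥ M.chi x.2) (Λ₁ x * R) ((1 - θ / 2) * w) →
        (volume[|M.exp '' M.Box w * {c} * M.ballCR (δ * w)])
          {z | ¬M.P3 f.φ f.ψ (M.mI (M.chi x.1)) (M.mI (M.chi x.2)) R r (ε₁ * w) (p * z)} ≤ ENNReal.ofReal ε₁) fun x _ => by
    obtain ⟨t, ε, w₀, ht, hε', h⟩ := H x δ ε₁ hδθ.1 (hδ x).2 hε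
    exact ⟨t, ε, w₀, ht, hε', fun f p w L κ hw hL hP R r h1 h2 h3 hd =>
      h f p w R r L κ hw h1 h2 h3 hL.1 (hΛ L hL) (hΛ _ (M.inv_mem_W1 hL)) hd hP⟩
  have E3 := Eng.of_ev (M := M) K (eventually_ge_atTop (2 * k / θ))
  refine ((E1.and E2).and E3).mono fun f p w L κ hL ⟨⟨h1, h2⟩, h3⟩ a ha R r hr hrR hR => ?_
  have hkw : 2 * k ≤ θ * w := (div_le_iff₀' hθ).1 h3
  have hw : 0 ≤ w := (by positivity : 0 ≤ 2 * k / θ).trans h3
  have hRw : R ≤ w := hR.trans (mul_le_of_le_one_left hw (min_le_left _ _))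
  have hs : 0 ≤ (1 - θ) * w := mul_nonneg (by linarith) hw
  have hna : nm (fun i => (a i : ℝ)) ≤ (1 - θ / 2) * w := by
    have a1 := nm_add_le ((fun i => (a i : ℝ)) - ((1 - θ) * w) • (nm (M.wt j))⁻¹ • M.wt j)
      (((1 - θ) * w) • (nm (M.wt j))⁻¹ • M.wt j)
    rw [sub_add_cancel, nm_smul, nm_smul, abs_inv, abs_of_pos (nm_pos hj), inv_mul_cancel₀ (nm_pos hj).ne', mul_one,
      abs_of_nonneg hs] at a1
    linarith
  have hc : M.sec a ∈ M.AdmC (Λ * w) ((1 - θ / 2) * w) := M.AdmC_mono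
    ((mul_le_mul_of_nonneg_left hna hk0).trans (by nlinarith [mul_nonneg hk0 (mul_nonneg hθ.le hw)])) hna (M.sec_mem_AdmC a)
  have h4 : ∀ d ∈ 𝒟, (volume[|M.exp '' M.Box w * {M.sec a} * M.ballCR (δ * w)]) {z | 0 < M.wt j ⬝ᵥ M.chi d ∧
      ¬M.P3 f.φ f.ψ (M.mI (M.chi d)) (M.mI (M.chi (dd L d))) R r (ε₁ * w) (p * z)} ≤ ENNReal.ofReal ε₁ := fun d hd => by
    by_cases hpos : 0 < M.wt j ⬝ᵥ M.chi d
    · have a1 : Λ₁ (⟨d, hd⟩, ⟨dd L d, hD.mem L hL d hd⟩) * R ≤ c₀ * ((1 - θ) * w) := by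
        have b1 := mul_le_mul ((hΛ₂ (⟨d, hd⟩, ⟨dd L d, hD.mem L hL d hd⟩)).trans (le_max_right 1 _))
          (hR.trans (mul_le_mul_of_nonneg_right (min_le_right _ _) hw)) (by linarith) hΛ3.le
        have b2 : max 1 Λ₂ * (c₀ / (2 * max 1 Λ₂) * w) = c₀ * (w / 2) := by field_simp
        rw [b2] at b1
        exact b1.trans (mul_le_mul_of_nonneg_left (by nlinarith) hc₀.le)
      obtain ⟨r1, r2⟩ := hroom _ k _ _ hs a1 ha L hL d hd hpos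
      refine (measure_mono fun z hz => hz.2).trans (h2 (⟨d, hd⟩, ⟨dd L d, hD.mem L hL d hd⟩) (Finset.mem_univ _) R r hr hrR hRw
        (hD.dir L hL d hd) _ hc ?_ ?_) <;> rw [M.chi_sec]
      · exact fun s hs => (r1 s hs).trans (by linarith)
      · exact fun s hs => (r2 s hs).trans (by linarith)
    · simp [hpos]
  refine (measure_mono (t := {z | ¬M.Pin f.φ η₀ ⌊θ * w / 8⌋₊ (p * z) L} ∪ ⋃ d ∈ 𝒟, {z | 0 < M.wt j ⬝ᵥ M.chi d ∧
      ¬M.P3 f.φ f.ψ (M.mI (M.chi d)) (M.mI (M.chi (dd L d))) R r (ε₁ * w) (p * z)}) fun z hz => ?_).trans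
    ((measure_union_le _ _).trans ((add_le_add (h1 _ hc) ((measure_biUnion_finset_le _ _).trans
      (Finset.sum_le_sum h4))).trans_eq ?_))
  · by_contra hn
    simp only [mem_union, mem_iUnion, mem_ofPred_eq, not_or, not_exists, not_and, not_not] at hn
    exact hz ⟨hn.1, hn.2⟩
  · rw [Finset.sum_const, nsmul_eq_mul, ← one_add_mul, ENNReal.ofReal_mul (by positivity),
      ENNReal.ofReal_add (by positivity) zero_le_one, ENNReal.ofReal_natCast, ENNReal.ofReal_one, add_comm]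

end Model

end Crest.Agent.R182
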