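import Crest.Agent.R182.B.LinkB
import Crest.Agent.R182.B.LinkC

/-! R182/B/LINK: linking across a root element (public statements FROZEN; `measurableSet_Lk`, `exists_pin` are in B/LinkA) -/

set_option autoImplicit false
set_option linter.unusedVariables false
set_option linter.unusedSectionVars false
open Set Filter Topology MeasureTheory ProbabilityTheory Matrix Crest.GroupTheory
open scoped Pointwise commutatorElement ENNReal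

noncomputable section
namespace Crest.Agent.R182

namespace Model
variable {h k : ℕ} (M : Model h k)

theorem link_prob (w : ℝ) : IsProbabilityMeasure (M.lw M.E (M.Box w)) := by
  simpa using M.isProbabilityMeasure_lw_Box one_pos w

theorem link_compl (w : ℝ) : M.lw M.E (M.Box w) (M.exp '' M.Box w)ᶜ = 0 := by
  have := M.lw_compl M.E (M.isCompact_Box w)
  rwa [inter_eq_right.2 (M.Box_subset_E w)] at this

theorem link_inv (w : ℝ) : (M.exp '' M.Box w)⁻¹ = M.exp '' M.Box w := by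
  simpa [Box] using M.inv_exp_Qi (M.star_RV w) 1

omit M in
theorem _root_.Crest.Agent.R182.link_lint {G : Type*} [MeasurableSpace G] (ν : Measure G) [IsProbabilityMeasure ν] {g : G → ℝ≥0∞}
    {a : ℝ≥0∞} {Ω : Set G} (h1 : ∀ p, g p ≤ 1) (ha : ∀ p ∉ Ω, g p ≤ a) : ∫⁻ p, g p ∂ν ≤ a + ν Ω := by
  calc ∫⁻ p, g p ∂ν ≤ ∫⁻ p, (a + (toMeasurable ν Ω).indicator 1 p) ∂ν := lintegral_mono fun p => by
        by_cases hp : p ∈ Ω
        · rw [indicator_of_mem (subset_toMeasurable ν Ω hp)]; exact (h1 p).trans le_add_self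
        · exact (ha p hp).trans le_self_add
    _ = a + ν Ω := by
        rw [lintegral_add_left measurable_const, lintegral_indicator_one (measurableSet_toMeasurable ν Ω), measure_toMeasurable]
        simp

theorem link_meas {P : Mat k → M.G → Prop} (hP : ∀ L, MeasurableSet {p | P L p}) : MeasurableSet {p | ∃ L ∈ M.W1, P L p} := by
  have : {p | ∃ L ∈ M.W1, P L p} = ⋃ L ∈ M.W1, {p | P L p} := by ext p; simp
  rw [this]
  exact M.finite_W1.measurableSet_biUnion fun L _ => hP L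

omit M in
theorem _root_.Crest.Agent.R182.link_unit {α : Fin k → ℝ} (hα : α ≠ 0) {s : ℝ} (hs : 0 ≤ s) : nm (s • (nm α)⁻¹ • α) = s := by
  have := nm_pos hα
  rw [nm_smul, nm_smul, abs_of_nonneg hs, abs_of_pos (inv_pos.2 this), inv_mul_cancel₀ this.ne', mul_one]

theorem link_good (K : ℝ) {𝒟 : Finset M.G} {dd : Mat k → M.G → M.G} (hD : M.DD 𝒟 dd) {j : Fin h} (hj : M.wt j ≠ 0) :
    ∃ c₂ N₀ : ℝ, 0 < c₂ ∧ 0 < N₀ ∧ ∀ (θ η ε₁ : ℝ) (N : ℕ), 0 < θ → θ ≤ 1 / 2 → 0 < η → 0 < ε₁ → ∃ w₀ : ℝ, ∀ (f : M.QP K) (w R r : ℝ)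
      (ν : Measure M.G) (F : Finset M.G), w₀ ≤ w → IsProbabilityMeasure ν → Inv ν (M.exp '' M.Box ((1 + η) * w)) (w⁻¹ ^ 2) →
      1 ≤ r → r ≤ R → R ≤ c₂ * w → F.card ≤ N → ↑F ⊆ M.Adm (N * w) (w / 2) → ∃ c ∈ M.ballCR ((k + 1) * w),
        nm (M.chi c - ((1 - θ) * w) • (nm (M.wt j))⁻¹ • M.wt j) ≤ θ * w ∧ ∀ g ∈ M.ballR R,
          ν {p | ¬∃ L ∈ M.W1, M.E1 f.φ 𝒟 dd (M.wt j) L F R (ε₁ * w) c g p ∧ M.E3 f.φ f.ψ 𝒟 dd (M.wt j) L R r (ε₁ * w) (p * c)} ≤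
            ENNReal.ofReal (N₀ * ε₁) := by
  obtain ⟨c₁, hc₁, H1⟩ := M.eng_bad1 K hD hj
  obtain ⟨c₃, hc₃, H3⟩ := M.eng_bad3 K hD hj
  obtain ⟨η₀, hη₀, hpin⟩ := M.exists_pin'
  refine ⟨min c₁ c₃, 4 * 𝒟.card + 7, lt_min hc₁ hc₃, by positivity, fun θ η ε₁ N hθ hθ2 hη hε => ?_⟩
  obtain ⟨δ, hδ, hδθ, H3⟩ := H3 θ hθ hθ2
  obtain ⟨w₁, P1⟩ := ((H1 θ η₀ ε₁ N hθ hθ2 hη₀ hε).and (H3 η₀ ε₁ hη₀ hε)).pur hε hη
  obtain ⟨w₂, hw₂⟩ : ∃ w₂ : ℝ, ∀ w ≥ w₂, 1 ≤ w ∧ 1 ≤ δ * w ∧ (k : ℝ) ≤ θ * w / 8 ∧ 8 ≤ θ * w ∧ w⁻¹ ^ 2 ≤ ε₁ := by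
    have t1 : Tendsto (fun w : ℝ => δ * w) atTop atTop := tendsto_id.const_mul_atTop hδ
    have t2 : Tendsto (fun w : ℝ => θ * w) atTop atTop := tendsto_id.const_mul_atTop hθ
    have t3 : Tendsto (fun w : ℝ => w⁻¹ ^ 2) atTop (𝓝 0) := by simpa using (tendsto_inv_atTop_zero (𝕜 := ℝ)).pow 2
    refine eventually_atTop.1 ?_
    filter_upwards [eventually_ge_atTop 1, t1.eventually_ge_atTop 1, t2.eventually_ge_atTop (8 * k), t2.eventually_ge_atTop 8,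
      t3.eventually (ge_mem_nhds hε)] with w a b c d e
    exact ⟨a, b, by linarith, d, e⟩
  refine ⟨max w₁ w₂, fun f w R r ν F hw hν hI hr hrR hR hF hFA => ?_⟩
  obtain ⟨hw1, hδw, hkw, h8, hw2⟩ := hw₂ w (le_trans (le_max_right _ _) hw)
  have hΩ := P1 f w ν (le_trans (le_max_left _ _) hw) hν hI
  have hw0 : 0 ≤ w := by linarith
  have hs0 : 0 ≤ (1 - θ) * w := mul_nonneg (by linarith) hw0
  obtain ⟨a, ha⟩ := exists_top (((1 - θ) * w) • (nm (M.wt j))⁻¹ • M.wt j)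
  have hna : nm (fun i => (a i : ℝ)) ≤ (1 - θ) * w + k := by
    have := nm_add_le ((fun i => (a i : ℝ)) - ((1 - θ) * w) • (nm (M.wt j))⁻¹ • M.wt j) (((1 - θ) * w) • (nm (M.wt j))⁻¹ • M.wt j)
    rw [sub_add_cancel, link_unit hj hs0] at this
    linarith
  have hI' : Inv ν (M.exp '' M.Box w) (w⁻¹ ^ 2) := hI.mono (image_mono (M.Box_mono (by nlinarith))) le_rfl
  have hRc₁ : R ≤ c₁ * w := hR.trans (mul_le_mul_of_nonneg_right (min_le_left _ _) hw0)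
  have hRc₃ : R ≤ c₃ * w := hR.trans (mul_le_mul_of_nonneg_right (min_le_right _ _) hw0)
  have hJ : 0 < ⌊θ * w / 8⌋₊ := Nat.floor_pos.2 (by linarith)
  have hA3 : MeasurableSet {q | ∃ L ∈ M.W1, M.Pin f.φ η₀ ⌊θ * w / 8⌋₊ q L ∧ M.E3 f.φ f.ψ 𝒟 dd (M.wt j) L R r (ε₁ * w) q}ᶜ :=
    (M.link_meas fun L => (M.measurableSet_Pin f.mφ _ _ L).inter (M.measurableSet_E3 f.mφ f.mψ _ _ _ L _ _ _)).compl
  have hc0 : (0 : ℝ) ≤ 𝒟.card := Nat.cast_nonneg _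
  obtain ⟨b, hb, hb3⟩ := M.exists_fibre (M.sec_mem a) hδw hA3 hI' (a := ENNReal.ofReal ((𝒟.card + 3) * ε₁)) (by
    refine (link_lint ν (a := ENNReal.ofReal ((𝒟.card + 1) * ε₁)) (fun p => prob_le_one) (fun p hp => ?_)).trans_lt
      ((add_le_add le_rfl hΩ).trans_lt ?_)
    · obtain ⟨L, hL, κ, -, h3⟩ := not_not.1 hp
      refine le_trans (measure_mono ?_) (h3 a ha R r hr hrR hRc₃)
      exact fun z hz h => hz ⟨L, hL, h⟩
    · rw [← ENNReal.ofReal_add (by positivity) hε.le, ENNReal.ofReal_lt_ofReal_iff (by positivity)]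
      nlinarith)
  have hnb : nm (M.chi b) ≤ δ * w := (M.nm_chi_le b).trans (M.ballCR_subset_ballR _ hb)
  have hδw' : δ * w ≤ θ * w / 8 := by nlinarith
  have hθw : θ * w ≤ w / 2 := by nlinarith
  have hk0 : (0 : ℝ) ≤ k := Nat.cast_nonneg _
  have hcC : M.sec a * b ∈ M.AdmC ((k + 1) * w) ((1 - 3 / 4 * θ) * w) :=
    M.AdmC_mono (by nlinarith) (by nlinarith) (M.mul_mem_AdmC' (M.sec_mem_AdmC a) hb)
  have hct : nm (M.chi (M.sec a * b) - ((1 - θ) * w) • (nm (M.wt j))⁻¹ • M.wt j) ≤ θ * w / 4 := by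
    have := nm_add_le ((fun i => (a i : ℝ)) - ((1 - θ) * w) • (nm (M.wt j))⁻¹ • M.wt j) (M.chi b)
    rw [M.chi_mul, M.chi_sec, add_sub_right_comm]
    linarith
  refine ⟨M.sec a * b, M.AdmC_subset_ballCR _ _ hcC, by linarith, fun g hg => ?_⟩
  have hA1 : MeasurableSet {p | ∃ L ∈ M.W1, M.Pin f.φ η₀ ⌊θ * w / 8⌋₊ (p * (M.sec a * b)) L ∧
      M.E1 f.φ 𝒟 dd (M.wt j) L F R (ε₁ * w) (M.sec a * b) g p}ᶜ :=
    (M.link_meas fun L => ((measurable_mul_const _) (M.measurableSet_Pin f.mφ _ _ L)).inter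
      (M.measurableSet_E1 f.mφ _ _ _ L _ _ _ _ _)).compl
  haveI := M.link_prob w
  have hb1 := fun Ω => M.Inv_average (ν := ν) (η := w⁻¹ ^ 2) (la := M.lw M.E (M.Box w)) (S := M.exp '' M.Box w) (by rwa [M.link_inv])
    (M.link_compl w) hA1 (a := ENNReal.ofReal ((3 * 𝒟.card + 1) * ε₁)) (Ω := Ω)
  replace hb1 := fun h => (hb1 _ h).trans (add_le_add (add_le_add le_rfl hΩ) le_rfl)
  replace hb1 := hb1 (fun p hp => by
      obtain ⟨L, hL, κ, h1, -⟩ := not_not.1 hp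
      refine le_trans (measure_mono ?_)
        (h1 _ (M.AdmC_subset_Adm _ _ hcC) hct R (hr.trans hrR) hRc₁ g hg F hF hFA)
      exact fun x hx h => hx ⟨L, hL, h⟩)
  have hw2' : ENNReal.ofReal (w⁻¹ ^ 2) ≤ ENNReal.ofReal ε₁ := ENNReal.ofReal_le_ofReal hw2
  refine (measure_mono (fun p hp => ?_)).trans ((measure_union_le _ _).trans ((add_le_add
    (hb1.trans (add_le_add le_rfl hw2')) (hb3.trans (add_le_add le_rfl hw2'))).trans (le_of_eq ?_)))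
  · by_contra hn
    simp only [mem_union, not_or, mem_setOf_eq, mem_compl_iff, not_not] at hn
    obtain ⟨⟨L, hL, h1, h2⟩, L', hL', h3, h4⟩ := hn
    rw [mul_assoc] at h3 h4
    obtain rfl := hpin _ _ _ L hL L' hL' hJ h1 h3
    exact hp ⟨L, hL, h2, h4⟩
  · rw [← ENNReal.ofReal_add (by positivity) hε.le, ← ENNReal.ofReal_add (by positivity) hε.le,
      ← ENNReal.ofReal_add (by positivity) hε.le, ← ENNReal.ofReal_add (by positivity) (by positivity)]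
    congr 1; ring

omit M in
theorem _root_.Crest.Agent.R182.link_mix {G : Type*} [Mul G] [MeasurableSpace G] {ν ν' : Measure G} {S : Set G} {η : ℝ}
    (h : Inv ν S η) (h' : Inv ν' S η) : Inv ((2⁻¹ : ℝ≥0∞) • (ν + ν')) S η := fun s hs A hA => by
  simp only [Measure.smul_apply, Measure.add_apply, smul_eq_mul]
  calc 2⁻¹ * (ν ((· * s) ⁻¹' A) + ν' ((· * s) ⁻¹' A)) ≤ 2⁻¹ * ((ν A + ENNReal.ofReal η) + (ν' A + ENNReal.ofReal η)) := by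
        gcongr
        exacts [h s hs A hA, h' s hs A hA]
    _ = 2⁻¹ * (ν A + ν' A) + (2⁻¹ * 2) * ENNReal.ofReal η := by ring
    _ = _ := by rw [ENNReal.inv_mul_cancel two_ne_zero ENNReal.ofNat_ne_top, one_mul]

theorem link_wt (K : ℝ) {j : Fin h} (hj : M.wt j ≠ 0) : ∃ θ₀ : ℝ, 0 < θ₀ ∧ ∀ θ : ℝ, 0 < θ → θ ≤ θ₀ → ∀ (η ζ : ℝ) (N : ℕ), 0 < η → 0 < ζ →
    ∃ w₀ : ℝ, ∀ (f : M.QP K) (w : ℝ) (ν : Measure M.G) (X : V h) (F : Finset M.G), w₀ ≤ w → IsProbabilityMeasure ν → X ∈ M.W (M.wt j) →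
    ‖X‖ ≤ Real.exp ((1 + θ) * w * nm (M.wt j)) →
    Inv ν (M.exp '' M.Box ((1 + η) * w)) (w⁻¹ ^ 2) → Inv (ν.map (· * M.exp X)) (M.exp '' M.Box ((1 + η) * w)) (w⁻¹ ^ 2) →
    F.card ≤ N → ↑F ⊆ M.Adm (N * w) (w / 2) →
      ν {p | ¬∃ L ∈ M.W1, M.Lk f.φ L (ζ * w) F p (p * M.exp X)} ≤ ENNReal.ofReal ζ := by
  obtain ⟨𝒟, dd, hD⟩ := M.exists_DD
  obtain ⟨c₂, N₀, hc₂, hN₀, HG⟩ := M.link_good K hD hj
  obtain ⟨B, hB, HD⟩ := M.link_det K hD hj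
  obtain ⟨C₁, hC₁, HL⟩ := M.len_conj hj
  have hB0 : 0 < B := by linarith
  refine ⟨min (1 / 2) (c₂ / (B * (B * (C₁ + 1)))), lt_min one_half_pos (by positivity), fun θ hθ hθ₀ η ζ N hη hζ => ?_⟩
  have hθ2 : θ ≤ 1 / 2 := hθ₀.trans (min_le_left _ _)
  have hθc : B * (B * (C₁ + 1)) * θ ≤ c₂ := by
    have := hθ₀.trans (min_le_right _ _)
    rwa [le_div_iff₀ (by positivity), mul_comm] at this
  obtain ⟨ε₁, hε, hεθ, hεζ, hεB⟩ : ∃ ε₁ : ℝ, 0 < ε₁ ∧ ε₁ ≤ θ ∧ 2 * (N₀ * ε₁) ≤ ζ ∧ (B + 2) * ε₁ ≤ ζ := by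
    refine ⟨min θ (min (ζ / (2 * N₀)) (ζ / (B + 2))), by positivity, min_le_left _ _, ?_, ?_⟩
    · have : min θ (min (ζ / (2 * N₀)) (ζ / (B + 2))) ≤ ζ / (2 * N₀) := (min_le_right _ _).trans (min_le_left _ _)
      rw [le_div_iff₀ (by positivity)] at this
      linarith
    · have : min θ (min (ζ / (2 * N₀)) (ζ / (B + 2))) ≤ ζ / (B + 2) := (min_le_right _ _).trans (min_le_right _ _)
      rw [le_div_iff₀ (by positivity)] at this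
      linarith
  obtain ⟨w₁, HG⟩ := HG θ η ε₁ N hθ hθ2 hη hε
  obtain ⟨w₂, HL⟩ := HL θ (k + 1) hθ
  refine ⟨max (max w₁ w₂) ε₁⁻¹, fun f w ν X F hw hν hX hXn hI hI' hF hFA => ?_⟩
  have hw1 : w₁ ≤ w := le_trans ((le_max_left _ _).trans (le_max_left _ _)) hw
  have hw2 : w₂ ≤ w := le_trans ((le_max_right _ _).trans (le_max_left _ _)) hw
  have hw3 : ε₁⁻¹ ≤ w := le_trans (le_max_right _ _) hw
  have hw0 : 0 < w := (inv_pos.2 hε).trans_le hw3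
  have hεw : 1 ≤ ε₁ * w := by rwa [inv_le_iff_one_le_mul₀' hε] at hw3
  have hθw : ε₁ * w ≤ θ * w := by gcongr
  have hm : Measurable fun p : M.G => p * M.exp X := measurable_mul_const _
  haveI : IsProbabilityMeasure (ν.map (· * M.exp X)) := Measure.isProbabilityMeasure_map hm.aemeasurable
  haveI hP : IsProbabilityMeasure ((2⁻¹ : ℝ≥0∞) • (ν + ν.map (· * M.exp X))) := ⟨by
    simp only [Measure.smul_apply, Measure.add_apply, smul_eq_mul, measure_univ]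
    rw [one_add_one_eq_two, ENNReal.inv_mul_cancel two_ne_zero ENNReal.ofNat_ne_top]⟩
  have hr0 : 1 ≤ C₁ * θ * w := by nlinarith
  have hr1 : B * (C₁ * θ * w + ε₁ * w) ≤ B * ((C₁ + 1) * θ * w) := by gcongr; linarith
  have hr2 : 1 ≤ B * ((C₁ + 1) * θ * w) := by nlinarith
  have hr3 : B * ((C₁ + 1) * θ * w) ≤ B * (B * ((C₁ + 1) * θ * w)) := le_mul_of_one_le_left (by linarith) hB
  obtain ⟨c, hc, hct, HG⟩ := HG f w (B * (B * ((C₁ + 1) * θ * w))) (B * ((C₁ + 1) * θ * w)) _ F hw1 hP (link_mix hI hI') hr2 hr3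
    (by nlinarith) hF hFA
  have hg := HL w hw2 c hc hct X hX hXn
  have hgR : c⁻¹ * M.exp X * c ∈ M.ballR (B * (B * ((C₁ + 1) * θ * w))) := M.ballR_mono (by nlinarith) hg
  have HG := HG _ hgR
  set g := c⁻¹ * M.exp X * c with hgdef
  set A := {p | ¬∃ L ∈ M.W1, M.E1 f.φ 𝒟 dd (M.wt j) L F (B * (B * ((C₁ + 1) * θ * w))) (ε₁ * w) c g p ∧
    M.E3 f.φ f.ψ 𝒟 dd (M.wt j) L (B * (B * ((C₁ + 1) * θ * w))) (B * ((C₁ + 1) * θ * w)) (ε₁ * w) (p * c)} with hAdef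
  have hA : MeasurableSet A := (M.link_meas fun L => (M.measurableSet_E1 f.mφ _ _ _ L _ _ _ _ _).inter
    ((measurable_mul_const c) (M.measurableSet_E3 f.mφ f.mψ _ _ _ L _ _ _))).compl
  have h2 : ν A + ν ((· * M.exp X) ⁻¹' A) ≤ ENNReal.ofReal ζ := by
    rw [← Measure.map_apply hm hA]
    simp only [Measure.smul_apply, Measure.add_apply, smul_eq_mul] at HG
    calc _ = 2 * (2⁻¹ * (ν A + ν.map (· * M.exp X) A)) := by
          rw [← mul_assoc, ENNReal.mul_inv_cancel two_ne_zero ENNReal.ofNat_ne_top, one_mul]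
      _ ≤ 2 * ENNReal.ofReal (N₀ * ε₁) := by gcongr
      _ = ENNReal.ofReal (2 * (N₀ * ε₁)) := by rw [ENNReal.ofReal_mul zero_le_two, ENNReal.ofReal_ofNat]
      _ ≤ _ := ENNReal.ofReal_le_ofReal hεζ
  refine le_trans (measure_mono fun p hp => ?_) ((measure_union_le _ _).trans h2)
  by_contra hn
  simp only [hAdef, mem_union, not_or, mem_setOf_eq, mem_preimage, not_not] at hn
  obtain ⟨⟨L₁, hL₁, ⟨a1, a2, a3, a4⟩, a5⟩, L₂, hL₂, ⟨b1, b2, b3, b4⟩, b5⟩ := hn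
  have e : p * M.exp X * c = p * c * g := by rw [hgdef]; group
  have hχ : M.chi g = 0 := by rw [hgdef, M.chi_mul, M.chi_mul, M.chi_inv, M.chi_exp]; simp
  rw [e] at b1 b2 b3 b4 b5
  obtain ⟨rfl, hcc⟩ := HD f _ _ _ _ (p * c) g L₁ hL₁ L₂ hL₂ hr0 hεw hr1 le_rfl hg hχ a2 a4 a5 b2 b3 b5
  refine hp ⟨L₁, hL₁, fun c₁ hc₁ c₂ hc₂ => ?_⟩
  have e2 := M.er_sub f.φ L₁ (p * c) g
  rw [hχ, mulVec_zero, sub_zero] at e2
  have e3 : M.er f.φ L₁ (p * c₁) - M.er f.φ L₁ (p * M.exp X * c₂) = (M.er f.φ L₁ (p * c₁) - M.er f.φ L₁ (p * c)) - M.cc f.φ g (p * c) -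
      (M.er f.φ L₁ (p * M.exp X * c₂) - M.er f.φ L₁ (p * c * g)) := by rw [← e2]; abel
  rw [e3]
  refine (norm_sub_le _ _).trans ((add_le_add (norm_sub_le _ _) le_rfl).trans ?_)
  have := a1 c₁ hc₁
  have := b1 c₂ hc₂
  nlinarith

theorem link (K : ℝ) : ∃ θ : ℝ, 0 < θ ∧ ∀ (η ζ : ℝ) (N : ℕ), 0 < η → 0 < ζ → ∃ w₀ : ℝ, ∀ (f : M.QP K) (w : ℝ) (ν : Measure M.G)
    (X : V h) (F : Finset M.G), w₀ ≤ w → IsProbabilityMeasure ν → X ∈ M.RV ((1 + θ) * w) →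
    Inv ν (M.exp '' M.Box ((1 + η) * w)) (w⁻¹ ^ 2) → Inv (ν.map (· * M.exp X)) (M.exp '' M.Box ((1 + η) * w)) (w⁻¹ ^ 2) →
    F.card ≤ N → ↑F ⊆ M.Adm (N * w) (w / 2) →
      ν {p | ¬∃ L ∈ M.W1, M.Lk f.φ L (ζ * w) F p (p * M.exp X)} ≤ ENNReal.ofReal ζ := by
  rcases Nat.eq_zero_or_pos k with rfl | hk
  · refine ⟨1, one_pos, fun η ζ N hη hζ => ⟨0, fun f w ν X F hw _ _ _ _ _ _ => ?_⟩⟩
    have : {p | ¬∃ L ∈ M.W1, M.Lk f.φ L (ζ * w) F p (p * M.exp X)} = ∅ := by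
      refine eq_empty_of_forall_notMem fun p hp => hp ⟨1, M.one_mem_W1, fun c _ c' _ => ?_⟩
      rw [Subsingleton.elim (_ - _) 0, norm_zero]
      positivity
    rw [this, measure_empty]
    exact zero_le
  obtain ⟨j₀, hj₀⟩ : ∃ j, M.wt j ≠ 0 := by
    by_contra hn
    push Not at hn
    have := congrFun (M.span_wt (fun _ => 1) fun j _ => by rw [hn j, zero_dotProduct]) ⟨0, hk⟩
    simp at this
  have H : ∀ j, ∃ θ₀ : ℝ, 0 < θ₀ ∧ (M.wt j ≠ 0 → _) := fun j => by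
    by_cases hj : M.wt j = 0
    · exact ⟨1, one_pos, fun h => (h hj).elim⟩
    · obtain ⟨θ₀, h0, H⟩ := M.link_wt K hj
      exact ⟨θ₀, h0, fun _ => H⟩
  choose θ₀ hθ₀ H using H
  obtain ⟨θ, hθ, hθ'⟩ : ∃ θ : ℝ, 0 < θ ∧ ∀ j, θ ≤ θ₀ j := by
    obtain ⟨j, -, hj⟩ := Finset.exists_min_image Finset.univ θ₀ ⟨j₀, Finset.mem_univ _⟩
    exact ⟨θ₀ j, hθ₀ j, fun i => hj i (Finset.mem_univ _)⟩
  refine ⟨θ, hθ, fun η ζ N hη hζ => ?_⟩
  have H' : ∀ j, ∃ w₀ : ℝ, M.wt j ≠ 0 → _ := fun j => by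
    by_cases hj : M.wt j = 0
    · exact ⟨1, fun h => (h hj).elim⟩
    · obtain ⟨w₀, H⟩ := H j hj θ hθ (hθ' j) η ζ N hη hζ
      exact ⟨w₀, fun _ => H⟩
  choose w₀ H' using H'
  obtain ⟨w₁, hw₁⟩ := (finite_range w₀).bddAbove
  refine ⟨w₁, fun f w ν X F hw hν hX hI hI' hF hFA => ?_⟩
  obtain ⟨j, hj, h1, h2⟩ : ∃ j, M.wt j ≠ 0 ∧ X ∈ M.W (M.wt j) ∧ ‖X‖ ≤ Real.exp ((1 + θ) * w * nm (M.wt j)) := by
    by_cases h0 : X = 0
    · exact ⟨j₀, hj₀, h0 ▸ zero_mem _, by rw [h0, norm_zero]; positivity⟩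
    obtain ⟨α, hα, h1, h2⟩ := hX.resolve_left h0
    obtain ⟨j, hj⟩ := Function.ne_iff.1 h0
    obtain rfl : M.wt j = α := by
      by_contra hn
      exact hj (M.mem_W.1 h1 j hn)
    exact ⟨j, hα, h1, h2⟩
  exact H' j hj f w ν X F ((hw₁ ⟨j, rfl⟩).trans hw) hν h1 h2 hI hI' hF hFA

end Model

end Crest.Agent.R182
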