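import Crest.Agent.R182.B.PUR

/-! R182/B/LinkA: definitions and small lemmas for LINK and B1 (owner helper34) -/

set_option autoImplicit false
set_option linter.unusedVariables false
set_option linter.unusedSectionVars false
open Set Filter Topology MeasureTheory ProbabilityTheory Matrix Crest.GroupTheory
open scoped Pointwise commutatorElement ENNReal

noncomputable section
namespace Crest.Agent.R182

namespace Model
variable {h k : ℕ} (M : Model h k)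

/-- `L` is pinned at `q` -/
def Pin (φ : M.G → M.G) (η : ℝ) (J : ℕ) (q : M.G) (L : Mat k) : Prop :=
  ∀ i, ‖M.er φ L (q * M.gen i ^ J) - M.er φ L q‖ ≤ η * J

/-- `C` follows from purity at a sufficiently high precision -/
def Eng (K : ℝ) (C : M.QP K → M.G → ℝ → Mat k → (Fin k → ℝ) → Prop) : Prop :=
  ∃ t ε w₀ : ℝ, 1 ≤ t ∧ 0 < ε ∧ ∀ f p w L κ, w₀ ≤ w → L ∈ M.W1 → M.PF f.φ p w L κ t ε → C f p w L κ

/-- directions together with matching target directions -/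
structure DD (𝒟 : Finset M.G) (dd : Mat k → M.G → M.G) : Prop where
  dirs : M.Dirs 𝒟
  mem : ∀ L ∈ M.W1, ∀ d ∈ 𝒟, dd L d ∈ 𝒟
  dir : ∀ L ∈ M.W1, ∀ d ∈ 𝒟, M.Dir L d (dd L d)

/-- `P2` for all directions positive on `α` -/
def E2 (φ : M.G → M.G) (𝒟 : Finset M.G) (dd : Mat k → M.G → M.G) (α : Fin k → ℝ) (L : Mat k) (R r₁ : ℝ) (q g : M.G) : Prop :=
  ∀ d ∈ 𝒟, 0 < α ⬝ᵥ M.chi d → M.P2 φ (M.mI (M.chi d)) (M.mI (M.chi (dd L d))) R r₁ q g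

/-- `P3` for all directions positive on `α` -/
def E3 (φ ψ : M.G → M.G) (𝒟 : Finset M.G) (dd : Mat k → M.G → M.G) (α : Fin k → ℝ) (L : Mat k) (R r r₁ : ℝ) (q : M.G) : Prop :=
  ∀ d ∈ 𝒟, 0 < α ⬝ᵥ M.chi d → M.P3 φ ψ (M.mI (M.chi d)) (M.mI (M.chi (dd L d))) R r r₁ q

/-- the events given by `PF` and `eng1` -/
def E1 (φ : M.G → M.G) (𝒟 : Finset M.G) (dd : Mat k → M.G → M.G) (α : Fin k → ℝ) (L : Mat k) (F : Finset M.G) (R r₁ : ℝ)
    (c g p : M.G) : Prop :=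
  (∀ c' ∈ F, ‖M.er φ L (p * c') - M.er φ L (p * c)‖ ≤ r₁) ∧ M.E2 φ 𝒟 dd α L R r₁ (p * c) 1 ∧ M.E2 φ 𝒟 dd α L R r₁ (p * c) g ∧
    M.E2 φ 𝒟 dd α L R r₁ (p * c) g⁻¹

/-- the pins at scale `W` -/
def pins (W : ℝ) : Finset M.G := by
  classical
  exact insert 1 (Finset.univ.image fun i => M.gen i ^ ⌊W / 8⌋₊)

/-- on most of the box the deviation from `L` is `κ` -/
def Tp (φ : M.G → M.G) (p : M.G) (W : ℝ) (F : Finset M.G) (L : Mat k) (κ : Fin k → ℝ) (ζ : ℝ) : Prop :=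
  M.lw M.E (M.Box W) {y | ∃ c ∈ F, ζ * W < ‖M.er φ L (p * y * c) - κ‖} ≤ ENNReal.ofReal ζ

/-! #### part a -/

theorem measurableSet_Lk {φ : M.G → M.G} (hφ : Measurable φ) (L : Mat k) (ζ : ℝ) (F : Finset M.G) :
    MeasurableSet {z : M.G × M.G | M.Lk φ L ζ F z.1 z.2} := by
  simp only [Lk, setOf_forall]
  exact F.measurableSet_biInter fun c _ => F.measurableSet_biInter fun c' _ => measurableSet_le
    (((M.measurable_er hφ L).comp (measurable_fst.mul_const c)).sub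
      ((M.measurable_er hφ L).comp (measurable_snd.mul_const c'))).norm measurable_const

/-- `finite_W1` -/
theorem measurableSet_exLk {φ : M.G → M.G} (hφ : Measurable φ) (ζ : ℝ) (F : Finset M.G) :
    MeasurableSet {z : M.G × M.G | ¬∃ L ∈ M.W1, M.Lk φ L ζ F z.1 z.2} := by
  rw [show {z : M.G × M.G | ¬∃ L ∈ M.W1, M.Lk φ L ζ F z.1 z.2} = (⋃ L ∈ M.W1, {z | M.Lk φ L ζ F z.1 z.2})ᶜ by ext; simp]
  exact (M.finite_W1.measurableSet_biUnion fun L _ => M.measurableSet_Lk hφ L ζ F).compl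

/-- two linear parts that both link at `p` agree, if `F` contains `c` and `c * gen i ^ j` (`er_sub`, `exists_sep_W1`) -/
theorem exists_pin : ∃ η : ℝ, 0 < η ∧ ∀ (φ : M.G → M.G) (p c : M.G) (j : ℕ), ∀ L ∈ M.W1, ∀ L' ∈ M.W1, 0 < j →
    (∀ i, ‖M.er φ L (p * (c * M.gen i ^ j)) - M.er φ L (p * c)‖ ≤ η * j) →
    (∀ i, ‖M.er φ L' (p * (c * M.gen i ^ j)) - M.er φ L' (p * c)‖ ≤ η * j) → L = L' := by
  obtain ⟨η, hη, hs⟩ := M.exists_sep_W1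
  refine ⟨η / 2, half_pos hη, fun φ p c j L hL L' hL' hj h1 h2 => hs L hL L' hL' fun a i => ?_⟩
  have h3 := (norm_sub_le _ _).trans (add_le_add (h2 i) (h1 i))
  rw [← mul_assoc, M.er_sub, M.er_sub, sub_sub_sub_cancel_left, ← Matrix.sub_mulVec, M.chi_pow, M.chi_gen, Matrix.mulVec_smul,
    norm_smul, Real.norm_natCast] at h3
  have h4 := norm_le_pi_norm ((L - L') *ᵥ Pi.single i 1) a
  rw [Matrix.mulVec_single_one, Real.norm_eq_abs] at h4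
  rw [Matrix.mulVec_single_one] at h3
  have h5 : (0 : ℝ) < j := by exact_mod_cast hj
  exact h4.trans (le_of_mul_le_mul_left (by linarith) h5)

theorem exists_pin' : ∃ η : ℝ, 0 < η ∧ ∀ (φ : M.G → M.G) (q : M.G) (J : ℕ), ∀ L ∈ M.W1, ∀ L' ∈ M.W1, 0 < J →
    M.Pin φ η J q L → M.Pin φ η J q L' → L = L' := by
  obtain ⟨η, hη, hs⟩ := M.exists_pin
  exact ⟨η, hη, fun φ q J L hL L' hL' hJ h1 h2 => hs φ q 1 J L hL L' hL' hJ (by simpa [Pin] using h1) (by simpa [Pin] using h2)⟩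

theorem measurableSet_Pin {φ : M.G → M.G} (hφ : Measurable φ) (η : ℝ) (J : ℕ) (L : Mat k) : MeasurableSet {q | M.Pin φ η J q L} := by
  simp only [Pin, setOf_forall]
  exact MeasurableSet.iInter fun i => measurableSet_le
    (((M.measurable_er hφ L).comp (measurable_mul_const _)).sub (M.measurable_er hφ L)).norm measurable_const

theorem measurableSet_E2 {φ : M.G → M.G} (hφ : Measurable φ) (𝒟 : Finset M.G) (dd : Mat k → M.G → M.G) (α : Fin k → ℝ) (L : Mat k)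
    (R r₁ : ℝ) (g : M.G) : MeasurableSet {q | M.E2 φ 𝒟 dd α L R r₁ q g} := by
  simp only [E2, setOf_forall]
  exact 𝒟.measurableSet_biInter fun d _ => MeasurableSet.iInter fun _ => M.measurableSet_P2 hφ _ (M.gi_mI _).idl.isSub _ _ _

theorem measurableSet_E3 {φ ψ : M.G → M.G} (hφ : Measurable φ) (hψ : Measurable ψ) (𝒟 : Finset M.G) (dd : Mat k → M.G → M.G)
    (α : Fin k → ℝ) (L : Mat k) (R r r₁ : ℝ) : MeasurableSet {q | M.E3 φ ψ 𝒟 dd α L R r r₁ q} := by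
  simp only [E3, setOf_forall]
  exact 𝒟.measurableSet_biInter fun d _ => MeasurableSet.iInter fun _ => M.measurableSet_P3 hφ hψ (M.gi_mI _).idl.isSub _ _ _ _

theorem measurableSet_E1 {φ : M.G → M.G} (hφ : Measurable φ) (𝒟 : Finset M.G) (dd : Mat k → M.G → M.G) (α : Fin k → ℝ) (L : Mat k)
    (F : Finset M.G) (R r₁ : ℝ) (c g : M.G) : MeasurableSet {p | M.E1 φ 𝒟 dd α L F R r₁ c g p} := by
  have h2 := fun g => measurable_mul_const c (M.measurableSet_E2 hφ 𝒟 dd α L R r₁ g)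
  refine MeasurableSet.inter (s₁ := {p | ∀ c' ∈ F, ‖M.er φ L (p * c') - M.er φ L (p * c)‖ ≤ r₁}) ?_
    ((h2 1).inter ((h2 g).inter (h2 g⁻¹)))
  simp only [setOf_forall]
  exact F.measurableSet_biInter fun c' _ => measurableSet_le (((M.measurable_er hφ L).comp (measurable_mul_const c')).sub
    ((M.measurable_er hφ L).comp (measurable_mul_const c))).norm measurable_const

theorem exists_DD : ∃ 𝒟 dd, M.DD 𝒟 dd := by
  obtain ⟨𝒟, h𝒟⟩ := M.exists_dirs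
  have : ∀ (L : Mat k) (d : M.G), ∃ d', L ∈ M.W1 → d ∈ 𝒟 → d' ∈ 𝒟 ∧ M.Dir L d d' := fun L d => by
    by_cases hh : L ∈ M.W1 ∧ d ∈ 𝒟
    · obtain ⟨d', h1⟩ := h𝒟.dir hh.2 hh.1
      exact ⟨d', fun _ _ => h1⟩
    · exact ⟨1, fun h1 h2 => absurd ⟨h1, h2⟩ hh⟩
  choose dd hdd using this
  exact ⟨𝒟, dd, h𝒟, fun L hL d hd => (hdd L d hL hd).1, fun L hL d hd => (hdd L d hL hd).2⟩

theorem one_mem_pins (W : ℝ) : (1 : M.G) ∈ M.pins W := by
  simp [pins]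

theorem gen_mem_pins (W : ℝ) (i : Fin k) : M.gen i ^ ⌊W / 8⌋₊ ∈ M.pins W := by
  simp [pins]

theorem card_pins (W : ℝ) : (M.pins W).card ≤ k + 1 := by
  classical
  exact (Finset.card_insert_le _ _).trans (Nat.succ_le_succ (Finset.card_image_le.trans (by simp)))

theorem pins_subset {W : ℝ} (hW : 0 ≤ W) : ↑(M.pins W) ⊆ M.ballCR (W / 8) := by
  intro c hc
  simp only [pins, Finset.coe_insert, Finset.coe_image, mem_insert_iff, mem_image] at hc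
  rcases hc with rfl | ⟨i, -, rfl⟩
  · exact M.one_mem_ballCR (by positivity)
  · exact M.ballCR_mono (by rw [mul_one]; exact Nat.floor_le (by positivity)) (M.pow_mem_ballCR (M.gen_mem_ballCR i) _)

/-- `mul_mem_Adm'` with `g = 1` -/
theorem ballR_subset_Adm (r : ℝ) : M.ballR r ⊆ M.Adm r r := by
  intro s hs
  simpa using M.mul_mem_Adm' (g := 1) (ℓ := 0) (H := 0) ⟨[], by simp [Wrd], by simp, fun l' hl => by
    simp [List.prefix_nil.1 hl, chi_one, nm], rfl⟩ hs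

variable {M}

theorem Eng.mono {K : ℝ} {C C' : M.QP K → M.G → ℝ → Mat k → (Fin k → ℝ) → Prop} (h : M.Eng K C)
    (hC : ∀ f p w L κ, L ∈ M.W1 → C f p w L κ → C' f p w L κ) : M.Eng K C' := by
  obtain ⟨t, ε, w₀, ht, hε, h⟩ := h
  exact ⟨t, ε, w₀, ht, hε, fun f p w L κ hw hL hP => hC f p w L κ hL (h f p w L κ hw hL hP)⟩

/-- `PF.mono` -/
theorem Eng.and {K : ℝ} {C C' : M.QP K → M.G → ℝ → Mat k → (Fin k → ℝ) → Prop} (h : M.Eng K C) (h' : M.Eng K C') :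
    M.Eng K fun f p w L κ => C f p w L κ ∧ C' f p w L κ := by
  obtain ⟨t, ε, w₀, ht, hε, h⟩ := h
  obtain ⟨t', ε', w₀', ht', hε', h'⟩ := h'
  refine ⟨max t t', min ε ε', max 0 (max w₀ w₀'), le_max_of_le_left ht, lt_min hε hε', fun f p w L κ hw hL hP => ?_⟩
  simp only [max_le_iff] at hw
  exact ⟨h f p w L κ hw.2.1 hL (hP.mono hw.1 (le_max_left _ _) (min_le_left _ _)),
    h' f p w L κ hw.2.2 hL (hP.mono hw.1 (le_max_right _ _) (min_le_right _ _))⟩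

theorem Eng.finset {K : ℝ} {ι : Type*} (s : Finset ι) {C : ι → M.QP K → M.G → ℝ → Mat k → (Fin k → ℝ) → Prop}
    (h : ∀ i ∈ s, M.Eng K (C i)) : M.Eng K fun f p w L κ => ∀ i ∈ s, C i f p w L κ := by
  classical
  induction s using Finset.induction_on with
  | empty => exact ⟨1, 1, 0, le_rfl, one_pos, by simp⟩
  | insert a s _ ih =>
    exact ((h a (Finset.mem_insert_self _ _)).and (ih fun i hi => h i (Finset.mem_insert_of_mem hi))).mono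
      fun f p w L κ _ hh => Finset.forall_mem_insert .. |>.2 hh

theorem Eng.of_ev (K : ℝ) {P : ℝ → Prop} (h : ∀ᶠ w in atTop, P w) : M.Eng K fun f p w L κ => P w := by
  obtain ⟨w₀, h⟩ := eventually_atTop.1 h
  exact ⟨1, 1, w₀, le_rfl, one_pos, fun f p w L κ hw _ _ => h w hw⟩

/-- `t = max 1 Λ`, `ε = min m ε₂`, `s = 1`, `Adm_mono` -/
theorem Eng.pf (K Λ : ℝ) {m ε₂ : ℝ} (hm : 0 < m) (hε : 0 < ε₂) : M.Eng K fun f p w L κ => ∀ g ∈ M.Adm (Λ * w) ((1 - m) * w),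
    M.lw M.E (M.Box w) {x | ε₂ * w < ‖M.er f.φ L (p * x * g) - κ‖} ≤ ENNReal.ofReal ε₂ := by
  refine ⟨max 1 Λ, min m ε₂, 0, le_max_left _ _, lt_min hm hε, fun f p w L κ hw _ hP g hg => ?_⟩
  have := hP 1 ⟨le_rfl, le_max_left _ _⟩ g (M.Adm_mono (mul_le_mul_of_nonneg_right (le_max_right _ _) hw)
    (mul_le_mul_of_nonneg_right (by linarith [min_le_left m ε₂]) hw) hg)
  rw [one_smul] at this
  exact (measure_mono fun x hx => (mul_le_mul_of_nonneg_right (min_le_right _ _) hw).trans_lt hx).trans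
    (this.trans (ENNReal.ofReal_le_ofReal (min_le_right _ _)))

/-- `pur K t (min ε ε') η`, `PF.mono` -/
theorem Eng.pur {K : ℝ} {C : M.QP K → M.G → ℝ → Mat k → (Fin k → ℝ) → Prop} (h : M.Eng K C) {ε' η : ℝ} (hε : 0 < ε') (hη : 0 < η) :
    ∃ w₀ : ℝ, ∀ (f : M.QP K) (w : ℝ) (ν : Measure M.G), w₀ ≤ w → IsProbabilityMeasure ν →
      Inv ν (M.exp '' M.Box ((1 + η) * w)) (w⁻¹ ^ 2) → ν {p | ¬∃ L ∈ M.W1, ∃ κ, C f p w L κ} ≤ ENNReal.ofReal ε' := by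
  obtain ⟨t, ε, w₀, ht, hε0, h⟩ := h
  obtain ⟨w₁, h1⟩ := M.pur K t (min ε ε') η (lt_min hε0 hε) hη
  refine ⟨max 0 (max w₀ w₁), fun f w ν hw hν hI => ?_⟩
  simp only [max_le_iff] at hw
  refine le_trans (measure_mono fun p hp => ?_) ((h1 f w ν hw.2.2 hν hI).trans (ENNReal.ofReal_le_ofReal (min_le_right _ _)))
  exact fun ⟨L, hL, κ, hP⟩ => hp ⟨L, hL, κ, h f p w L κ hw.2.1 hL (hP.mono hw.1 le_rfl (min_le_left _ _))⟩

/-- triangle inequality through `p * 1` -/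
theorem Lk.pin_right {φ : M.G → M.G} {L : Mat k} {ζ η W : ℝ} {F : Finset M.G} {p p' : M.G} (h : M.Lk φ L ζ F p p')
    (hF : M.pins W ⊆ F) (hζ : 2 * ζ ≤ η * ⌊W / 8⌋₊) : M.Pin φ η ⌊W / 8⌋₊ p' L := by
  intro i
  have h0 := hF (M.one_mem_pins W)
  have h1 := h 1 h0 _ (hF (M.gen_mem_pins W i))
  have h2 := h 1 h0 1 h0
  rw [mul_one p'] at h2
  rw [norm_sub_rev] at h1
  linarith [norm_sub_le_norm_sub_add_norm_sub (M.er φ L (p' * M.gen i ^ ⌊W / 8⌋₊)) (M.er φ L (p * 1)) (M.er φ L p')]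

theorem Lk.pin_left {φ : M.G → M.G} {L : Mat k} {ζ η W : ℝ} {F : Finset M.G} {p p' : M.G} (h : M.Lk φ L ζ F p p')
    (hF : M.pins W ⊆ F) (hζ : 2 * ζ ≤ η * ⌊W / 8⌋₊) : M.Pin φ η ⌊W / 8⌋₊ p L := by
  exact Lk.pin_right (p := p') (fun c hc c' hc' => (norm_sub_rev _ _).trans_le (h c' hc' c hc)) hF hζ

theorem Lk.trans {φ : M.G → M.G} {L : Mat k} {ζ ζ' : ℝ} {F : Finset M.G} {p p' p'' : M.G} (h : M.Lk φ L ζ F p p')
    (h' : M.Lk φ L ζ' F p' p'') (hF : (1 : M.G) ∈ F) : M.Lk φ L (ζ + ζ') F p p'' := by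
  exact fun c hc c' hc' => (norm_sub_le_norm_sub_add_norm_sub _ _ _).trans (add_le_add (h c hc 1 hF) (h' 1 hF c' hc'))

theorem Lk.mono {φ : M.G → M.G} {L : Mat k} {ζ ζ' : ℝ} {F F' : Finset M.G} {p p' : M.G} (h : M.Lk φ L ζ F p p') (hζ : ζ ≤ ζ')
    (hF : F' ⊆ F) : M.Lk φ L ζ' F' p p' := by
  exact fun c hc c' hc' => (h c (hF hc) c' (hF hc')).trans hζ

variable (M)

/-! #### part b: geometry of the top -/

omit M in
/-- round each coordinate; `nm_le_norm` -/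
theorem _root_.Crest.Agent.R182.exists_top (v : Fin k → ℝ) : ∃ a : Fin k → ℤ, nm ((fun i => (a i : ℝ)) - v) ≤ k := by
  refine ⟨fun i => round (v i), (nm_le_norm _).trans (mul_le_of_le_one_right (Nat.cast_nonneg _) ?_)⟩
  refine (pi_norm_le_iff_of_nonneg zero_le_one).2 fun i => ?_
  rw [Pi.sub_apply, Real.norm_eq_abs, abs_sub_comm]
  exact (abs_sub_round _).trans (by norm_num)

omit M in
theorem linkab_dot {α : Fin k → ℝ} (hα : α ≠ 0) : α ⬝ᵥ ((nm α)⁻¹ • α) = nm α := by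
  have := (nm_pos hα).ne'
  rw [dotProduct_smul, ← nm_sq, smul_eq_mul]
  field_simp

omit M in
theorem linkab_room {α v : Fin k → ℝ} (hα : α ≠ 0) (hv : 0 < α ⬝ᵥ v) : ∀ᶠ c in 𝓝[>] (0 : ℝ), ∀ (s ρ T : ℝ) (a : Fin k → ℝ), 0 ≤ s →
    T ≤ c * s → nm (a - s • (nm α)⁻¹ • α) ≤ ρ → Room a v T (s + ρ) := by
  have h0 := nm_pos hα
  have h1 : ((nm α)⁻¹ • α) ⬝ᵥ ((nm α)⁻¹ • α) = 1 := by
    rw [smul_dotProduct, linkab_dot hα, smul_eq_mul, inv_mul_cancel₀ h0.ne']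
  have h2 : 0 < ((nm α)⁻¹ • α) ⬝ᵥ v := by rw [smul_dotProduct, smul_eq_mul]; positivity
  generalize (nm α)⁻¹ • α = e at h1 h2
  have h3 : 0 < v ⬝ᵥ v := by
    rw [← nm_sq]
    exact pow_pos (nm_pos (by rintro rfl; simp at h2)) 2
  filter_upwards [Ioo_mem_nhdsGT (div_pos h2 h3)] with c hc s ρ T a hs hT ha x hx
  have h4 : x * (v ⬝ᵥ v) ≤ s * (e ⬝ᵥ v) := by
    have := (lt_div_iff₀ h3).1 hc.2
    nlinarith [mul_le_mul_of_nonneg_right (hx.2.trans hT) h3.le, mul_le_mul_of_nonneg_left this.le hs]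
  have h5 : nm (s • e - x • v) ≤ s := by
    refine Real.sqrt_le_iff.2 ⟨hs, ?_⟩
    simp only [sub_dotProduct, dotProduct_sub, smul_dotProduct, dotProduct_smul, smul_eq_mul, h1, dotProduct_comm v e]
    nlinarith [mul_le_mul_of_nonneg_left h4 hx.1, mul_nonneg (mul_nonneg hs hx.1) h2.le]
  have := nm_add_le (a - s • e) (s • e - x • v)
  rw [sub_add_sub_cancel] at this
  linarith

/-- With `e = (nm α)⁻¹ • α` and `0 < e ⬝ᵥ v`: `nm (s • e - x • v) ^ 2 = s ^ 2 - 2 s x e ⬝ᵥ v + x ^ 2 nm v ^ 2 ≤ s ^ 2` for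
`0 ≤ x ≤ s * (e ⬝ᵥ v) / nm v ^ 2`.  Finitely many `v` (`finite_W1`); for `v = L⁻¹ *ᵥ chi (dd L d)` use `Dir.bwd` at `j`. -/
theorem exists_room {𝒟 : Finset M.G} {dd : Mat k → M.G → M.G} (hD : M.DD 𝒟 dd) {j : Fin h} (hj : M.wt j ≠ 0) : ∃ c : ℝ, 0 < c ∧
    ∀ (s ρ T : ℝ) (a : Fin k → ℝ), 0 ≤ s → T ≤ c * s → nm (a - s • (nm (M.wt j))⁻¹ • M.wt j) ≤ ρ → ∀ L ∈ M.W1, ∀ d ∈ 𝒟,
      0 < M.wt j ⬝ᵥ M.chi d → Room a (M.chi d) T (s + ρ) ∧ Room a (L⁻¹ *ᵥ M.chi (dd L d)) T (s + ρ) := by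
  have : ∀ᶠ c in 𝓝[>] (0 : ℝ), ∀ L ∈ M.W1, ∀ d ∈ 𝒟, 0 < M.wt j ⬝ᵥ M.chi d → ∀ (s ρ T : ℝ) (a : Fin k → ℝ), 0 ≤ s → T ≤ c * s →
      nm (a - s • (nm (M.wt j))⁻¹ • M.wt j) ≤ ρ → Room a (M.chi d) T (s + ρ) ∧ Room a (L⁻¹ *ᵥ M.chi (dd L d)) T (s + ρ) := by
    refine (eventually_all_finite M.finite_W1).2 fun L hL => (eventually_all_finset _).2 fun d hd => ?_
    by_cases h0 : 0 < M.wt j ⬝ᵥ M.chi d
    · filter_upwards [linkab_room hj h0, linkab_room hj (((hD.dir L hL d hd).bwd j).1.2 h0)] with c h1 h2 _ s ρ T a hs hT ha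
      exact ⟨h1 s ρ T a hs hT ha, h2 s ρ T a hs hT ha⟩
    · exact Eventually.of_forall fun c h' => absurd h' h0
  obtain ⟨c, hc, hc0⟩ := (this.and self_mem_nhdsWithin).exists
  exact ⟨c, hc0, fun s ρ T a hs hT ha L hL d hd h0 => hc L hL d hd h0 s ρ T a hs hT ha⟩

/-- `c⁻¹ * exp X * c = exp (Ad c⁻¹ X)`, `α ⬝ᵥ chi c ≥ (1 - 2 θ) w nm α` (`abs_dot_le_nm`), `norm_Ad_C` gives
`‖Ad c⁻¹ X‖ ≤ B (1 + Λ w) ^ D exp (3 θ w nm α) ≤ exp ((3 nm α + 1) θ w)` (`apiloga_pow`); `len_exp_E`, `W_le_E` -/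
theorem len_conj {α : Fin k → ℝ} (hα : α ≠ 0) : ∃ C₁ : ℝ, 1 ≤ C₁ ∧ ∀ θ Λ : ℝ, 0 < θ → ∃ w₀ : ℝ, ∀ w ≥ w₀, ∀ c ∈ M.ballCR (Λ * w),
    nm (M.chi c - ((1 - θ) * w) • (nm α)⁻¹ • α) ≤ θ * w → ∀ X ∈ M.W α, ‖X‖ ≤ Real.exp ((1 + θ) * w * nm α) →
      c⁻¹ * M.exp X * c ∈ M.ballR (C₁ * θ * w) := by
  obtain ⟨Λ₀, hΛ₀, hlen⟩ := M.len_exp_E
  obtain ⟨B, D, hB, hAd⟩ := M.norm_Ad_C
  have h0 := nm_pos hα
  refine ⟨Λ₀ * (3 * nm α + 1), one_le_mul_of_one_le_of_one_le hΛ₀ (by linarith), fun θ Λ hθ => ?_⟩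
  obtain ⟨w₀, -, hev⟩ := bxg_ev B Λ D hθ
  refine ⟨max w₀ θ⁻¹, fun w hw c hc hχ X hX hn => ?_⟩
  have h1 : 1 ≤ θ * w := by
    have := mul_le_mul_of_nonneg_left ((le_max_right _ _).trans hw) hθ.le
    rwa [mul_inv_cancel₀ hθ.ne'] at this
  have h2 := hev w ((le_max_left _ _).trans hw) _ (Nat.cast_nonneg _) (M.inv_mem_ballCR hc).2
  have h3 := (abs_le.1 ((abs_dot_le_nm α _).trans (mul_le_mul_of_nonneg_left hχ h0.le))).1
  rw [dotProduct_sub, dotProduct_smul, linkab_dot hα, smul_eq_mul] at h3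
  have h4 : ‖M.Ad c⁻¹ X‖ ≤ Real.exp ((3 * nm α + 1) * (θ * w)) := by
    refine (hAd _ (inv_mem hc.1) α X hX).trans ((mul_le_mul (mul_le_mul_of_nonneg_right h2 (Real.exp_pos _).le) hn (norm_nonneg _)
      (by positivity)).trans ?_)
    rw [← Real.exp_add, ← Real.exp_add, M.chi_inv, dotProduct_neg]
    exact Real.exp_le_exp.2 (by linarith)
  have h5 := hlen _ (one_le_mul_of_one_le_of_one_le (by linarith) h1) _ (M.Ad_E c⁻¹ (M.W_le_E hα hX)) h4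
  rw [← M.conj, inv_inv] at h5
  rwa [mul_assoc, mul_assoc]

end Model

end Crest.Agent.R182
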