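import Crest.Agent.R182.B.LinkA
import Crest.Agent.R182.B.DetCore

/-! R182/B/LinkB: the deterministic end of LINK (owner helper34) -/

set_option autoImplicit false
set_option linter.unusedVariables false
set_option linter.unusedSectionVars false
open Set Filter Topology MeasureTheory ProbabilityTheory Matrix Crest.GroupTheory
open scoped Pointwise commutatorElement ENNReal

noncomputable section
namespace Crest.Agent.R182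

namespace Model
variable {h k : ℕ} (M : Model h k)

/-- Take `B` larger than the constants of `cmp`, `cmp2` for all `U = mI (chi d)`, `U₁, U₂ = mI (chi d₁), mI (chi d₂)` (`d, d₁, d₂ ∈ 𝒟`) and one
`Aff β` for each `β ∈ R1` (e.g. turn each statement into `∀ᶠ B in atTop` and use `Filter.eventually_all_finset`, `Set.Finite.eventually_all`).
For `d ∈ 𝒟` with `0 < wt j ⬝ᵥ chi d`, `dᵢ = dd Lᵢ d`: `CH U U₁ U₂ q g` and `CH U U₂ U₁ (q * g) g⁻¹` hold.  If `0 < β ⬝ᵥ chi d₁` and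
`β ⬝ᵥ chi d₂ < 0` (`Dir.reg'`) then `X0 ∈ U₂` (`W_le_idl`) and `ℓ U₁ = 0` (`Aff.idl_zero`), contradicting `cmp2`; so the patterns agree (`Dir.fwd`) and
`L₁ = L₂` (`Dirs.eq_of_pattern`).  `cmp` both ways, `cc_inv`, `mI_congr`, `Dirs.span`. -/
theorem link_det (K : ℝ) {𝒟 : Finset M.G} {dd : Mat k → M.G → M.G} (hD : M.DD 𝒟 dd) {j : Fin h} (hj : M.wt j ≠ 0) : ∃ B : ℝ, 1 ≤ B ∧
    ∀ (f : M.QP K) (R r r₀ r₁ : ℝ) (q g : M.G), ∀ L₁ ∈ M.W1, ∀ L₂ ∈ M.W1, 1 ≤ r₀ → 1 ≤ r₁ → B * (r₀ + r₁) ≤ r → B * r ≤ R →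
      g ∈ M.ballR r₀ → M.chi g = 0 → M.E2 f.φ 𝒟 dd (M.wt j) L₁ R r₁ q 1 → M.E2 f.φ 𝒟 dd (M.wt j) L₁ R r₁ q g⁻¹ →
      M.E3 f.φ f.ψ 𝒟 dd (M.wt j) L₁ R r r₁ q → M.E2 f.φ 𝒟 dd (M.wt j) L₂ R r₁ (q * g) 1 → M.E2 f.φ 𝒟 dd (M.wt j) L₂ R r₁ (q * g) g →
      M.E3 f.φ f.ψ 𝒟 dd (M.wt j) L₂ R r r₁ (q * g) → L₁ = L₂ ∧ ‖M.cc f.φ g q‖ ≤ B * r₁ := by
  obtain ⟨B, hB, H⟩ := M.det_core K hD.dirs hD.mem hD.dir
  refine ⟨B, hB, fun f R r r₀ r₁ q g L₁ hL₁ L₂ hL₂ h0 h1 h2 h3 hg hg0 a1 a2 a3 b1 b2 b3 =>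
    H f j R r r₀ r₁ q g L₁ hL₁ L₂ hL₂ hj h0 h1 h2 h3 hg hg0 fun d hd hd0 =>
      ⟨⟨a1 d hd hd0, b2 d hd hd0, a3 d hd hd0⟩, b1 d hd hd0, ?_, b3 d hd hd0⟩⟩
  rw [mul_inv_cancel_right]
  exact a2 d hd hd0

end Model

end Crest.Agent.R182
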