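import Crest.Agent.R182.B.B1
import Crest.Agent.R182.B.B3
import Crest.Agent.R182.B.Fin

/-! R182/B/Main: assembly. -/

set_option autoImplicit false
open Crest.GroupTheory Crest.Geometry

namespace Crest.Agent.R182

theorem Model.stB3 {h k : ℕ} (M : Model h k) : M.StB3 := fun K => by
  obtain ⟨ε, hε, h3⟩ := M.b3_of K
  obtain ⟨B, h1⟩ := M.b1 K ε hε
  obtain ⟨B', h3'⟩ := h3 B
  exact ⟨B', fun f => let ⟨L, hL, hP⟩ := h1 f; ⟨L, hL, h3' f L hL hP⟩⟩

theorem main {P H : Type*} [Group P] [Group H] (S : Finset P) (hS : Subgroup.closure (S : Set P) = ⊤) (T : Finset H)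
    (hT : Subgroup.closure (T : Set H) = ⊤) (hP : IsVirtuallyPolycyclic P) (F : H → P)
    (hF : IsQuasiIsometry (wordDist (T : Set H)) (wordDist (S : Set P)) F) : IsVirtuallyPolycyclic H := by
  exact vpc_of_StC (fun h k M => M.stB3.stC) P H S hS T hT hP F hF

end Crest.Agent.R182
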