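import Crest.Agent.R182.NA.Ac
import Crest.Agent.R182.NA.Ch
import Crest.Agent.R182.NA.Hop

/-! R182/B/NA: non-alignment (public statements FROZEN). -/

set_option autoImplicit false
set_option linter.unusedVariables false
set_option linter.unusedSectionVars false
open Set Filter Topology MeasureTheory ProbabilityTheory Matrix Crest.GroupTheory
open scoped Pointwise commutatorElement ENNReal

noncomputable section
namespace Crest.Agent.R182

namespace Model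
variable {h k : ℕ} (M : Model h k)

/-- the point `exp (τ₁ • v₁) * ⋯ * exp (τₘ • vₘ)` -/
def rw {m : ℕ} (v : Fin m → V h) (τ : Fin m → ℝ) : M.G := (List.ofFn fun i => M.exp (τ i • v i)).prod

/-- the law of the random word with independent uniform parameters `τ i ∈ [-R i, R i]` -/
def rwl {m : ℕ} (v : Fin m → V h) (R : Fin m → ℝ) : Measure M.G :=
  ((volume : Measure (Fin m → ℝ))[|Set.pi univ fun i => Icc (-R i) (R i)]).map (M.rw v)

/-- AC.  Downward induction on `i` from `EF cl = ⊥`: there is a word whose law is `B exp (-γ ρ)`-invariant under `exp (EF i ∩ ball (exp (γ ρ)))`.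
The new word is `W' * u`, with `W'` the word for `EF (i + 1)` (much larger ranges `exp ρ`) and `u` the steps of level `i` (ranges `exp (γ' ρ)`): one step
`exp (τ v)` for each spanning root vector `v` of `EF i` mod `EF (i + 1)`, and a block `exp (τ₁ Y) exp (τ₂ Z) exp (τ₃ Y)` for each spanning bracket `br Y Z`
(`EF_zero_le`, `EF_succ_le`).  For `z = exp (∑ σ v)`: `u(τ) * z = z' * u(τ')` with `z' ∈ exp (EF (i + 1))` of polynomial size and `τ ↦ τ'` the measure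
preserving shear `τ + σ`, resp. `(τ₁ + σ / τ₂, τ₂, τ₃ - σ / τ₂)` (discard `|τ₂| ≤ √R`).  Add one vector at a time. -/
theorem exists_ac : ∃ (m : ℕ) (v : Fin m → V h) (e : Fin m → ℝ) (γ B : ℝ), 0 < γ ∧ 1 ≤ B ∧
    (∀ i, ‖v i‖ ≤ 1 ∧ (∃ α, α ≠ 0 ∧ v i ∈ M.W α) ∧ 0 < e i ∧ e i ≤ 1) ∧ ∀ ρ : ℝ, 1 ≤ ρ →
      Inv (M.rwl v fun i => Real.exp (e i * ρ)) (M.exp '' M.Gv (γ * ρ)) (B * Real.exp (-(γ * ρ))) :=
  M.exists_ac'

/-- Density chain.  `F m = 1_T`, `F (j - 1) x = 1_T x * avg_τ F j (x * exp (τ • v j))`; with `A F x = avg_{τ ∈ [0, R]} F (x exp (τ v))`: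
`(∫ F) ^ 2 / hm (D • Gv ρ) ≤ ∫ (A F) ^ 2 ≤ 2 ∫ F x * avg_{|τ| ≤ R} F (x exp (τ v))` (Cauchy-Schwarz, right invariance of `hm E`). -/
theorem exists_chain (m : ℕ) : ∃ c : ℝ, 0 < c ∧ ∀ (v : Fin m → V h) (R : Fin m → ℝ) (ρ : ℝ), (∀ i, v i ∈ M.E ∧ 0 < R i ∧
    R i * ‖v i‖ ≤ Real.exp ρ) → ∀ T : Set M.G, MeasurableSet T → T ⊆ M.exp '' M.Gv ρ → M.lw M.E (M.Gv ρ) T ≠ 0 → ∃ x ∈ T,
      ENNReal.ofReal c * M.lw M.E (M.Gv ρ) T ^ (2 ^ m) ≤
        ((volume : Measure (Fin m → ℝ))[|Set.pi univ fun i => Icc (-R i) (R i)])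
          {τ | ∀ j, x * ((List.ofFn fun i => M.exp (τ i • v i)).take j).prod ∈ T} :=
  M.exists_chain' m

/-- the `β`-height of the image stays low along `l` and ends very low -/
def Low (φ : M.G → M.G) (β : Fin k → ℝ) (r r' : ℝ) (l : List M.G) (q : M.G) : Prop :=
  (∀ l', l' <+: l → β ⬝ᵥ M.cc φ l'.prod q ≤ r) ∧ β ⬝ᵥ M.cc φ l.prod q ≤ r'

theorem na_meas {φ : M.G → M.G} (hφ : Measurable φ) (β : Fin k → ℝ) (r r' : ℝ) (l : List M.G) (p : M.G) :
    MeasurableSet {x | M.Low φ β r r' l (p * x)} := by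
  have h0 : Measurable fun a : Fin k → ℝ => β ⬝ᵥ a := (continuous_const.dotProduct continuous_id).measurable
  have h1 : ∀ g : M.G, Measurable fun x => β ⬝ᵥ M.cc φ g (p * x) := fun g => by
    have h2 : Measurable fun x : M.G => (g, p * x) := measurable_const.prodMk (measurable_const_mul p)
    have h3 := (M.measurable_cc hφ).comp h2
    exact h0.comp h3
  have h2 : {x | M.Low φ β r r' l (p * x)} =
      (⋂ j : ℕ, {x | β ⬝ᵥ M.cc φ (l.take j).prod (p * x) ≤ r}) ∩ {x | β ⬝ᵥ M.cc φ l.prod (p * x) ≤ r'} := by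
    ext x
    simp only [Low, mem_setOf_eq, mem_inter_iff, mem_iInter]
    refine and_congr_left fun _ => ⟨fun H j => H _ (List.take_prefix j l), fun H l' hl' => ?_⟩
    rw [List.prefix_iff_eq_take.1 hl']
    exact H _
  rw [h2]
  exact (MeasurableSet.iInter fun j => measurableSet_le (h1 _) measurable_const).inter
    (measurableSet_le (h1 _) measurable_const)

theorem na_core {β : Fin k → ℝ} (A : M.Aff β) {m : ℕ} (v : Fin m → V h) (R : Fin m → ℝ) (φ : M.G → M.G) (p x : M.G)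
    (T : Set M.G) {H r : ℝ} {t : Fin k → ℤ} (hT : ∀ y ∈ T, M.tv (φ (p * y)) = t)
    (hop : ∀ y ∈ T, ∀ i τ, |τ| ≤ R i → y * M.exp (τ • v i) ∈ T →
      ‖A.bb ((φ (p * y))⁻¹ * φ (p * (y * M.exp (τ • v i))))‖ ≤ H) (hr : 0 ≤ r) (hH : m * H ≤ Real.exp r) :
    M.chP v R T x ≤ M.rwl v R {w | ‖A.bb ((φ (p * x))⁻¹ * φ (p * x * w))‖ ≤ Real.exp r ∧
      -r ≤ β ⬝ᵥ M.chi ((φ (p * x))⁻¹ * φ (p * x * w))} := by
  refine le_trans ?_ (Measure.le_map_apply (M.measurable_word' v).aemeasurable _)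
  refine measure_mono_ae ((boxL_ae R).mono fun τ hτ hτ' => ?_)
  set L := List.ofFn fun i => M.exp (τ i • v i) with hL
  have hlen : L.length = m := by simp [hL]
  have hmem : ∀ j, x * (L.take j).prod ∈ T := hτ'
  have h1 := M.bb_tele A (fun j => φ (p * (x * (L.take j).prod))) m (H := H)
    (fun j _ => (hT _ (hmem j)).trans (hT _ (hmem 0)).symm) (fun j hj => by
      have e : x * (L.take (j + 1)).prod = x * (L.take j).prod * M.exp (τ ⟨j, hj⟩ • v ⟨j, hj⟩) := by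
        rw [List.prod_take_succ L j (hlen.symm ▸ hj), mul_assoc]
        simp [hL]
      have := hop _ (hmem j) ⟨j, hj⟩ _ (hτ _) (e ▸ hmem (j + 1))
      simpa only [e] using this)
  have h2 : L.take m = L := List.take_of_length_le hlen.le
  have h3 := (hT _ (hmem m)).trans (hT _ (hmem 0)).symm
  simp only [h2, List.take_zero, List.prod_nil, mul_one] at h1 h3
  rw [← mul_assoc] at h1 h3
  refine ⟨h1.trans hH, ?_⟩
  have h4 : M.chi ((φ (p * x))⁻¹ * φ (p * x * L.prod)) = 0 := by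
    rw [M.chi_mul, M.chi_inv]
    ext i
    simp [chi, h3]
  change -r ≤ β ⬝ᵥ M.chi ((φ (p * x))⁻¹ * φ (p * x * L.prod))
  rw [h4, dotProduct_zero]
  linarith

theorem na_avg {K : ℝ} {β : Fin k → ℝ} (A : M.Aff β) (f : M.QP K) (q y : M.G) {ν : Measure M.G} [IsProbabilityMeasure ν]
    {ρ η r : ℝ} {a : ℝ≥0∞} (hν : Inv ν (M.exp '' M.Gv ρ) η)
    (ha : ∀ p, M.lw M.E (M.Gv ρ) {x | ‖A.bb (y⁻¹ * f.φ (p * x))‖ ≤ Real.exp r ∧ -r ≤ β ⬝ᵥ M.chi (y⁻¹ * f.φ (p * x))} ≤ a) :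
    ν {w | ‖A.bb (y⁻¹ * f.φ (q * w))‖ ≤ Real.exp r ∧ -r ≤ β ⬝ᵥ M.chi (y⁻¹ * f.φ (q * w))} ≤ a + ENNReal.ofReal η := by
  have : IsProbabilityMeasure (M.lw M.E (M.Gv ρ)) := by
    simpa using M.isProbabilityMeasure_lw_Gv (U := M.E) le_rfl one_pos ρ
  have h1 : (M.exp '' M.Gv ρ)⁻¹ = M.exp '' M.Gv ρ := by
    simpa [Gv] using M.inv_exp_Qi (M.star_EV ρ) 1
  have h2 : M.lw M.E (M.Gv ρ) (M.exp '' M.Gv ρ)ᶜ = 0 :=
    measure_mono_null (compl_subset_compl.2 (image_mono inter_subset_right)) (M.lw_compl M.E (M.isCompact_Gv ρ))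
  have hm : Measurable fun w => y⁻¹ * f.φ (q * w) := (f.mφ.comp (measurable_const_mul q)).const_mul _
  have h3 : MeasurableSet {w | ‖A.bb (y⁻¹ * f.φ (q * w))‖ ≤ Real.exp r ∧ -r ≤ β ⬝ᵥ M.chi (y⁻¹ * f.φ (q * w))} :=
    (measurableSet_le (A.continuous_bb.measurable.comp hm).norm measurable_const).inter (measurableSet_le measurable_const
      ((continuous_const.dotProduct continuous_id).measurable.comp (M.measurable_chi.comp hm)))
  have := M.Inv_average (h1.symm ▸ hν) h2 h3 (Ω := ∅) (a := a) fun w _ => by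
    simpa only [mem_setOf_eq, mul_assoc] using ha (q * w)
  simpa using this

set_option maxHeartbeats 1000000 in
/-- NA.  Split the set into `poly ℓ` classes by `tv (φ (p x))`.  If `x`, `x u` lie in the same class (`u` a root step) then the path "along `l`, across, back
along `l`" shows `‖bb ((φ (p x))⁻¹ φ (p x u))‖ ≤ poly ℓ * exp (b ℓ)` (`Aff.norm_bb_image`) and `lam = 1`.  `exists_chain` gives `x` in the class such that
with probability `≥ c τ ^ 2 ^ m` the point `φ (p x W)` is in the tube of `φ (p x)`; by `exists_ac`, `Inv_average` and `sp` this probability is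
`≤ B exp (B b ℓ - c ℓ)`. -/
theorem na (K : ℝ) {β : Fin k → ℝ} (A : M.Aff β) : ∃ B₁ : ℝ, 1 ≤ B₁ ∧ ∀ Λ a : ℝ, 0 < a → ∃ b c B : ℝ, 0 < b ∧ 0 < c ∧ 1 ≤ B ∧
    ∀ (f : M.QP K) (p : M.G) (ℓ S : ℝ) (l₁ l₂ : List M.G), 1 ≤ ℓ → 1 ≤ S → S ≤ Λ * ℓ → (∀ x ∈ l₁ ++ l₂, x ∈ M.ballR Λ) →
      (l₁.length : ℝ) ≤ Λ * ℓ → (l₂.length : ℝ) ≤ Λ * ℓ →
      (∀ α, α ≠ 0 → ∀ X ∈ M.W α, ‖X‖ ≤ Real.exp (a * ℓ) →
        l₁.prod⁻¹ * M.exp X * l₁.prod ∈ M.ballR S ∨ l₂.prod⁻¹ * M.exp X * l₂.prod ∈ M.ballR S) →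
      M.lw M.E (M.Gv (a * ℓ)) {x | M.Low f.φ β (b * ℓ) (b * ℓ - B₁ * S) l₁ (p * x) ∧ M.Low f.φ β (b * ℓ) (b * ℓ - B₁ * S) l₂ (p * x)} ≤
        ENNReal.ofReal (B * Real.exp (-(c * ℓ))) := by
  by_cases hK : 1 ≤ K
  swap
  · exact ⟨1, le_rfl, fun Λ a ha => ⟨1, 1, 1, one_pos, one_pos, le_rfl, fun f => absurd f.one_le hK⟩⟩
  obtain ⟨B₁, hB₁, hhop⟩ := M.hop hK A
  refine ⟨B₁, hB₁, fun Λ a ha => ?_⟩
  obtain ⟨Bh, hBh, hhop⟩ := hhop Λ
  obtain ⟨m, v, e, γ, Ba, hγ, hBa, hv, hac⟩ := M.exists_ac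
  obtain ⟨cc, hcc, hch⟩ := M.exists_chain' m
  obtain ⟨Bs, cs, hBs, hcs, hsp⟩ := M.sp K A
  obtain ⟨Λ', hΛ', hlen⟩ := M.len_Box 1
  set b : ℝ := cs * γ * a / (4 * Bs) with hb
  have hb0 : 0 < b := by positivity
  set c1 : ℝ := min (cs * γ * a / 2) (γ * a) with hc1
  have hc10 : 0 < c1 := lt_min (by positivity) (by positivity)
  set c2 : ℝ := c1 / 2 / 2 ^ m with hc2
  have hc20 : 0 < c2 := by positivity
  have ev : ∀ᶠ ℓ : ℝ in atTop, 1 ≤ a * ℓ ∧ 1 ≤ γ * (a * ℓ) ∧ m * Bh * (3 * |Λ|) * (1 + ℓ) ^ 1 ≤ Real.exp (b * ℓ) ∧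
      (Bs + Ba) / cc * Real.exp (-c1 * ℓ) ≤ Real.exp (-(c1 / 2) * ℓ) ∧
      (2 * K * Λ' * a + 2 * K + 1) ^ k * (1 + ℓ) ^ k ≤ Real.exp (c2 / 2 * ℓ) := by
    refine ((tendsto_id.const_mul_atTop ha).eventually_ge_atTop 1).and
      ((((tendsto_id.const_mul_atTop ha).const_mul_atTop hγ).eventually_ge_atTop 1).and
        ((ev_poly_le _ 1 hb0).and ((ev_exp_le _ (by linarith)).and (ev_poly_le _ k (by positivity)))))
  obtain ⟨ℓ₀, hℓ₀⟩ := eventually_atTop.1 ev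
  refine ⟨b, c2 / 2, Real.exp (c2 / 2 * max ℓ₀ 0), hb0, by positivity, Real.one_le_exp (by positivity),
    fun f p ℓ S l₁ l₂ hℓ hS hSΛ hl h1 h2 hm => ?_⟩
  have : IsProbabilityMeasure (M.lw M.E (M.Gv (a * ℓ))) := by
    simpa using M.isProbabilityMeasure_lw_Gv (U := M.E) le_rfl one_pos (a * ℓ)
  rcases le_total ℓ ℓ₀ with hle | hle
  · refine prob_le_one.trans ?_
    rw [← Real.exp_add, ENNReal.one_le_ofReal]
    refine Real.one_le_exp ?_
    have := mul_le_mul_of_nonneg_left (hle.trans (le_max_left ℓ₀ 0)) (by positivity : 0 ≤ c2 / 2)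
    linarith
  obtain ⟨e1, e2, e3, e4, e5⟩ := hℓ₀ ℓ hle
  set ρ := a * ℓ with hρ
  set T₀ := {x | M.Low f.φ β (b * ℓ) (b * ℓ - B₁ * S) l₁ (p * x) ∧ M.Low f.φ β (b * ℓ) (b * ℓ - B₁ * S) l₂ (p * x)} with hT₀
  have mT₀ : MeasurableSet T₀ := (M.na_meas f.mφ _ _ _ _ _).inter (M.na_meas f.mφ _ _ _ _ _)
  have mG : MeasurableSet (M.exp '' M.Gv ρ) := ((M.isCompact_Gv ρ).image M.continuous_exp).measurableSet
  have hG : M.lw M.E (M.Gv ρ) (M.exp '' M.Gv ρ)ᶜ = 0 :=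
    measure_mono_null (compl_subset_compl.2 (image_mono inter_subset_right)) (M.lw_compl M.E (M.isCompact_Gv ρ))
  have mf : Measurable fun x => f.φ (p * x) := f.mφ.comp (measurable_const_mul p)
  have hK0 : 0 ≤ K := by linarith
  obtain ⟨t, ht⟩ := M.exists_class (M.lw M.E (M.Gv ρ)) mf (f.φ p) (r := K * (Λ' * ρ) + K) (by positivity)
    (T := T₀ ∩ M.exp '' M.Gv ρ) fun x hx => by
      have a1 := f.lφ.norm_cc x p
      have a2 : (M.len x : ℝ) ≤ Λ' * ρ := (hlen ρ e1).2 (by simpa using hx.2)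
      exact a1.trans (by gcongr)
  rw [measure_inter_conull hG] at ht
  set T := T₀ ∩ M.exp '' M.Gv ρ ∩ {x | M.tv (f.φ (p * x)) = t} with hT
  have mT : MeasurableSet T :=
    (mT₀.inter mG).inter ((M.continuous_tv.measurable.comp mf) (measurableSet_singleton t))
  have key : M.lw M.E (M.Gv ρ) T ≤ ENNReal.ofReal (Real.exp (-(c2 * ℓ))) := by
    by_cases h0 : M.lw M.E (M.Gv ρ) T = 0
    · rw [h0]; exact zero_le
    have hRρ : ∀ i, Real.exp (e i * ρ) * ‖v i‖ ≤ Real.exp ρ := fun i => by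
      obtain ⟨a1, -, a3, a4⟩ := hv i
      have : Real.exp (e i * ρ) ≤ Real.exp ρ := Real.exp_le_exp.2 (by nlinarith)
      nlinarith [Real.exp_pos (e i * ρ), norm_nonneg (v i)]
    obtain ⟨x, hx, hxc⟩ := hch v (fun i => Real.exp (e i * ρ)) ρ (fun i => by
      obtain ⟨-, ⟨α, hα, hW⟩, -⟩ := hv i
      exact ⟨M.W_le_E hα hW, Real.exp_pos _, hRρ i⟩) T mT (fun y hy => hy.1.2) h0
    have hΛ : Λ * ℓ ≤ |Λ| * (1 + ℓ) := by nlinarith [le_abs_self Λ, abs_nonneg Λ]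
    have c1' := M.na_core A v (fun i => Real.exp (e i * ρ)) f.φ p x T (t := t)
      (H := Bh * (3 * |Λ| * (1 + ℓ)) * Real.exp (b * ℓ)) (r := 2 * (b * ℓ)) (fun y hy => hy.2) (fun y hy i τ hτ hy' => by
        obtain ⟨-, ⟨α, hα, hW⟩, -⟩ := hv i
        have hn : ‖τ • v i‖ ≤ Real.exp ρ := by
          rw [norm_smul, Real.norm_eq_abs]
          exact (mul_le_mul_of_nonneg_right hτ (norm_nonneg _)).trans (hRρ i)
        have hchi : M.chi (f.φ (p * y * M.exp (τ • v i))) = M.chi (f.φ (p * y)) := by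
          ext j
          have a1 : M.tv (f.φ (p * y)) = t := hy.2
          have a2 : M.tv (f.φ (p * (y * M.exp (τ • v i)))) = t := hy'.2
          simp only [chi, mul_assoc, a1, a2]
        rw [← mul_assoc]
        rcases hm α hα _ (Submodule.smul_mem _ τ hW) hn with h3 | h3
        · refine (hhop f.φ (p * y) _ l₁ (b * ℓ) S f.lφ hS (fun z hz => hl z (List.mem_append_left _ hz)) h3 hchi
            hy.1.1.1.1 hy.1.1.1.2 (by rw [mul_assoc]; exact hy'.1.1.1.1)).trans ?_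
          gcongr
          linarith
        · refine (hhop f.φ (p * y) _ l₂ (b * ℓ) S f.lφ hS (fun z hz => hl z (List.mem_append_right _ hz)) h3 hchi
            hy.1.1.2.1 hy.1.1.2.2 (by rw [mul_assoc]; exact hy'.1.1.2.1)).trans ?_
          gcongr
          linarith) (by positivity) (by
        rw [two_mul, Real.exp_add]
        have := mul_le_mul_of_nonneg_right e3 (Real.exp_pos (b * ℓ)).le
        calc _ = m * Bh * (3 * |Λ|) * (1 + ℓ) ^ 1 * Real.exp (b * ℓ) := by ring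
          _ ≤ _ := this)
    have : IsProbabilityMeasure (boxL fun i => Real.exp (e i * ρ)) := boxL_prob fun i => Real.exp_pos _
    have : IsProbabilityMeasure (M.rwl v fun i => Real.exp (e i * ρ)) :=
      Measure.isProbabilityMeasure_map (μ := boxL fun i => Real.exp (e i * ρ)) (M.measurable_word' v).aemeasurable
    have c2' := M.na_avg A f (p * x) (f.φ (p * x)) (hac ρ e1) fun q =>
      hsp f q (f.φ (p * x)) (γ * ρ) (2 * (b * ℓ)) e2 (by positivity)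
    have c3 : ENNReal.ofReal cc * M.lw M.E (M.Gv ρ) T ^ 2 ^ m ≤
        ENNReal.ofReal cc * ENNReal.ofReal (Real.exp (-(c2 * ℓ))) ^ 2 ^ m := by
      refine (hxc.trans (c1'.trans c2')).trans ?_
      rw [← ENNReal.ofReal_add (by positivity) (by positivity), ← ENNReal.ofReal_pow (Real.exp_pos _).le,
        ← ENNReal.ofReal_mul hcc.le]
      refine ENNReal.ofReal_le_ofReal ?_
      have d1 : Real.exp (Bs * (2 * (b * ℓ)) - cs * (γ * ρ)) ≤ Real.exp (-c1 * ℓ) := by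
        refine Real.exp_le_exp.2 ?_
        have d2 : Bs * (2 * (b * ℓ)) = cs * γ * a / 2 * ℓ := by rw [hb]; field_simp; ring
        have d3 := mul_le_mul_of_nonneg_right (min_le_left (cs * γ * a / 2) (γ * a)) (by linarith : 0 ≤ ℓ)
        rw [d2, hρ]
        nlinarith
      have d4 : Real.exp (-(γ * ρ)) ≤ Real.exp (-c1 * ℓ) := by
        refine Real.exp_le_exp.2 ?_
        have d3 := mul_le_mul_of_nonneg_right (min_le_right (cs * γ * a / 2) (γ * a)) (by linarith : 0 ≤ ℓ)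
        rw [hρ]
        nlinarith
      have d5 : Real.exp (-(c2 * ℓ)) ^ 2 ^ m = Real.exp (-(c1 / 2) * ℓ) := by
        rw [← Real.exp_nat_mul, hc2]
        congr 1
        push_cast
        field_simp
      have d6 := mul_le_mul_of_nonneg_left e4 hcc.le
      rw [← mul_assoc, mul_div_cancel₀ _ hcc.ne'] at d6
      rw [d5]
      have d7 := mul_le_mul_of_nonneg_left d1 (by linarith : 0 ≤ Bs)
      have d8 := mul_le_mul_of_nonneg_left d4 (by linarith : 0 ≤ Ba)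
      linarith
    rw [ENNReal.mul_le_mul_iff_right (ENNReal.ofReal_pos.2 hcc).ne' ENNReal.ofReal_ne_top] at c3
    exact (ENNReal.pow_le_pow_left_iff (by positivity)).1 c3
  refine ht.trans ((mul_le_mul_right key _).trans ?_)
  rw [← ENNReal.ofReal_mul (by positivity)]
  refine ENNReal.ofReal_le_ofReal ?_
  have d1 : (2 * (K * (Λ' * ρ) + K) + 1) ^ k ≤ (2 * K * Λ' * a + 2 * K + 1) ^ k * (1 + ℓ) ^ k := by
    rw [← mul_pow]
    refine pow_le_pow_left₀ (by positivity) ?_ k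
    have : 0 ≤ K * Λ' * a := by positivity
    rw [hρ]
    nlinarith
  have d2 : 1 ≤ Real.exp (c2 / 2 * max ℓ₀ 0) := Real.one_le_exp (by positivity)
  calc _ ≤ Real.exp (c2 / 2 * ℓ) * Real.exp (-(c2 * ℓ)) := by gcongr; exact d1.trans e5
    _ = 1 * Real.exp (-(c2 / 2 * ℓ)) := by rw [← Real.exp_add, one_mul]; congr 1; ring
    _ ≤ _ := by gcongr

end Model

end Crest.Agent.R182
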