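import Crest.Agent.R182.B.Bx

/-! R182/B/PM: paths (public statements FROZEN). -/

set_option autoImplicit false
set_option linter.unusedVariables false
set_option linter.unusedSectionVars false
open Set Filter Topology MeasureTheory ProbabilityTheory Matrix Crest.GroupTheory
open scoped Pointwise commutatorElement ENNReal

noncomputable section
namespace Crest.Agent.R182

namespace Model
variable {h k : ℕ} (M : Model h k)

theorem pma_step {M : Model h k} {K Λ : ℝ} (hK : 0 ≤ K) {φ : M.G → M.G} (hφ : M.Lip K φ) (p : M.G) {x : M.G}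
    (hx : x ∈ M.ballR Λ) : (φ p)⁻¹ * φ (p * x) ∈ M.ballR (K * Λ + K) := by
  have h1 := hφ p (p * x)
  rw [inv_mul_cancel_left] at h1
  exact h1.trans (add_le_add (mul_le_mul_of_nonneg_left hx hK) le_rfl)

theorem pma_image {M : Model h k} {β : Fin k → ℝ} (A : M.Aff β) (K Λ : ℝ) (hK : 0 ≤ K) : ∃ B : ℝ, 1 ≤ B ∧
    ∀ (φ : M.G → M.G) (q : M.G) (l : List M.G) (r : ℝ), M.Lip K φ → (∀ x ∈ l, x ∈ M.ballR Λ) →
      (∀ l', l' <+: l → β ⬝ᵥ M.cc φ l'.prod q ≤ r) → ‖A.bb ((φ q)⁻¹ * φ (q * l.prod))‖ ≤ B * l.length * Real.exp r := by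
  obtain ⟨C, hC⟩ := (M.isCompact_ballR (K * Λ + K)).exists_bound_of_continuousOn A.continuous_bb.continuousOn
  refine ⟨max C 1, le_max_right _ _, fun φ q l r hφ => ?_⟩
  induction l using List.reverseRecOn with
  | nil =>
    intro _ _
    simp [A.bb_C M.C.one_mem]
  | append_singleton l x ih =>
    intro hl hr
    have h1 := ih (fun y hy => hl y (List.mem_append_left _ hy)) fun l' h' => hr l' (h'.trans (List.prefix_append _ _))
    have h2 := (hC _ (pma_step hK hφ (q * l.prod) (hl x (by simp)))).trans (le_max_left C 1)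
    have h3 : ‖(A.lam ((φ q)⁻¹ * φ (q * l.prod)) : ℂ)‖ ≤ Real.exp r := by
      rw [A.norm_lam, ← M.cc_eq]
      exact Real.exp_le_exp.2 (hr l (List.prefix_append _ _))
    have e : (φ q)⁻¹ * φ (q * (l ++ [x]).prod) =
        (φ q)⁻¹ * φ (q * l.prod) * ((φ (q * l.prod))⁻¹ * φ (q * l.prod * x)) := by
      simp [mul_assoc]
    rw [e, A.bb_mul]
    refine (norm_add_le _ _).trans ?_
    rw [norm_mul, List.length_append, List.length_singleton]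
    have h4 := mul_le_mul h3 h2 (norm_nonneg _) (Real.exp_pos r).le
    push_cast
    linarith

/-- AFF: `bb (l ++ [x]).prod = bb l.prod + lam l.prod * bb x`, and `bb` is bounded on `K ∪ K⁻¹` -/
theorem Aff.norm_bb_le {M : Model h k} {β : Fin k → ℝ} (A : M.Aff β) : ∃ B : ℝ, 1 ≤ B ∧ ∀ (l : List M.G) (r : ℝ), M.Wrd l →
    (∀ l', l' <+: l → β ⬝ᵥ M.chi l'.prod ≤ r) → ‖A.bb l.prod‖ ≤ B * l.length * Real.exp r := by
  obtain ⟨B, hB, h⟩ := pma_image A 1 1 zero_le_one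
  refine ⟨B, hB, fun l r hl hr => ?_⟩
  have h1 := h id 1 l r (fun x y => by simp) (fun x hx => ?_) fun l' h' => ?_
  · simpa using h1
  · have h2 := Wrd.len_le (M := M) (l := [x]) fun y hy => by rw [List.mem_singleton.1 hy]; exact hl x hx
    simp only [List.prod_cons, List.prod_nil, mul_one, List.length_singleton] at h2
    show (M.len x : ℝ) ≤ 1
    exact_mod_cast h2
  · rw [M.cc_eq]
    simpa using hr l' h'

/-- IMG: join the images of consecutive points `q * (l.take i).prod` by geodesic words (steps of length `≤ Λ`) -/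
theorem Lip.exists_image {M : Model h k} {K Λ : ℝ} (hK : 0 ≤ K) (hΛ : 0 ≤ Λ) {φ : M.G → M.G} (hφ : M.Lip K φ) (q : M.G) {l : List M.G}
    (hl : ∀ x ∈ l, x ∈ M.ballR Λ) : ∃ l₁, M.Wrd l₁ ∧ l₁.prod = (φ q)⁻¹ * φ (q * l.prod) ∧ (l₁.length : ℝ) ≤ (K * Λ + K) * l.length ∧
      ∀ i ≤ l₁.length, ∃ j ≤ l.length, (i : ℝ) ≤ (K * Λ + K) * (j + 1) ∧
        ‖M.chi (l₁.take i).prod - M.cc φ (l.take j).prod q‖ ≤ K * Λ + K := by
  have hc : 0 ≤ K * Λ + K := by positivity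
  induction l using List.reverseRecOn with
  | nil =>
    refine ⟨[], fun x hx => by simp at hx, by simp, by simp, fun i hi => ⟨0, le_rfl, ?_, ?_⟩⟩
    · obtain rfl : i = 0 := by simpa using hi
      simpa using hc
    · simpa [M.chi_one, M.cc_one] using hc
  | append_singleton l x ih =>
    obtain ⟨l₁, h1, h2, h3, h4⟩ := ih fun y hy => hl y (List.mem_append_left _ hy)
    obtain ⟨w, w1, w2, w3⟩ := M.exists_wrd ((φ (q * l.prod))⁻¹ * φ (q * l.prod * x))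
    have w4 : (w.length : ℝ) ≤ K * Λ + K := by
      rw [w2]
      exact pma_step hK hφ (q * l.prod) (hl x (by simp))
    have h5 : ((l₁ ++ w).length : ℝ) ≤ (K * Λ + K) * (l.length + 1) := by
      rw [List.length_append]
      push_cast
      linarith
    refine ⟨l₁ ++ w, h1.append w1, ?_, ?_, fun i hi => ?_⟩
    · rw [List.prod_append, h2, w3]
      simp [mul_assoc]
    · simpa using h5
    · by_cases hi' : i ≤ l₁.length
      · obtain ⟨j, hj, a1, a2⟩ := h4 i hi'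
        refine ⟨j, hj.trans (by simp), a1, ?_⟩
        rwa [List.take_append_of_le_length hi', List.take_append_of_le_length hj]
      · refine ⟨l.length, by simp, le_trans (by exact_mod_cast hi) h5, ?_⟩
        rw [List.take_append, List.take_of_length_le (not_le.1 hi').le, List.take_left', List.prod_append, M.chi_mul, h2,
          ← M.cc_eq, add_sub_cancel_left]
        · refine (M.norm_chi_le _).trans (le_trans ?_ w4)
          exact_mod_cast (w1.of_prefix (List.take_prefix _ _)).len_le.trans (List.length_take_le' _ _)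
        · rfl

/-- AFF for images -/
theorem Aff.norm_bb_image {M : Model h k} {β : Fin k → ℝ} (A : M.Aff β) (K Λ : ℝ) (hK : 0 ≤ K) (hΛ : 0 ≤ Λ) : ∃ B : ℝ, 1 ≤ B ∧
    ∀ (φ : M.G → M.G) (q : M.G) (l : List M.G) (r : ℝ), M.Lip K φ → (∀ x ∈ l, x ∈ M.ballR Λ) →
      (∀ l', l' <+: l → β ⬝ᵥ M.cc φ l'.prod q ≤ r) → ‖A.bb ((φ q)⁻¹ * φ (q * l.prod))‖ ≤ B * l.length * Real.exp r := by
  exact pma_image A K Λ hK

/-- the projection on the positive coordinates -/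
def pmbP (v : Fin k → ℝ) : V h →ₗ[ℝ] V h :=
  LinearMap.pi fun j => if 0 < M.wt j ⬝ᵥ v then LinearMap.proj j else 0

theorem pmbP_apply (v : Fin k → ℝ) (X : V h) (j : Fin h) : M.pmbP v X j = if 0 < M.wt j ⬝ᵥ v then X j else 0 := by
  simp only [pmbP, LinearMap.pi_apply]
  split_ifs <;> rfl

theorem pmb_W (v : Fin k → ℝ) {α : Fin k → ℝ} {X : V h} (hX : X ∈ M.W α) : M.pmbP v X = if 0 < α ⬝ᵥ v then X else 0 := by
  funext j
  rw [pmbP_apply]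
  by_cases hj : M.wt j = α
  · rw [hj]; split_ifs <;> rfl
  · have := M.mem_W.1 hX j hj
    split_ifs <;> simp [this]

theorem pmb_E {v : Fin k → ℝ} (hv : M.RegV v) {Y : V h} (hY : Y ∈ M.E) : Y - M.pmbP v Y ∈ M.mI v := by
  have hI : M.IsIdl (M.mI v) := M.isIdl_idl _
  have hW : ∀ α, α ⬝ᵥ v < 0 → M.W α ≤ M.mI v := fun α hα => M.W_le_idl hα
  have h0 : ∀ α, α ≠ 0 → α ⬝ᵥ v = 0 → ∀ X ∈ M.W α, X = 0 := fun α hα h X hX =>
    funext fun j => M.mem_W.1 hX j fun e => hv j (e ▸ hα) (e ▸ h)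
  refine (show M.E ≤ (M.mI v).comap (LinearMap.id - M.pmbP v) from ?_) hY
  rw [M.E_eq]
  refine iSup_le fun ⟨α, hα⟩ => sup_le (fun X hX => ?_) (Submodule.map₂_le.2 fun X hX Z hZ => ?_)
  · change X - M.pmbP v X ∈ M.mI v
    rw [M.pmb_W v hX]
    rcases lt_trichotomy (α ⬝ᵥ v) 0 with h | h | h
    · rw [if_neg h.not_gt, sub_zero]; exact hW α h hX
    · rw [if_neg h.not_gt, h0 α hα h X hX, sub_zero]; exact zero_mem _
    · rw [if_pos h, sub_self]; exact zero_mem _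
  · change M.br X Z - M.pmbP v (M.br X Z) ∈ M.mI v
    rw [M.pmb_W v (M.grading.br_W _ _ X hX Z hZ), add_neg_cancel, zero_dotProduct, if_neg (lt_irrefl _), sub_zero]
    rcases lt_trichotomy (α ⬝ᵥ v) 0 with h | h | h
    · rw [M.br_anti]; exact neg_mem (hI _ _ (hW α h hX))
    · rw [h0 α hα h X hX, map_zero, LinearMap.zero_apply]; exact zero_mem _
    · exact hI _ _ (hW (-α) (by rw [neg_dotProduct]; linarith) hZ)

theorem pmb_Ad : ∃ (B : ℝ) (D : ℕ), 1 ≤ B ∧ ∀ (v : Fin k → ℝ) (r : ℝ), ∀ c ∈ M.C,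
    (∀ j, 0 < M.wt j ⬝ᵥ v → M.wt j ⬝ᵥ M.chi c ≤ r) → ∀ Y, M.Ad c (M.pmbP v Y) ∈ M.npos v ∧
      ‖M.Ad c (M.pmbP v Y)‖ ≤ B * (1 + M.lenC c) ^ D * Real.exp r * ‖Y‖ := by
  obtain ⟨B, D, hB, hb⟩ := M.norm_Ad_C
  refine ⟨(h + 1) * B, D, one_le_mul_of_one_le_of_one_le (by simp) hB, fun v r c hc hr Y => ?_⟩
  rw [← Finset.univ_sum_single (M.pmbP v Y), map_sum]
  refine ⟨Submodule.sum_mem _ fun j _ => ?_, (norm_sum_le _ _).trans ((Finset.sum_le_card_nsmul _ _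
    (B * (1 + M.lenC c) ^ D * Real.exp r * ‖Y‖) fun j _ => ?_).trans ?_)⟩
  · rw [pmbP_apply]
    split_ifs with hj
    · exact Submodule.mem_iSup_of_mem ⟨_, hj⟩ (M.grading.C_W c hc _ _ (M.single_mem_W j _))
    · simp
  · rw [pmbP_apply]
    split_ifs with hj
    · refine (hb c hc _ _ (M.single_mem_W j _)).trans ?_
      rw [Pi.norm_single]
      gcongr
      · exact hr j hj
      · exact norm_le_pi_norm Y j
    · simp only [Pi.single_zero, map_zero, norm_zero]; positivity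
  · rw [Finset.card_univ, Fintype.card_fin, nsmul_eq_mul]
    have : 0 ≤ B * (1 + M.lenC c) ^ D * Real.exp r * ‖Y‖ := by positivity
    nlinarith

theorem pmb_list {U : Submodule ℝ (V h)} (hU : M.GI U) {P : V h → Prop} (u : List (V h))
    (hu : ∀ X ∈ u, ∃ X', P X' ∧ X - X' ∈ U) : ∃ u' : List (V h), u'.length = u.length ∧ (∀ X ∈ u', P X) ∧
      ((u'.map M.exp).prod)⁻¹ * (u.map M.exp).prod ∈ M.expSub U := by
  induction u with
  | nil => exact ⟨[], rfl, by simp, by simp⟩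
  | cons X u ih =>
    obtain ⟨u', h1, h2, h3⟩ := ih fun Y hY => hu Y (List.mem_cons_of_mem _ hY)
    obtain ⟨X', h4, h5⟩ := hu X List.mem_cons_self
    refine ⟨X' :: u', by simp [h1], List.forall_mem_cons.2 ⟨h4, h2⟩, ?_⟩
    have h6 := M.conj_mem_expSub hU.idl.isSub (hU.Ad ((u'.map M.exp).prod)⁻¹) ((M.inv_mul_mem_expSub hU.idl).2 h5)
    convert mul_mem h6 h3 using 1
    simp only [List.map_cons, List.prod_cons]
    group

/-- PM.  Modulo the normal subgroup `exp (mI v)` a letter `exp X` is `exp Y * exp X₀`, `X₀` the `W 0`-component, `X₊` the `npos`-component,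
`Y = bch (X₊ + X₀) (-X₀) ∈ npos v` (`inv_mul_mem_expSub`, `bch_sub_mem`).  Move the `C`-parts to the right; `norm_Ad_C`, `norm_prod_le`. -/
theorem exists_pm : ∃ (B : ℝ) (D : ℕ), 1 ≤ B ∧ ∀ v, M.RegV v → ∀ (l : List M.G) (r : ℝ), 0 ≤ r → M.Wrd l →
    (∀ l', l' <+: l → ∀ j, 0 < M.wt j ⬝ᵥ v → M.wt j ⬝ᵥ M.chi l'.prod ≤ r) →
    ∃ Y ∈ M.npos v, ∃ Z ∈ M.mI v, ∃ lc, M.WrdC lc ∧ lc.length = l.length ∧
      (∀ i, M.chi (lc.take i).prod = M.chi (l.take i).prod) ∧ ‖Y‖ ≤ B * (1 + l.length) ^ D * Real.exp (D * r) ∧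
      l.prod = M.exp Y * M.exp Z * lc.prod := by
  obtain ⟨B₀, hB₀, h₀⟩ := M.exists_split
  obtain ⟨B₁, D₁, hB₁, h₁⟩ := M.pmb_Ad
  obtain ⟨B₂, D₂, hB₂, h₂⟩ := M.norm_prod_le
  refine ⟨B₂ * (B₁ * B₀) ^ D₂, (D₁ + 1) * D₂, one_le_mul_of_one_le_of_one_le hB₂
    (one_le_pow₀ (one_le_mul_of_one_le_of_one_le hB₁ hB₀)), fun v hv l r hr hl hb => ?_⟩
  obtain ⟨lc, u, c1, c2, c3, c4, c5, c6⟩ := h₀ l hl
  have hn : (1 : ℝ) ≤ 1 + l.length := by simp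
  have hS : M.IsSub (M.npos v) := M.isSub_of_add (p := fun α => 0 < α ⬝ᵥ v) fun α β h1 h2 => by
    rw [add_dotProduct]; positivity
  obtain ⟨u', d1, d2, d3⟩ := M.pmb_list (M.gi_mI v)
    (P := fun X => X ∈ M.npos v ∧ ‖X‖ ≤ B₁ * (1 + l.length) ^ D₁ * Real.exp r * B₀) u fun X hX => by
      obtain ⟨i, Y, hY, hY', rfl⟩ := c5 X hX
      have hw : M.WrdC (lc.take i) := fun x hx => c1 x (List.mem_of_mem_take hx)
      obtain ⟨m1, m2⟩ := hw.prod_mem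
      obtain ⟨e1, e2⟩ := h₁ v r _ m1 (fun j hj => by rw [c4]; exact hb _ (List.take_prefix i l) j hj) Y
      refine ⟨_, ⟨e1, e2.trans ?_⟩, by rw [← map_sub]; exact (M.gi_mI v).Ad _ _ (M.pmb_E hv hY)⟩
      have : ((lc.take i).length : ℝ) ≤ l.length := by exact_mod_cast c2 ▸ List.length_take_le' i lc
      gcongr
      exact_mod_cast m2.trans this
  obtain ⟨Y, y1, y2⟩ := h₂ (B₁ * (1 + l.length) ^ D₁ * Real.exp r * B₀) u' (one_le_mul_of_one_le_of_one_le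
    (one_le_mul_of_one_le_of_one_le (one_le_mul_of_one_le_of_one_le hB₁ (one_le_pow₀ hn)) (Real.one_le_exp hr)) hB₀)
    fun X hX => (d2 X hX).2
  obtain ⟨Z, z1, z2⟩ := (M.mem_expSub (M.gi_mI v).idl.isSub).1 d3
  refine ⟨Y, ?_, Z, z1, lc, c1, c2, c4, y1.trans ?_, by rw [c6, z2, ← y2, mul_inv_cancel_left]⟩
  · rw [← M.exp_mem_expSub hS, ← y2]
    refine Subgroup.list_prod_mem _ fun x hx => ?_
    obtain ⟨X, hX, rfl⟩ := List.mem_map.1 hx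
    exact (M.exp_mem_expSub hS).2 (d2 X hX).1
  · rw [d1, c3, show (1 + (l.length : ℝ)) * (B₁ * (1 + l.length) ^ D₁ * Real.exp r * B₀) =
      B₁ * B₀ * (1 + l.length) ^ (D₁ + 1) * Real.exp r by ring, mul_pow, mul_pow, ← pow_mul, ← Real.exp_nat_mul,
      ← mul_assoc, ← mul_assoc]
    gcongr
    exact Nat.le_mul_of_pos_left _ (Nat.succ_pos _)

omit M in
theorem pmc_exp {B K c : ℝ} (hB : 0 ≤ B) (D : ℕ) (hK : 0 ≤ K) (hc : 0 ≤ c) : ∃ C : ℝ, 1 ≤ C ∧ ∀ r : ℝ, 1 ≤ r → ∀ n m : ℝ,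
    0 ≤ n → 0 ≤ m → m ≤ K * n → B * (1 + m) ^ D * Real.exp (D * (r + c)) ≤ Real.exp (C * (r + Real.log (1 + n))) := by
  have hD : (0 : ℝ) ≤ D := D.cast_nonneg
  have hDK := mul_nonneg hD hK
  have hDc := mul_nonneg hD hc
  refine ⟨B + D * K + D * c + D + 1, by linarith, fun r hr n m hn hm hmn => ?_⟩
  have hL : 0 ≤ Real.log (1 + n) := Real.log_nonneg (by linarith)
  have h1 : 1 + m ≤ Real.exp (K + Real.log (1 + n)) := by
    rw [Real.exp_add, Real.exp_log (by linarith)]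
    have := Real.add_one_le_exp K
    nlinarith
  have h2 : B ≤ Real.exp B := by have := Real.add_one_le_exp B; linarith
  calc B * (1 + m) ^ D * Real.exp (D * (r + c))
      ≤ Real.exp B * Real.exp (K + Real.log (1 + n)) ^ D * Real.exp (D * (r + c)) := by gcongr
    _ = Real.exp (B + D * (K + Real.log (1 + n)) + D * (r + c)) := by
      rw [← Real.exp_nat_mul, ← Real.exp_add, ← Real.exp_add]
    _ ≤ _ := Real.exp_le_exp.2 (by
      have h3 : 0 ≤ (B + D * K + D * c) * (r + Real.log (1 + n) - 1) := mul_nonneg (by linarith) (by linarith)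
      nlinarith)

/-- PMQ: `Lip.exists_image`, `exists_pm`, `norm_lgm_C`, `Qb_calc` -/
theorem exists_pmq (K : ℝ) (hK : 0 ≤ K) : ∃ B : ℝ, 1 ≤ B ∧ ∀ (φ : M.G → M.G) (v : Fin k → ℝ) (q : M.G) (l : List M.G) (r : ℝ), M.Lip K φ →
    M.RegV v → M.Wrd l → 1 ≤ r → (∀ l', l' <+: l → ∀ j, 0 < M.wt j ⬝ᵥ v → M.wt j ⬝ᵥ M.cc φ l'.prod q ≤ r) →
    ‖M.cc φ l.prod q‖ ≤ r → M.G1 φ (M.mI v) (B * (r + Real.log (1 + l.length))) q l.prod := by
  obtain ⟨B₁, D₁, hB₁, h1⟩ := M.exists_pm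
  obtain ⟨B₂, D₂, hB₂, h2⟩ := M.norm_lgm_C
  obtain ⟨B₃, hB₃, h3⟩ := M.Qb_calc
  have hA : ∃ A : ℝ, 0 ≤ A ∧ ∀ j (a : Fin k → ℝ), M.wt j ⬝ᵥ a ≤ A * ‖a‖ := by
    refine ⟨(∑ j, nm (M.wt j)) * k, mul_nonneg (Finset.sum_nonneg fun j _ => nm_nonneg _) k.cast_nonneg, fun j a => ?_⟩
    refine (le_abs_self _).trans ((abs_dot_le _ _).trans ?_)
    rw [mul_assoc]
    exact mul_le_mul_of_nonneg_right (Finset.single_le_sum (f := fun j => nm (M.wt j)) (fun j _ => nm_nonneg _)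
      (Finset.mem_univ j)) (by positivity)
  obtain ⟨A, hA0, hA⟩ := hA
  have hK2 : 0 ≤ K * 1 + K := by positivity
  obtain ⟨C₁, hC₁, h4⟩ := pmc_exp (zero_le_one.trans hB₁) D₁ hK2 (mul_nonneg hA0 hK2)
  obtain ⟨C₂, hC₂, h5⟩ := pmc_exp (zero_le_one.trans hB₂) D₂ hK2 le_rfl
  refine ⟨B₃ * (C₁ + C₂), by nlinarith, fun φ v q l r hφ hv hl hr hp hc => ?_⟩
  obtain ⟨l₁, hl₁, e₁, hn, hi⟩ := hφ.exists_image hK zero_le_one q (l := l) fun x hx => by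
    have := M.apipolyb_len (hl x hx)
    change (M.len x : ℝ) ≤ 1
    exact_mod_cast this
  obtain ⟨Y, -, Z, hZ, lc, hlc, hlen, hchi, hY, e₂⟩ := h1 v hv l₁ (r + A * (K * 1 + K)) (by positivity) hl₁
    fun l' hl' j hj => by
      obtain ⟨i, -, -, h6⟩ := hi l'.length hl'.length_le
      rw [← List.prefix_iff_eq_take.1 hl'] at h6
      have h7 := hp _ (List.take_prefix i l) j hj
      have h8 := (hA j _).trans (mul_le_mul_of_nonneg_left h6 hA0)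
      rw [dotProduct_sub] at h8
      linarith
  have hL : 0 ≤ Real.log (1 + l.length) := Real.log_nonneg (by simp)
  have hs : 1 ≤ r + Real.log (1 + l.length) := by linarith
  have hs1 : r + Real.log (1 + l.length) ≤ (C₁ + C₂) * (r + Real.log (1 + l.length)) := by nlinarith
  have hc1 := hlc.prod_mem
  have hQ1 : M.exp Y ∈ M.Qb ((C₁ + C₂) * (r + Real.log (1 + l.length))) := by
    refine (M.exp_mem_Qb (by linarith)).2 (hY.trans ((h4 r hr _ _ (by positivity) (by positivity) hn).trans ?_))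
    exact Real.exp_le_exp.2 (by nlinarith)
  have hQ2 : lc.prod ∈ M.Qb ((C₁ + C₂) * (r + Real.log (1 + l.length))) := by
    constructor
    · refine (h2 _ hc1.1).trans (le_trans ?_ ((h5 r hr l.length (M.lenC lc.prod) (by positivity) (by positivity)
        (hc1.2.trans (hlen ▸ hn))).trans (Real.exp_le_exp.2 (by nlinarith))))
      exact le_mul_of_one_le_right (by positivity) (Real.one_le_exp (by positivity))
    · have h6 := hchi l₁.length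
      rw [List.take_length, ← hlen, List.take_length, e₁, ← M.cc_eq] at h6
      rw [h6]
      linarith
  refine ⟨M.exp (M.Ad (M.exp Y) Z), Subgroup.subset_closure ⟨_, (M.gi_mI v).Ad _ _ hZ, rfl⟩, M.exp Y * lc.prod, ?_, ?_⟩
  · rw [mul_assoc]
    exact (h3 _ (hs.trans hs1)).1 _ hQ1 _ hQ2
  · rw [← e₁, e₂, M.mul_exp (M.exp Y) Z, mul_assoc]

theorem _root_.Crest.Agent.R182.pmd_span (S : Set (V h)) : ∃ (m : ℕ) (D : ℝ) (f : Fin m → V h), 0 ≤ D ∧ (∀ i, f i ∈ S) ∧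
    ∀ X ∈ Submodule.span ℝ S, ∃ c : Fin m → ℝ, (∀ i, |c i| ≤ D * ‖X‖) ∧ X = ∑ i, c i • f i := by
  obtain ⟨f, hf, hsp, hli⟩ := Submodule.exists_fun_fin_finrank_span_eq ℝ S
  obtain ⟨T, hT⟩ := LinearMap.exists_leftInverse_of_injective (Fintype.linearCombination ℝ f)
    (LinearMap.ker_eq_bot.2 (linearIndependent_iff_injective_fintypeLinearCombination.1 hli))
  refine ⟨_, ‖LinearMap.toContinuousLinearMap T‖, f, norm_nonneg _, hf, fun X hX => ?_⟩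
  rw [← hsp, Submodule.mem_span_range_iff_exists_fun] at hX
  obtain ⟨c, rfl⟩ := hX
  refine ⟨c, fun i => ?_, rfl⟩
  have e : T (∑ i, c i • f i) = c := LinearMap.congr_fun hT c
  calc |c i| ≤ ‖c‖ := norm_le_pi_norm c i
    _ = ‖LinearMap.toContinuousLinearMap T (∑ i, c i • f i)‖ := congrArg _ e.symm
    _ ≤ _ := ContinuousLinearMap.le_opNorm _ _

theorem _root_.Crest.Agent.R182.pmd_time {B L a : ℝ} (D : ℕ) (hB : 1 ≤ B) (hL : 0 ≤ L) (ha : 0 < a) : ∃ Λ : ℝ, 1 ≤ Λ ∧ ∀ R : ℝ, 1 ≤ R →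
    ∃ j : ℕ, (j : ℝ) ≤ Λ * R ∧ B * (1 + j * L) ^ D * Real.exp (-(j * a)) * Real.exp R ≤ 1 := by
  set ε : ℝ := a / (2 * (D + 1)) with hε
  have hε0 : 0 < ε := by positivity
  set C : ℝ := B * (1 + L / ε) ^ D with hC
  have hC1 : 1 ≤ C := one_le_mul_of_one_le_of_one_le hB (one_le_pow₀ (by have := div_nonneg hL hε0.le; linarith))
  have hl : 0 ≤ Real.log C := Real.log_nonneg hC1
  refine ⟨2 / a * (1 + Real.log C) + 1, by have : 0 ≤ 2 / a * (1 + Real.log C) := by positivity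
                                           linarith, fun R hR => ⟨⌈2 / a * (1 + Real.log C) * R⌉₊, ?_, ?_⟩⟩
  · have := (Nat.ceil_lt_add_one (show 0 ≤ 2 / a * (1 + Real.log C) * R by positivity)).le
    linarith
  set j : ℕ := ⌈2 / a * (1 + Real.log C) * R⌉₊
  have hj : 2 / a * (1 + Real.log C) * R ≤ j := Nat.le_ceil _
  have hj0 : (0 : ℝ) ≤ j := Nat.cast_nonneg _
  have h1 : 1 + j * L ≤ (1 + L / ε) * Real.exp (ε * j) := by
    have e1 : L / ε * (ε * j) = j * L := by field_simp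
    have e2 : 0 ≤ L / ε := by positivity
    have e3 : 0 ≤ ε * j := by positivity
    calc 1 + j * L ≤ (1 + L / ε) * (ε * j + 1) := by nlinarith
      _ ≤ _ := mul_le_mul_of_nonneg_left (Real.add_one_le_exp _) (by positivity)
  have h2 : (1 + j * L) ^ D ≤ (1 + L / ε) ^ D * Real.exp (j * a / 2) := by
    refine (pow_le_pow_left₀ (by positivity) h1 D).trans ?_
    rw [mul_pow, ← Real.exp_nat_mul]
    refine mul_le_mul_of_nonneg_left (Real.exp_le_exp.2 ?_) (by positivity)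
    have e1 : ε * (D + 1) = a / 2 := by rw [hε]; field_simp
    nlinarith [mul_nonneg hε0.le hj0]
  have h3 : (1 + Real.log C) * R ≤ j * a / 2 := by
    have := mul_le_mul_of_nonneg_right hj (half_pos ha).le
    have e1 : 2 / a * (1 + Real.log C) * R * (a / 2) = (1 + Real.log C) * R := by field_simp
    linarith
  calc B * (1 + j * L) ^ D * Real.exp (-(j * a)) * Real.exp R
      ≤ B * ((1 + L / ε) ^ D * Real.exp (j * a / 2)) * Real.exp (-(j * a)) * Real.exp R := by gcongr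
    _ = Real.exp (Real.log C + j * a / 2 + -(j * a) + R) := by
        rw [Real.exp_add, Real.exp_add, Real.exp_add, Real.exp_log (by linarith), hC]; ring
    _ ≤ 1 := Real.exp_le_one_iff.2 (by nlinarith)

theorem pmd_idl (𝒜 : Set (Fin k → ℝ)) : M.idl 𝒜 ≤ Submodule.span ℝ
    {X | ∃ α ∈ 𝒜, α ∈ range M.wt ∧ ∃ Y ∈ M.W α, ‖Y‖ ≤ 1 ∧ ∃ l : List (V h), (∀ Z ∈ l, ‖Z‖ ≤ 1) ∧ X = M.nb l Y} := by
  have hn : ∀ Z : V h, ‖(1 + ‖Z‖)⁻¹ • Z‖ ≤ 1 ∧ Z = (1 + ‖Z‖) • (1 + ‖Z‖)⁻¹ • Z := fun Z => by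
    have h0 : 0 < 1 + ‖Z‖ := by positivity
    refine ⟨?_, by rw [smul_inv_smul₀ h0.ne']⟩
    rw [norm_smul, norm_inv, Real.norm_of_nonneg h0.le, inv_mul_le_iff₀ h0]
    linarith
  refine sInf_le ⟨fun Z X hX => ?_, fun α hα Y hY => ?_⟩
  · induction hX using Submodule.span_induction with
    | mem X hX =>
      obtain ⟨α, hα, hr, Y, hY, hY1, l, hl, rfl⟩ := hX
      rw [(hn Z).2, map_smul, LinearMap.smul_apply]
      refine Submodule.smul_mem _ _ (Submodule.subset_span ⟨α, hα, hr, Y, hY, hY1, ((1 + ‖Z‖)⁻¹ • Z) :: l, fun W hW => ?_, rfl⟩)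
      rcases List.mem_cons.1 hW with rfl | hW
      · exact (hn Z).1
      · exact hl W hW
    | zero => rw [map_zero]; exact Submodule.zero_mem _
    | add X X' _ _ h1 h2 => rw [map_add]; exact Submodule.add_mem _ h1 h2
    | smul a X _ h1 => rw [map_smul]; exact Submodule.smul_mem _ _ h1
  · by_cases hb : M.W α = ⊥
    · rw [hb, Submodule.mem_bot] at hY
      rw [hY]
      exact Submodule.zero_mem _
    · rw [(hn Y).2]
      exact Submodule.smul_mem _ _ (Submodule.subset_span ⟨α, hα, M.W_ne_bot.1 hb, _, Submodule.smul_mem _ _ hY, (hn Y).1, [],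
        by simp, rfl⟩)

theorem pmd_unif (𝒜 : Set (Fin k → ℝ)) (t : (Fin k → ℝ) → M.G) (ht : ∀ α ∈ 𝒜, t α ∈ M.C ∧ 0 < α ⬝ᵥ M.chi (t α)) :
    ∃ a L : ℝ, 0 < a ∧ 0 ≤ L ∧ ∀ α ∈ 𝒜, α ∈ range M.wt → a ≤ α ⬝ᵥ M.chi (t α) ∧ (M.lenC (t α) : ℝ) ≤ L := by
  have hf : (𝒜 ∩ range M.wt).Finite := (Set.finite_range _).subset inter_subset_right
  obtain ⟨L, hL⟩ := (hf.image fun α => (M.lenC (t α) : ℝ)).bddAbove
  obtain ⟨A, hA⟩ := (hf.image fun α => (α ⬝ᵥ M.chi (t α))⁻¹).bddAbove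
  refine ⟨(max A 1)⁻¹, max L 0, by positivity, le_max_right _ _, fun α hα hr =>
    ⟨?_, (hL (mem_image_of_mem _ ⟨hα, hr⟩)).trans (le_max_left _ _)⟩⟩
  exact inv_le_of_inv_le₀ (ht α hα).2 ((hA (mem_image_of_mem _ ⟨hα, hr⟩)).trans (le_max_left _ _))

/-- GREACH, piece form.  With `𝒱 R = closedBall 0 1 ∪ {X ∈ W α, α ∈ 𝒜, ‖X‖ ≤ exp R}`: the nested brackets of unit vectors with innermost letter in some `W α`
span `idl 𝒜`, so `idl 𝒜 ∩ closedBall 0 (exp R) ⊆ D • Qi (𝒱 R) 1`; `exists_reach`; `X = Ad (t α ^ j) X'` with `‖X'‖ ≤ 1` for `j ≈ Λ R` (`norm_Ad_C`). -/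
theorem exists_pieces (𝒜 : Set (Fin k → ℝ)) (t : (Fin k → ℝ) → M.G) (ht : ∀ α ∈ 𝒜, t α ∈ M.C ∧ 0 < α ⬝ᵥ M.chi (t α)) :
    ∃ (Λ : ℝ) (N : ℕ), 1 ≤ Λ ∧ ∀ R : ℝ, 1 ≤ R → ∀ X ∈ M.idl 𝒜, ‖X‖ ≤ Real.exp R → ∃ u : List M.G, u.length ≤ N ∧ u.prod = M.exp X ∧
      ∀ y ∈ u, (∃ Y, ‖Y‖ ≤ 1 ∧ y = M.exp Y) ∨ ∃ α ∈ 𝒜, α ∈ range M.wt ∧ ∃ Y ∈ M.W α, ‖Y‖ ≤ 1 ∧ ∃ j : ℕ, (j : ℝ) ≤ Λ * R ∧
        y = t α ^ j * M.exp Y * (t α ^ j)⁻¹ := by
  obtain ⟨m, D₀, f, hD₀, hf, hsp⟩ := pmd_span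
    {X | ∃ α ∈ 𝒜, α ∈ range M.wt ∧ ∃ Y ∈ M.W α, ‖Y‖ ≤ 1 ∧ ∃ l : List (V h), (∀ Z ∈ l, ‖Z‖ ≤ 1) ∧ X = M.nb l Y}
  obtain ⟨N, hN⟩ := M.exists_reach (∑ _i : Fin m, D₀)
  obtain ⟨B, D, hB, hAd⟩ := M.norm_Ad_C
  obtain ⟨a, L, ha, hL, hu⟩ := M.pmd_unif 𝒜 t ht
  obtain ⟨Λ, hΛ, hj⟩ := pmd_time D hB hL ha
  refine ⟨Λ, N, hΛ, fun R hR X hX hXR => ?_⟩
  obtain ⟨j, hj1, hj2⟩ := hj R hR
  have he := Real.exp_pos R
  set 𝒱 : Set (V h) := {Y | ‖Y‖ ≤ 1 ∨ ∃ α ∈ 𝒜, α ∈ range M.wt ∧ Y ∈ M.W α ∧ ‖Y‖ ≤ Real.exp R} with h𝒱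
  have hs : Star 𝒱 := ⟨Or.inl (by simp), by
    rintro b hb v (hv | ⟨α, hα, hr, hv, hv'⟩)
    · exact Or.inl (bxb_norm hb hv)
    · exact Or.inr ⟨α, hα, hr, Submodule.smul_mem _ _ hv, bxb_norm hb hv'⟩⟩
  obtain ⟨c, hc, hXc⟩ := hsp X (M.pmd_idl 𝒜 hX)
  have hIn : M.In 𝒱 1 (∑ _i : Fin m, D₀) X := by
    rw [hXc]
    refine Core.In.sum hs _ (fun _ _ => hD₀) fun i _ => ?_
    obtain ⟨α, hα, hr, Y, hY, hY1, l, hl, e⟩ := hf i
    have h1 : M.In 𝒱 1 1 (M.nb l (Real.exp R • Y)) := Core.In.of_Nb ⟨_, Or.inr ⟨α, hα, hr, Submodule.smul_mem _ _ hY, by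
      rw [norm_smul, Real.norm_of_nonneg he.le]; exact mul_le_of_le_one_right he.le hY1⟩, l, by omega,
      fun Z hZ => Or.inl (hl Z hZ), rfl⟩
    have h2 := h1.smul_abs hs zero_le_one (c i / Real.exp R)
    rw [Core.nb_smul, smul_smul, div_mul_cancel₀ _ he.ne', ← e] at h2
    refine h2.mono hs (by positivity) ?_
    rw [mul_one, abs_div, abs_of_pos he, div_le_iff₀ he]
    exact (hc i).trans (mul_le_mul_of_nonneg_left hXR hD₀)
  obtain ⟨l, hl1, hl2, hl3⟩ := hN 𝒱 hs X hIn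
  refine ⟨l.map M.exp, by simpa using hl1, hl3, fun y hy => ?_⟩
  obtain ⟨v, hv, rfl⟩ := List.mem_map.1 hy
  rcases hl2 v hv with hv | ⟨α, hα, hr, hv, hv'⟩
  · exact Or.inl ⟨v, hv, rfl⟩
  have hC : (t α ^ j)⁻¹ ∈ M.ballCR (j * L) := M.inv_mem_ballCR (M.pow_mem_ballCR ⟨(ht α hα).1, (hu α hα hr).2⟩ j)
  refine Or.inr ⟨α, hα, hr, M.Ad (t α ^ j)⁻¹ v, M.grading.C_W _ hC.1 α v hv, ?_, j, hj1, ?_⟩
  · refine (hAd _ hC.1 α v hv).trans (le_trans ?_ hj2)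
    have h1 : α ⬝ᵥ M.chi (t α ^ j)⁻¹ ≤ -(j * a) := by
      rw [M.chi_inv, M.chi_pow, dotProduct_neg, dotProduct_smul, smul_eq_mul, neg_le_neg_iff]
      exact mul_le_mul_of_nonneg_left (hu α hα hr).1 (Nat.cast_nonneg _)
    have h2 := hC.2
    have h3 : (0 : ℝ) ≤ B := by linarith
    gcongr
  · rw [← M.conj]
    group

omit M in
theorem pme_prefix {G : Type*} {a b l : List G} (hl : l <+: a ++ b) : l <+: a ∨ ∃ l', l' <+: b ∧ l = a ++ l' := by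
  rcases List.prefix_or_prefix_of_prefix hl (List.prefix_append a b) with h1 | ⟨l', rfl⟩
  · exact Or.inl h1
  · exact Or.inr ⟨l', (List.prefix_append_right_inj a).1 hl, rfl⟩

theorem pme_prod (c : ℝ) (hc : 1 ≤ c) (N : ℕ) : ∃ Λ : ℝ, 1 ≤ Λ ∧ ∀ R : ℝ, 1 ≤ R → ∀ u : List M.G, u.length ≤ N →
    (∀ y ∈ u, y ∈ M.ballR 1 ∨ ∃ Z ∈ M.E, ‖Z‖ ≤ Real.exp (c * R) ∧ y = M.exp Z) →
    ∃ Y ∈ M.E, ‖Y‖ ≤ Real.exp (Λ * R) ∧ ∃ s ∈ M.ballR Λ, u.prod = M.exp Y * s := by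
  obtain ⟨B, hB, hAd⟩ := M.exists_norm_Ad_le
  obtain ⟨E, hE, hb⟩ := M.vd_bch
  have h0 : ∀ Λ R : ℝ, 1 ≤ Λ → ∃ Y ∈ M.E, ‖Y‖ ≤ Real.exp (Λ * R) ∧ ∃ s ∈ M.ballR Λ, ([] : List M.G).prod = M.exp Y * s :=
    fun Λ R hΛ => ⟨0, zero_mem _, by rw [norm_zero]; positivity, 1, M.one_mem_ballR (by linarith), by
      rw [M.exp_zero, one_mul, List.prod_nil]⟩
  induction N with
  | zero => exact ⟨1, le_rfl, fun R hR u hu _ => by rw [List.length_eq_zero_iff.1 (Nat.le_zero.1 hu)]; exact h0 1 R le_rfl⟩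
  | succ N ih =>
    obtain ⟨Λ, hΛ, ih⟩ := ih
    have h1 : Λ + c + B ≤ E * (Λ + c + B) := le_mul_of_one_le_left (by linarith) hE
    refine ⟨E * (Λ + c + B), by linarith, fun R hR u hu hy => ?_⟩
    cases u with
    | nil => exact h0 _ R (by linarith)
    | cons y u =>
      obtain ⟨Y, hY, hn, s, hs, e⟩ := ih R hR u (by simpa using hu) fun z hz => hy z (by simp [hz])
      rw [List.prod_cons, e]
      rcases hy y (by simp) with h2 | ⟨Z, hZ, hZn, rfl⟩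
      · refine ⟨M.Ad y Y, M.Ad_E y hY, (hAd y Y).trans ?_, y * s, M.ballR_mono (by linarith) (M.mul_mem_ballR h2 hs), by
          rw [← mul_assoc, M.mul_exp, mul_assoc]⟩
        refine (mul_le_mul_of_nonneg_left hn (Real.exp_pos _).le).trans ?_
        rw [← Real.exp_add, Real.exp_le_exp]
        have h3 : B * M.len y ≤ B * R := mul_le_mul_of_nonneg_left (le_trans h2 hR) hB
        nlinarith [mul_le_mul_of_nonneg_right h1 (zero_le_one.trans hR)]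
      · refine ⟨M.bch Z Y, Core.IsSub.bch_mem _ (Core.IsIdl.isSub _ M.isIdl_E) hZ hY, ?_, s, M.ballR_mono (by linarith) hs, by
          rw [← mul_assoc, M.exp_bch]⟩
        rw [mul_assoc]
        exact hb _ Z Y (by nlinarith) (hZn.trans (Real.exp_le_exp.2 (by nlinarith)))
          (hn.trans (Real.exp_le_exp.2 (by nlinarith)))

theorem pme_pow (x : M.G) (j : ℕ) : ∃ l, M.Wrd l ∧ l.length = j * M.len x ∧ l.prod = x ^ j ∧
    ∀ l', l' <+: l → ∃ i ≤ j, ∃ s ∈ M.ballR (M.len x), l'.prod = x ^ i * s := by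
  obtain ⟨w, hw, hl, hp⟩ := M.exists_wrd x
  induction j with
  | zero =>
    refine ⟨[], fun _ h => by simp at h, by simp, by simp, fun l' h' => ⟨0, le_rfl, 1, M.one_mem_ballR (Nat.cast_nonneg _), ?_⟩⟩
    simp [List.prefix_nil.1 h']
  | succ j ih =>
    obtain ⟨l, h1, h2, h3, h4⟩ := ih
    refine ⟨w ++ l, hw.append h1, by rw [List.length_append, hl, h2]; ring, by rw [List.prod_append, hp, h3, pow_succ'],
      fun l' h' => ?_⟩
    rcases pme_prefix h' with h5 | ⟨l'', h5, rfl⟩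
    · refine ⟨0, Nat.zero_le _, l'.prod, ?_, by simp⟩
      exact (Nat.cast_le (α := ℝ)).2 ((hw.of_prefix h5).len_le.trans (hl ▸ h5.length_le))
    · obtain ⟨i, hi, s, hs, e⟩ := h4 l'' h5
      exact ⟨i + 1, by omega, s, hs, by rw [List.prod_append, hp, e, pow_succ', mul_assoc]⟩

theorem pme_piece (x : M.G) (j : ℕ) {Y : V h} (hY : ‖Y‖ ≤ 1) : ∃ l, M.Wrd l ∧ l.length = 2 * (j * M.len x) + 1 ∧
    l.prod = x ^ j * M.exp Y * (x ^ j)⁻¹ ∧ ∀ l', l' <+: l → ∃ i ≤ j, ∃ s ∈ M.ballR (M.len x),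
      l'.prod = x ^ i * s ∨ l'.prod = x ^ j * M.exp Y * (x ^ j)⁻¹ * (x ^ i * s) := by
  obtain ⟨l, h1, h2, h3, h4⟩ := M.pme_pow x j
  obtain ⟨l₂, k1, k2, k3, k4⟩ := M.pme_pow x⁻¹ j
  rw [M.len_inv] at k2 k4
  have hw : M.Wrd [M.exp Y] := fun z hz => Or.inl (Or.inl ⟨Y, by simpa using hY, (List.mem_singleton.1 hz).symm⟩)
  refine ⟨l ++ ([M.exp Y] ++ l₂), h1.append (hw.append k1), by simp [h2, k2]; ring, by simp [h3, k3, mul_assoc],
    fun l' h' => ?_⟩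
  rcases pme_prefix h' with h5 | ⟨l'', h5, rfl⟩
  · obtain ⟨i, hi, s, hs, e⟩ := h4 l' h5
    exact ⟨i, hi, s, hs, Or.inl e⟩
  · cases l'' with
    | nil => exact ⟨j, le_rfl, 1, M.one_mem_ballR (Nat.cast_nonneg _), Or.inl (by simp [h3])⟩
    | cons z l'' =>
      obtain ⟨rfl, h6⟩ := List.cons_prefix_cons.1 h5
      obtain ⟨i, hi, s, hs, e⟩ := k4 l'' h6
      refine ⟨j - i, Nat.sub_le _ _, s, hs, Or.inr ?_⟩
      obtain ⟨m, rfl⟩ := Nat.exists_eq_add_of_le' hi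
      rw [List.prod_append, List.prod_cons, h3, e, Nat.add_sub_cancel, pow_add]
      group

theorem pme_join {Q : Set M.G} (h1 : (1 : M.G) ∈ Q) {ℓ : ℝ} (u : List M.G)
    (hu : ∀ y ∈ u, ∃ l, M.Wrd l ∧ (l.length : ℝ) ≤ ℓ ∧ l.prod = y ∧ ∀ l', l' <+: l → ∃ q ∈ Q, l'.prod = q ∨ l'.prod = y * q) :
    ∃ l, M.Wrd l ∧ (l.length : ℝ) ≤ u.length * ℓ ∧ l.prod = u.prod ∧
      ∀ l', l' <+: l → ∃ u', u' <+: u ∧ ∃ q ∈ Q, l'.prod = u'.prod * q := by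
  induction u with
  | nil =>
    exact ⟨[], fun _ h => by simp at h, by simp, rfl, fun l' h' => ⟨[], List.nil_prefix, 1, h1, by simp [List.prefix_nil.1 h']⟩⟩
  | cons y u ih =>
    obtain ⟨l, a1, a2, a3, a4⟩ := ih fun z hz => hu z (by simp [hz])
    obtain ⟨w, b1, b2, b3, b4⟩ := hu y (by simp)
    refine ⟨w ++ l, b1.append a1, by simp only [List.length_append, List.length_cons]; push_cast; linarith,
      by rw [List.prod_append, a3, b3, List.prod_cons], fun l' h' => ?_⟩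
    rcases pme_prefix h' with h5 | ⟨l'', h5, rfl⟩
    · obtain ⟨q, hq, e | e⟩ := b4 l' h5
      · exact ⟨[], List.nil_prefix, q, hq, by simp [e]⟩
      · exact ⟨[y], List.cons_prefix_cons.2 ⟨rfl, List.nil_prefix⟩, q, hq, by simp [e]⟩
    · obtain ⟨u', hu', q, hq, e⟩ := a4 l'' h5
      exact ⟨y :: u', List.cons_prefix_cons.2 ⟨rfl, hu'⟩, q, hq, by rw [List.prod_append, b3, e, List.prod_cons, mul_assoc]⟩

/-- GREACH, word form: every prefix is an element of `exp E` times a bounded element times a power of some `t α` times a bounded element -/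
theorem exists_word (𝒜 : Set (Fin k → ℝ)) (t : (Fin k → ℝ) → M.G) (ht : ∀ α ∈ 𝒜, t α ∈ M.C ∧ 0 < α ⬝ᵥ M.chi (t α)) :
    ∃ Λ : ℝ, 1 ≤ Λ ∧ ∀ R : ℝ, 1 ≤ R → ∀ X ∈ M.idl 𝒜, ‖X‖ ≤ Real.exp R → ∃ l, M.Wrd l ∧ (l.length : ℝ) ≤ Λ * R ∧ l.prod = M.exp X ∧
      ∀ l', l' <+: l → ∃ Y ∈ M.E, ‖Y‖ ≤ Real.exp (Λ * R) ∧ ∃ s ∈ M.ballR Λ, ∃ s' ∈ M.ballR Λ, ∃ (x : M.G) (j : ℕ), (j : ℝ) ≤ Λ * R ∧
        (x = 1 ∨ ∃ α ∈ 𝒜, α ∈ range M.wt ∧ x = t α) ∧ l'.prod = M.exp Y * s * x ^ j * s' := by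
  obtain ⟨Λ, N, hΛ, hp⟩ := M.exists_pieces 𝒜 t ht
  obtain ⟨B, hB, hAd⟩ := M.exists_norm_Ad_le
  obtain ⟨L, hL1, hL⟩ : ∃ L : ℝ, 1 ≤ L ∧ ∀ α ∈ range M.wt, (M.len (t α) : ℝ) ≤ L := by
    have h0 : 0 ≤ ∑ j, (M.len (t (M.wt j)) : ℝ) := Finset.sum_nonneg fun _ _ => Nat.cast_nonneg _
    refine ⟨1 + ∑ j, (M.len (t (M.wt j)) : ℝ), by linarith, ?_⟩
    rintro _ ⟨j, rfl⟩
    have := Finset.single_le_sum (f := fun j => (M.len (t (M.wt j)) : ℝ)) (fun _ _ => Nat.cast_nonneg _) (Finset.mem_univ j)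
    linarith
  have hBL : 0 ≤ B * (Λ * L) := by positivity
  obtain ⟨Λ₁, hΛ₁, hq⟩ := M.pme_prod (B * (Λ * L) + 1) (by linarith) N
  have hN : (0 : ℝ) ≤ N * (2 * (Λ * L) + 1) := by positivity
  refine ⟨Λ₁ + Λ + L + N * (2 * (Λ * L) + 1), by linarith, fun R hR X hX hn => ?_⟩
  obtain ⟨u, hu, hup, hy⟩ := hp R hR X hX hn
  have hR0 : 0 ≤ R := zero_le_one.trans hR
  have hj : ∀ (j : ℕ) (α), α ∈ range M.wt → (j : ℝ) ≤ Λ * R → (j : ℝ) * M.len (t α) ≤ Λ * L * R := fun j α hα hj =>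
    (mul_le_mul hj (hL α hα) (Nat.cast_nonneg _) (by positivity)).trans_eq (by ring)
  have hb1 : ∀ Y : V h, ‖Y‖ ≤ 1 → M.exp Y ∈ M.ballR 1 := fun Y hY => by
    have := (M.len_exp_le Y).trans (Nat.ceil_le.2 (by simpa using hY) : ⌈‖Y‖⌉₊ ≤ 1)
    exact (show (M.len (M.exp Y) : ℝ) ≤ 1 by exact_mod_cast this)
  obtain ⟨l, a1, a2, a3, a4⟩ := M.pme_join (Q := {q | ∃ s' ∈ M.ballR L, ∃ (x : M.G) (j : ℕ), (j : ℝ) ≤ Λ * R ∧
      (x = 1 ∨ ∃ α ∈ 𝒜, α ∈ range M.wt ∧ x = t α) ∧ q = x ^ j * s'})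
    ⟨1, M.one_mem_ballR (by linarith), 1, 0, by rw [Nat.cast_zero]; positivity, Or.inl rfl, by simp⟩
    (ℓ := (2 * (Λ * L) + 1) * R) u fun y hyu => by
      rcases hy y hyu with ⟨Y, hY, rfl⟩ | ⟨α, hα, hα', Y, -, hY, j, hjR, rfl⟩
      · obtain ⟨l, b1, b2, b3, b4⟩ := M.pme_piece 1 0 hY
        have : 0 ≤ Λ * L * R := by positivity
        refine ⟨l, b1, by rw [b2]; push_cast; nlinarith, by simpa using b3, fun l' h' => ?_⟩
        obtain ⟨i, -, s, hs, e⟩ := b4 l' h'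
        refine ⟨s, ⟨s, M.ballR_mono (by rw [M.len_one, Nat.cast_zero]; linarith) hs, 1, 0,
          by rw [Nat.cast_zero]; positivity, Or.inl rfl, by simp⟩, by simpa using e⟩
      · obtain ⟨l, b1, b2, b3, b4⟩ := M.pme_piece (t α) j hY
        have := hj j α hα' hjR
        refine ⟨l, b1, by rw [b2]; push_cast; nlinarith, b3, fun l' h' => ?_⟩
        obtain ⟨i, hi, s, hs, e⟩ := b4 l' h'
        exact ⟨_, ⟨s, M.ballR_mono (hL α hα') hs, t α, i, (Nat.cast_le.2 hi).trans hjR, Or.inr ⟨α, hα, hα', rfl⟩, rfl⟩, e⟩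
  have hu' : (u.length : ℝ) ≤ N := Nat.cast_le.2 hu
  refine ⟨l, a1, a2.trans ?_, a3.trans hup, fun l' h' => ?_⟩
  · have := mul_le_mul_of_nonneg_right hu' (show 0 ≤ (2 * (Λ * L) + 1) * R by positivity)
    nlinarith
  obtain ⟨u', hu', _, ⟨s', hs', x, j, hjR, hx, rfl⟩, e⟩ := a4 l' h'
  obtain ⟨Y, hY, hYn, s, hs, e'⟩ := hq R hR u' (hu'.length_le.trans hu) fun y hyu => by
    rcases hy y (hu'.subset hyu) with ⟨Y, hY, rfl⟩ | ⟨α, hα, hα', Y, hYW, hY, j, hjR, rfl⟩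
    · exact Or.inl (hb1 Y hY)
    · have h0 : α ≠ 0 := fun e => by simpa [e] using (ht α hα).2
      refine Or.inr ⟨M.Ad (t α ^ j) Y, M.Ad_E _ (M.W_le_E h0 hYW), (hAd _ Y).trans ?_, M.conj _ _⟩
      refine (mul_le_of_le_one_right (Real.exp_pos _).le hY).trans (Real.exp_le_exp.2 ?_)
      obtain ⟨w, c1, c2, c3, -⟩ := M.pme_pow (t α) j
      have c4 : (M.len (t α ^ j) : ℝ) ≤ j * M.len (t α) := by exact_mod_cast c3 ▸ c2 ▸ c1.len_le
      nlinarith [mul_le_mul_of_nonneg_left (c4.trans (hj j α hα' hjR)) hB]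
  exact ⟨Y, hY, hYn.trans (Real.exp_le_exp.2 (by nlinarith)), s, M.ballR_mono (by linarith) hs, s',
    M.ballR_mono (by linarith) hs', x, j, hjR.trans (by nlinarith), hx, by rw [e, e', mul_assoc (M.exp Y * s)]⟩

/-- MREACH: `exists_word` with `t α = d⁻¹` -/
theorem exists_mword {d : M.G} (hd : d ∈ M.C) : ∃ Λ : ℝ, 1 ≤ Λ ∧ ∀ R : ℝ, 1 ≤ R → ∀ X ∈ M.mI (M.chi d), ‖X‖ ≤ Real.exp R →
    ∃ l, M.Wrd l ∧ (l.length : ℝ) ≤ Λ * R ∧ l.prod = M.exp X ∧ ∀ l', l' <+: l → ∃ Y ∈ M.E, ‖Y‖ ≤ Real.exp (Λ * R) ∧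
      ∃ s ∈ M.ballR Λ, ∃ s' ∈ M.ballR Λ, ∃ j : ℕ, (j : ℝ) ≤ Λ * R ∧ l'.prod = M.exp Y * s * d⁻¹ ^ j * s' := by
  obtain ⟨Λ, hΛ, H⟩ := M.exists_word {α | α ⬝ᵥ M.chi d < 0} (fun _ => d⁻¹) fun α hα =>
    ⟨M.C.inv_mem hd, by rw [M.chi_inv, dotProduct_neg]; exact neg_pos.2 hα⟩
  refine ⟨Λ, hΛ, fun R hR X hX hn => ?_⟩
  obtain ⟨l, a1, a2, a3, a4⟩ := H R hR X hX hn
  refine ⟨l, a1, a2, a3, fun l' h' => ?_⟩
  obtain ⟨Y, hY, hYn, s, hs, s', hs', x, j, hj, hx, e⟩ := a4 l' h'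
  rcases hx with rfl | ⟨α, -, -, rfl⟩
  · exact ⟨Y, hY, hYn, s, hs, s', hs', 0, by rw [Nat.cast_zero]; positivity, by simpa using e⟩
  · exact ⟨Y, hY, hYn, s, hs, s', hs', j, hj, e⟩

theorem pmf_frac (μ : Measure M.G) (S : Set M.G) {P : M.G → M.G → Prop} (hP : MeasurableSet {z : M.G × M.G | P z.1 z.2})
    (c : ℝ≥0∞) : MeasurableSet {q | μ[|S] {x | ¬P q x} ≤ c} :=
  measurableSet_le (measurable_measure_prodMk_left (ν := μ[|S]) hP.compl) measurable_const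
theorem measurableSet_G1 {φ : M.G → M.G} (hφ : Measurable φ) {U : Submodule ℝ (V h)} (hU : M.IsSub U) (r : ℝ) :
    MeasurableSet {z : M.G × M.G | M.G1 φ U r z.1 z.2} := by
  exact (((hφ.comp measurable_fst).inv.mul (hφ.comp measurable_mul)))
    ((M.isClosed_expSub hU).mul_right_of_isCompact (M.isCompact_Qb r)).measurableSet
theorem measurableSet_P2 {φ : M.G → M.G} (hφ : Measurable φ) (U : Submodule ℝ (V h)) {U' : Submodule ℝ (V h)} (hU' : M.IsSub U')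
    (R r₁ : ℝ) (g : M.G) : MeasurableSet {q | M.P2 φ U U' R r₁ q g} := by
  exact M.pmf_frac _ _ (P := fun q x => M.G1 φ U' r₁ q (g⁻¹ * x * g))
    ((measurable_fst.prodMk ((measurable_snd.const_mul g⁻¹).mul_const g)) (M.measurableSet_G1 hφ hU' r₁)) _
theorem measurableSet_H3 {φ ψ : M.G → M.G} (hφ : Measurable φ) (hψ : Measurable ψ) {U : Submodule ℝ (V h)} (hU : M.IsSub U)
    (U' : Submodule ℝ (V h)) (r r₁ : ℝ) : MeasurableSet {q | M.H3 φ ψ U U' r r₁ q} := by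
  exact M.pmf_frac _ _ (P := fun q s => M.P2 ψ U' U r r₁ (φ q * s) 1)
    (((hφ.comp measurable_fst).mul measurable_snd) (M.measurableSet_P2 hψ U' hU r r₁ 1)) _
theorem measurableSet_P3 {φ ψ : M.G → M.G} (hφ : Measurable φ) (hψ : Measurable ψ) {U : Submodule ℝ (V h)} (hU : M.IsSub U)
    (U' : Submodule ℝ (V h)) (R r r₁ : ℝ) : MeasurableSet {q | M.P3 φ ψ U U' R r r₁ q} := by
  exact M.pmf_frac _ _ (P := fun q x => M.H3 φ ψ U U' r r₁ (q * x))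
    (measurable_mul (M.measurableSet_H3 hφ hψ hU U' r r₁)) _
theorem G1.mono {M : Model h k} {φ : M.G → M.G} {U : Submodule ℝ (V h)} {r r' : ℝ} {q x : M.G} (hG : M.G1 φ U r q x) (hr : r ≤ r') :
    M.G1 φ U r' q x := by
  exact Set.mul_subset_mul_left (M.Qb_mono hr) hG

end Model

end Crest.Agent.R182
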