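import Crest.Agent.R182.B.CLS
import Crest.Agent.R182.PUR.Clink
import Crest.Agent.R182.PUR.Law
import Crest.Agent.R182.PUR.Elink
import Crest.Agent.R182.PUR.Chain

/-! R182/B/PUR: purity (public statement FROZEN).  Recipe: notes182/route.md, section PUR. -/

set_option autoImplicit false
set_option linter.unusedVariables false
set_option linter.unusedSectionVars false
open Set Filter Topology MeasureTheory ProbabilityTheory Matrix Crest.GroupTheory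
open scoped Pointwise commutatorElement ENNReal

noncomputable section
namespace Crest.Agent.R182

namespace Model
variable {h k : ℕ} (M : Model h k)

theorem pur_aux (K t ε η : ℝ) (hε : 0 < ε) (hη : 0 < η) (hη1 : η ≤ 1) : ∃ w₀ : ℝ, ∀ (f : M.QP K) (w : ℝ) (ν : Measure M.G), w₀ ≤ w →
    IsProbabilityMeasure ν → Inv ν (M.exp '' M.Box ((1 + η) * w)) (w⁻¹ ^ 2) →
      ν {p | ¬∃ L ∈ M.W1, ∃ κ, M.PF f.φ p w L κ t ε} ≤ ENNReal.ofReal ε := by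
  obtain ⟨t₁, ρ₁, hρ₁, hP⟩ := PUR.pur_of_om M K t ε hε
  obtain ⟨T, m₀, hT, hch⟩ := PUR.chain M t₁
  obtain ⟨Λe, hΛe, hgeo⟩ := PUR.elink_geo M
  obtain ⟨Λ₀, S, hΛ₀, hS, hok⟩ := PUR.ok1 M K
  obtain ⟨b₀, hb₀, hlaw⟩ := PUR.exists_law M
  obtain ⟨D, hD, hC⟩ := PUR.omC M
  obtain ⟨ε₀, n₀, hε₀, hE⟩ := PUR.omE M K
  set Λ := max Λe t with hΛ
  have hΛ1 : 1 ≤ Λ := le_max_of_le_left hΛe
  obtain ⟨ρ₀, h0, h1, h2, h3⟩ : ∃ ρ₀ : ℝ, 0 < ρ₀ ∧ ρ₀ ≤ ρ₁ ∧ S * ρ₀ ≤ b₀ * η ∧ ρ₀ ≤ η / 24 := by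
    refine ⟨min ρ₁ (min (b₀ * η / S) (η / 24)), by positivity, min_le_left _ _, ?_, (min_le_right _ _).trans (min_le_right _ _)⟩
    rw [← le_div_iff₀' (by positivity)]
    exact (min_le_right _ _).trans (min_le_left _ _)
  obtain ⟨δ, w₁, hδ, hP⟩ := hP ρ₀ h0 h1
  obtain ⟨N, hN⟩ := exists_nat_ge (2 * Λ / ρ₀)
  rw [div_le_iff₀ h0] at hN
  set Q : ℝ := (m₀ + 1) * (N + 2) with hQ
  have hQ0 : 0 < Q := by positivity
  set ζ : ℝ := ε / (2 * Q * ρ₀) with hζ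
  have hζ0 : 0 < ζ := by positivity
  obtain ⟨ε₁, δ₁, n₁, hε₁, hδ₁, hok⟩ := hok ζ (δ / Q / D) hζ0 (by positivity)
  set δ₂ := min δ₁ (δ / Q / (2 * k + 1)) with hδ₂
  have hδ₂0 : 0 < δ₂ := by positivity
  obtain ⟨n₂, w₂, hlaw⟩ := hlaw K T Λ η S ρ₀ Λ₀ (min ε₁ ε₀) δ₂ (max n₀ n₁) hΛ1 hη hη1 (by linarith) h0 h2 (by positivity) hδ₂0
  choose ρ₂ hok using hok
  choose w₃ hgeo using fun n => hgeo η n hη hη1
  have ev : ∀ᶠ w : ℝ in atTop, w₁ ≤ w ∧ w₂ ≤ w ∧ 1 ≤ w ∧ 2 ≤ ρ₀ * w ∧ ρ₀ / δ₁ ≤ w ∧ 2 * K ≤ ζ * (ρ₀ * w) ∧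
      ∀ n ∈ Finset.range (n₂ + 1), w₃ n ≤ w ∧ ∀ hn : n ≥ n₁, ρ₂ n hn ≤ ρ₀ * w := by
    have ht : Tendsto (fun w : ℝ => ρ₀ * w) atTop atTop := tendsto_id.const_mul_atTop h0
    refine (eventually_ge_atTop _).and ((eventually_ge_atTop _).and ((eventually_ge_atTop _).and ((ht.eventually_ge_atTop _).and
      ((eventually_ge_atTop _).and (((ht.const_mul_atTop hζ0).eventually_ge_atTop _).and ?_)))))
    exact (eventually_all_finset _).2 fun n _ => (eventually_ge_atTop _).and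
      (eventually_all.2 fun hn => ht.eventually_ge_atTop _)
  obtain ⟨w₀, hw₀⟩ := eventually_atTop.1 ev
  refine ⟨w₀, fun f w ν hw hν hI => ?_⟩
  obtain ⟨e1, e2, e3, e4, e5, e6, e7⟩ := hw₀ w hw
  obtain ⟨n, Lp, hn1, hn2, hL, hV⟩ := hlaw f w ν e2 hν hI
  obtain ⟨e7, e8⟩ := e7 n (Finset.mem_range.2 (by omega))
  have hw0 : 0 < w := by linarith
  have hCl : ∀ A ∈ PUR.Vx M T w (Λ * w) ((1 + η / 6) * w), ∀ c ∈ M.ballCR (ρ₀ * w),
      PUR.om M f.φ Lp ν (ρ₀ * w) (ζ * (ρ₀ * w)) A (A * c) ≤ ENNReal.ofReal (δ / Q) := fun A hA c hc => by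
    refine (hC f.φ Lp ν _ _ _ A c f.mφ hL hν (by linarith) hc (hok n (le_of_max_le_right hn1) _ (e8 _) f Lp _ (w⁻¹ ^ 2) hL
      (by positivity) ?_ ((hV A hA).mono le_rfl (min_le_left _ _) (min_le_left _ _) le_rfl le_rfl))).trans (le_of_eq ?_)
    · rw [div_le_iff₀ hδ₁] at e5
      rw [show w⁻¹ ^ 2 * (ρ₀ * w) = ρ₀ / w by field_simp, div_le_iff₀ hw0]
      linarith
    · rw [← ENNReal.ofReal_mul (by linarith), mul_div_cancel₀ _ (by linarith)]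
  refine hP f Lp ν w e1 hν hL fun Y hY y hy => ?_
  have hy' : y ∈ M.AdmC (Λ * w) ((1 + η / 6) * w) :=
    M.AdmC_mono (mul_le_mul_of_nonneg_right (le_max_right _ _) hw0.le) (by nlinarith) hy
  refine le_trans (PUR.om_mono ?_ _ _) ((hch f.φ Lp ν (ρ₀ * w) (ζ * (ρ₀ * w)) w (Λ * w) _ _ N hν f.mφ hL e4 (by positivity)
    (by nlinarith) hCl (fun X hX => ?_) Y hY y hy').trans ?_)
  · have : Q * (ζ * (ρ₀ * w)) = ε * w / 2 := by
      rw [hζ]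
      field_simp
    rw [← this]
    exact mul_le_mul_of_nonneg_right (by rw [hQ]; gcongr; linarith) (by positivity)
  · obtain ⟨b, hb, hb'⟩ := hgeo n w e7 X hX
    have hb1 := M.AdmC_mono (mul_le_mul_of_nonneg_right (le_max_left Λe t) hw0.le) le_rfl hb
    refine ⟨b, hb1, fun Y hY Y' hY' hYY => ?_⟩
    have m : ∀ Y ∈ T • M.Box w, M.exp Y * b ∈ PUR.Vx M T w (Λ * w) ((1 + η / 6) * w) := fun Y hY =>
      ⟨Y, hY, b, M.AdmC_subset_ballCR _ _ hb1, M.nm_chi_le_of_Adm (M.AdmC_subset_Adm _ _ hb1), rfl⟩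
    have h5 := hE n (le_of_max_le_left hn1) f Lp ν (ρ₀ * w) Λ₀ δ₂ _ _ (M.exp Y) b X hL hν (by linarith) hΛ₀ (by positivity)
      (fun z hz => hb' z (M.ballCR_mono (mul_le_mul_of_nonneg_right h3 hw0.le) hz))
      ((hV _ (m Y hY)).mono le_rfl (min_le_right _ _) le_rfl le_rfl le_rfl)
      (hYY ▸ (hV _ (m Y' hY')).mono le_rfl (min_le_right _ _) le_rfl le_rfl le_rfl)
    rw [← hYY] at h5
    have h6 := hCl _ (m Y' hY') 1 (M.one_mem_ballCR (by linarith))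
    rw [mul_one] at h6
    refine le_trans (PUR.om_mono (ζ := 2 * K + ζ * (ρ₀ * w)) (by linarith) _ _)
      ((PUR.om_le_same f.mφ hL (by linarith) _ _ _ _).trans ?_)
    rw [two_mul (ENNReal.ofReal _)]
    refine add_le_add (h5.trans (ENNReal.ofReal_le_ofReal ?_)) h6
    have h7 : δ₂ ≤ δ / Q / (2 * k + 1) := min_le_right _ _
    rw [le_div_iff₀ (by positivity)] at h7
    linarith
  · have : (m₀ : ℝ≥0∞) * (N + 2) = ENNReal.ofReal (m₀ * (N + 2)) := by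
      rw [ENNReal.ofReal_mul (by positivity), ENNReal.ofReal_add (by positivity) (by positivity)]
      simp
    rw [this, ← ENNReal.ofReal_mul (by positivity)]
    refine ENNReal.ofReal_le_ofReal ?_
    rw [← mul_div_assoc, div_le_iff₀ hQ0, mul_comm δ, hQ]
    gcongr
    linarith

theorem pur (K t ε η : ℝ) (hε : 0 < ε) (hη : 0 < η) : ∃ w₀ : ℝ, ∀ (f : M.QP K) (w : ℝ) (ν : Measure M.G), w₀ ≤ w →
    IsProbabilityMeasure ν → Inv ν (M.exp '' M.Box ((1 + η) * w)) (w⁻¹ ^ 2) →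
      ν {p | ¬∃ L ∈ M.W1, ∃ κ, M.PF f.φ p w L κ t ε} ≤ ENNReal.ofReal ε := by
  obtain ⟨w₀, h⟩ := M.pur_aux K t ε (min η 1) hε (by positivity) (min_le_right _ _)
  refine ⟨max w₀ 0, fun f w ν hw hν hI => h f w ν (le_of_max_le_left hw) hν (hI.mono (image_mono (M.Box_mono ?_)) le_rfl)⟩
  have := le_of_max_le_right hw
  gcongr
  exact min_le_left _ _

end Model

end Crest.Agent.R182
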