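import Crest.Agent.R182.B.Cg

/-! R182/B/V: volumes (public statements FROZEN). -/

set_option autoImplicit false
set_option linter.unusedVariables false
set_option linter.unusedSectionVars false
open Set Filter Topology MeasureTheory ProbabilityTheory Matrix Crest.GroupTheory
open scoped Pointwise commutatorElement ENNReal

noncomputable section
namespace Crest.Agent.R182

namespace Model
variable {h k : ℕ} (M : Model h k)

omit M in
theorem _root_.Crest.Agent.R182.hV_smul (U : Submodule ℝ (V h)) {t : ℝ} (ht : 0 < t) (S : Set (V h)) :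
    hV U (t • S) = ENNReal.ofReal (t ^ Module.finrank ℝ U) * hV U S := by
  have := lebU_smul U ht.ne' S
  rwa [abs_of_pos ht] at this
omit M in
theorem _root_.Crest.Agent.R182.hV_add (U : Submodule ℝ (V h)) {X : V h} (hX : X ∈ U) (S : Set (V h)) :
    hV U (X +ᵥ S) = hV U S := by
  have e : X +ᵥ S = (fun Y => -X + Y) ⁻¹' S := Set.ext fun Y => Set.mem_vadd_set_iff_neg_vadd_mem
  rw [e]
  exact (lebU_add U (neg_mem hX)).measure_preimage_emb (MeasurableEquiv.addLeft (-X)).measurableEmbedding S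
/-- `hm_conj`, `abs_det_restrict'` -/
theorem hm_conj_GI {U : Submodule ℝ (V h)} (hU : M.GI U) (g : M.G) (A : Set M.G) :
    M.hm U ((fun x => g * x * g⁻¹) '' A) = ENNReal.ofReal (Real.exp (-(M.rb U ⬝ᵥ M.chi g))) * M.hm U A := by
  rw [M.hm_conj (hU.Ad g), M.abs_det_restrict' hU.Ad g, rb, neg_dotProduct, neg_neg, sum_dotProduct]
  simp only [smul_dotProduct, smul_eq_mul, M.ht_eq]
theorem hC_ballCR_pos {r : ℝ} (hr : 1 ≤ r) : 0 < M.hC (M.ballCR r) := by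
  rw [M.ballCR_eq (by linarith)]
  exact pos_iff_ne_zero.2 (M.hC_ballC_ne_zero (Nat.le_floor (by simpa using hr)))
theorem isProbabilityMeasure_lwC {r : ℝ} (hr : 1 ≤ r) : IsProbabilityMeasure (M.lwC r) := by
  exact cond_isProbabilityMeasure_of_finite (M.hC_ballCR_pos hr).ne' (M.isCompact_ballCR r).measure_lt_top.ne

/-- DBL: `exists_doubling` -/
theorem hC_doubling (Λ : ℝ) : ∃ D : ℝ, 1 ≤ D ∧ ∀ w : ℝ, 1 ≤ w →
    M.hC (M.ballCR (Λ * w)) ≤ ENNReal.ofReal D * M.hC (M.ballCR w) := by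
  obtain ⟨D, hD, H⟩ := M.exists_doubling ⌈2 * Λ⌉₊
  refine ⟨max 1 D.toReal, le_max_left _ _, fun w hw => ?_⟩
  have h1 : 1 ≤ ⌊w⌋₊ := Nat.le_floor (by simpa using hw)
  have h2 : (1 : ℝ) ≤ ⌊w⌋₊ := by exact_mod_cast h1
  have h3 := Nat.lt_floor_add_one w
  have h4 := Nat.le_ceil (2 * Λ)
  have h5 : (0 : ℝ) ≤ ⌈2 * Λ⌉₊ := Nat.cast_nonneg _
  have h6 : Λ * w ≤ ((⌈2 * Λ⌉₊ * ⌊w⌋₊ : ℕ) : ℝ) := by push_cast; nlinarith
  refine (measure_mono (M.ballCR_mono h6)).trans ?_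
  rw [M.ballCR_nat, M.ballCR_eq (by linarith)]
  refine (H _ h1).trans (mul_le_mul_left ?_ _)
  exact (ENNReal.ofReal_toReal hD).ge.trans (ENNReal.ofReal_le_ofReal (le_max_right _ _))
/-- nets: a maximal subset of `S` whose translates of `ballC (w / 2)` are disjoint -/
theorem exists_netC (Λ : ℝ) : ∃ D : ℕ, ∀ w : ℝ, 2 ≤ w → ∀ S ⊆ M.ballCR (Λ * w),
    (∃ F : Finset M.G, ↑F ⊆ S ∧ F.card ≤ D ∧ ∀ c ∈ S, ∃ y ∈ F, y⁻¹ * c ∈ M.ballCR w) ∧
    (∃ F : Finset M.G, ↑F ⊆ S ∧ F.card ≤ D ∧ ∀ c ∈ S, ∃ y ∈ F, c * y⁻¹ ∈ M.ballCR w) := by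
  classical
  obtain ⟨D, hD, hd⟩ := M.hC_doubling (2 * Λ + 1)
  have key : ∀ w : ℝ, 2 ≤ w → ∀ S ⊆ M.ballCR (Λ * w),
      ∃ F : Finset M.G, ↑F ⊆ S ∧ F.card ≤ ⌈D⌉₊ ∧ ∀ c ∈ S, ∃ y ∈ F, y⁻¹ * c ∈ M.ballCR w := fun w hw S hS => by
    have hc := M.isCompact_ballCR (w / 2)
    have hb : ∀ F : Finset M.G, ↑F ⊆ S → ((F : Set M.G).PairwiseDisjoint fun s => s • M.ballCR (w / 2)) → F.card ≤ ⌈D⌉₊ :=
      fun F hF hp => by
      have h1 : (F.card : ℝ≥0∞) * M.hC (M.ballCR (w / 2)) ≤ ENNReal.ofReal D * M.hC (M.ballCR (w / 2)) := by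
        refine le_trans ?_ (hd (w / 2) (by linarith))
        rw [← nsmul_eq_mul, ← Finset.sum_const, ← Finset.sum_congr rfl fun s hs => M.hC_image_left (hS (hF hs)).1 _]
        refine (measure_biUnion_finset hp fun s _ => hc.measurableSet.const_smul s).ge.trans
          (measure_mono (iUnion₂_subset fun s hs => ?_))
        rintro _ ⟨b, hb, rfl⟩
        exact M.ballCR_mono (le_of_eq (by ring)) (M.mul_mem_ballCR (hS (hF hs)) hb)
      rw [ENNReal.mul_le_mul_iff_left (M.hC_ballCR_pos (by linarith)).ne' hc.measure_lt_top.ne, ← ENNReal.ofReal_natCast,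
        ENNReal.ofReal_le_ofReal_iff (by linarith)] at h1
      exact_mod_cast h1.trans (Nat.le_ceil D)
    obtain ⟨F, hF, hp, hm⟩ := Nat.sSup_mem (s := {n | ∃ F : Finset M.G, ↑F ⊆ S ∧
      ((F : Set M.G).PairwiseDisjoint fun s => s • M.ballCR (w / 2)) ∧ F.card = n}) ⟨0, ∅, by simp, by simp, rfl⟩
      ⟨_, fun n ⟨F, h1, h2, h3⟩ => h3 ▸ hb F h1 h2⟩
    refine ⟨F, hF, hb F hF hp, fun c hcS => by_contra fun hn => ?_⟩
    have hcF : c ∉ F := fun h' => hn ⟨c, h', by rw [inv_mul_cancel]; exact M.one_mem_ballCR (by linarith)⟩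
    refine absurd (hm ▸ le_csSup ⟨_, fun n ⟨F, h1, h2, h3⟩ => h3 ▸ hb F h1 h2⟩ ⟨insert c F, ?_, ?_, rfl⟩ :
      (insert c F).card ≤ F.card) (by rw [Finset.card_insert_of_notMem hcF]; omega)
    · rw [Finset.coe_insert]; exact insert_subset hcS hF
    · rw [Finset.coe_insert]
      refine hp.insert fun s hs _ => Set.disjoint_left.2 ?_
      rintro _ ⟨b, hb, rfl⟩ ⟨b', hb', he⟩
      refine hn ⟨s, hs, ?_⟩
      rw [show s⁻¹ * c = b' * b⁻¹ by rw [inv_mul_eq_iff_eq_mul, ← mul_assoc, eq_mul_inv_iff_mul_eq]; exact he.symm]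
      exact M.ballCR_mono (le_of_eq (by ring)) (M.mul_mem_ballCR hb' (M.inv_mem_ballCR hb))
  refine ⟨⌈D⌉₊, fun w hw S hS => ⟨key w hw S hS, ?_⟩⟩
  obtain ⟨F, h1, h2, h3⟩ := key w hw S⁻¹ fun c hc => inv_inv c ▸ M.inv_mem_ballCR (hS hc)
  refine ⟨F.image (·⁻¹), fun y hy => ?_, Finset.card_image_le.trans h2, fun c hc => ?_⟩
  · obtain ⟨x, hx, rfl⟩ := Finset.mem_image.1 hy
    exact h1 hx
  · obtain ⟨y, hy, hb⟩ := h3 c⁻¹ (Set.inv_mem_inv.2 hc)
    exact ⟨y⁻¹, Finset.mem_image_of_mem _ hy, by simpa using M.inv_mem_ballCR hb⟩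

theorem vqb_mem {r : ℝ} (hr : 0 ≤ r) {g : M.G} :
    g ∈ M.Qb r ↔ ‖M.lgm g‖ ≤ Real.exp r ∧ ∀ i, |(M.tv g i : ℝ)| ≤ r :=
  and_congr_right fun _ => pi_norm_le_iff_of_nonneg hr
theorem vqb_exp {r : ℝ} (hr : 0 ≤ r) {X : V h} : M.exp X ∈ M.Qb r ↔ ‖X‖ ≤ Real.exp r := by
  show _ ∧ _ ↔ _
  rw [M.lgm_exp, M.chi_exp, norm_zero]
  exact and_iff_left hr

theorem Qb_mono {r r' : ℝ} (hr : r ≤ r') : M.Qb r ⊆ M.Qb r' := by
  exact fun g hg => ⟨hg.1.trans (Real.exp_le_exp.2 hr), hg.2.trans hr⟩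
theorem isCompact_Qb (r : ℝ) : IsCompact (M.Qb r) := by
  have hfin : {a : Fin k → ℤ | ∀ i, |(a i : ℝ)| ≤ r}.Finite := by
    refine (Set.Finite.pi' fun _ : Fin k => Set.finite_Icc (-⌈r⌉) ⌈r⌉).subset fun a ha i => ?_
    have h1 := (ha i).trans (Int.le_ceil r)
    exact abs_le.1 (by exact_mod_cast h1)
  refine (((isCompact_closedBall (0 : V h) (Real.exp r)).prod hfin.isCompact).image M.continuous_par).of_isClosed_subset
    ((isClosed_le M.continuous_lgm.norm continuous_const).inter (isClosed_le M.continuous_chi.norm continuous_const))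
    fun g hg => ⟨M.chart g, ⟨mem_closedBall_zero_iff.2 hg.1, fun i => (norm_le_pi_norm (M.chi g) i).trans hg.2⟩, M.par_chart g⟩
/-- `exists_box_mul`, `exists_norm_lgm_le`, `exists_norm_Ad_le`, `vd_len` -/
theorem Qb_calc : ∃ B : ℝ, 1 ≤ B ∧ ∀ r : ℝ, 1 ≤ r → (∀ a ∈ M.Qb r, ∀ b ∈ M.Qb r, a * b ∈ M.Qb (B * r)) ∧
    (∀ a ∈ M.Qb r, a⁻¹ ∈ M.Qb (B * r)) ∧ M.ballR r ⊆ M.Qb (B * r) ∧
    ∀ a ∈ M.Qb r, ∀ X, ‖M.Ad a X‖ ≤ Real.exp (B * r) * ‖X‖ := by
  obtain ⟨B₁, hB₁, H₁⟩ := M.exists_box_mul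
  obtain ⟨B₃, hB₃, H₃⟩ := M.exists_norm_lgm_le
  obtain ⟨C, hC1, hC2, hC3⟩ : ∃ C : ℝ, B₁ ≤ C ∧ 2 ≤ C ∧ B₃ ≤ C := ⟨B₁ + B₃ + 2, by linarith, by linarith, by linarith⟩
  have key : ∀ r : ℝ, 1 ≤ r → ∀ a ∈ M.Qb r, ∀ b ∈ M.Qb r, a * b ∈ M.Qb (C * r) ∧ a⁻¹ ∈ M.Qb (C * r) := by
    intro r hr a ha b hb
    have hr0 : 0 ≤ r := by linarith
    have e1 : B₁ * r ≤ C * r := mul_le_mul_of_nonneg_right hC1 hr0
    have e2 : 2 * r ≤ C * r := mul_le_mul_of_nonneg_right hC2 hr0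
    obtain ⟨h1, h2⟩ := H₁ r hr a b ha.1 ((M.vqb_mem hr0).1 ha).2 hb.1 ((M.vqb_mem hr0).1 hb).2
    refine ⟨⟨h1.trans (Real.exp_le_exp.2 e1), ?_⟩, h2.trans (Real.exp_le_exp.2 e1), ?_⟩
    · rw [M.chi_mul]
      linarith [norm_add_le (M.chi a) (M.chi b), ha.2, hb.2]
    · rw [M.chi_inv, norm_neg]
      linarith [ha.2]
  refine ⟨C * C, by nlinarith, fun r hr => ?_⟩
  have hr0 : 0 ≤ r := by linarith
  have hCr : 1 ≤ C * r := by nlinarith
  have hCC : C * r ≤ C * C * r := by rw [mul_assoc]; exact le_mul_of_one_le_left (by linarith) (by linarith)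
  refine ⟨fun a ha b hb => M.Qb_mono hCC (key r hr a ha b hb).1, fun a ha => M.Qb_mono hCC (key r hr a ha a ha).2,
    fun g hg => M.Qb_mono hCC ⟨(H₃ g).trans (Real.exp_le_exp.2 ?_), (M.norm_chi_le g).trans (le_trans hg ?_)⟩, fun a ha X => ?_⟩
  · exact (mul_le_mul_of_nonneg_left hg hB₃).trans (mul_le_mul_of_nonneg_right hC3 hr0)
  · exact le_mul_of_one_le_left hr0 (by linarith)
  · rcases eq_or_ne X 0 with rfl | hX
    · simp
    have hn : 0 < ‖X‖ := norm_pos_iff.2 hX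
    have h1 : M.exp (‖X‖⁻¹ • X) ∈ M.Qb r := (M.vqb_exp hr0).2 (by
      rw [norm_smul, norm_inv, norm_norm, inv_mul_cancel₀ hn.ne']; exact Real.one_le_exp hr0)
    have h2 := (key _ hCr _ (key r hr a ha _ h1).1 _ (key r hr a ha a ha).2).1
    rw [M.conj, M.vqb_exp (by nlinarith), map_smul, norm_smul, norm_inv, norm_norm, inv_mul_le_iff₀ hn, ← mul_assoc,
      mul_comm] at h2
    exact h2
theorem exp_mem_Qb {r : ℝ} (hr : 0 ≤ r) {X : V h} : M.exp X ∈ M.Qb r ↔ ‖X‖ ≤ Real.exp r := by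
  exact M.vqb_exp hr
theorem vol_Qb_le : ∃ B : ℝ, 1 ≤ B ∧ ∀ r : ℝ, 1 ≤ r → volume (M.Qb r) ≤ ENNReal.ofReal (Real.exp (B * r)) := by
  have hh : (0 : ℝ) ≤ h := Nat.cast_nonneg h
  have hk : (0 : ℝ) ≤ k := Nat.cast_nonneg k
  refine ⟨2 * h + 2 * k + 1, by linarith, fun r hr => ?_⟩
  have hr0 : 0 ≤ r := by linarith
  refine (measure_mono fun g hg => (M.vqb_mem hr0).1 hg).trans
    ((M.vol_box_le (Real.exp_pos r).le hr0).trans (ENNReal.ofReal_le_ofReal ?_))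
  have e1 : 2 * Real.exp r ≤ Real.exp (2 * r) := by
    rw [two_mul r, Real.exp_add]
    exact mul_le_mul_of_nonneg_right (by linarith [Real.add_one_le_exp r]) (Real.exp_pos _).le
  have e2 : 2 * r + 1 ≤ Real.exp (2 * r) := Real.add_one_le_exp _
  refine (mul_le_mul (pow_le_pow_left₀ (by positivity) e1 h) (pow_le_pow_left₀ (by linarith) e2 k) (by positivity)
    (by positivity)).trans ?_
  rw [← Real.exp_nat_mul, ← Real.exp_nat_mul, ← Real.exp_add]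
  exact Real.exp_le_exp.2 (by nlinarith)
theorem vd_ruzsa (A Q : Set M.G) {O : Set M.G} (h0 : volume O ≠ 0) (h1 : volume O ≠ ⊤) :
    volume (A * Q) ≤ volume (O⁻¹ * Q) / volume O * volume (A * O) := by
  have h2 := cov_ge (volume : Measure M.G) volume ⊤ (fun u _ => measurePreserving_mul_left volume u) (A := A)
    (subset_univ A) O Q
  rw [ENNReal.div_eq_inv_mul, mul_assoc, ← ENNReal.div_eq_inv_mul, ENNReal.le_div_iff_mul_le (Or.inl h0) (Or.inl h1),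
    mul_comm (volume (O⁻¹ * Q))]
  exact h2

/-- cover `Qb r` by at most `exp (B r)` right translates `O * y` of a small neighbourhood `O` with `O * O⁻¹ ⊆ ball 1`; right invariance -/
theorem vol_mul_Qb : ∃ B : ℝ, 1 ≤ B ∧ ∀ r : ℝ, 1 ≤ r → ∀ A : Set M.G,
    volume (A * M.Qb r) ≤ ENNReal.ofReal (Real.exp (B * r)) * volume (A * M.ballR 1) := by
  obtain ⟨B, hB, hb⟩ := M.exists_vol_box 1
  have h0 := M.volume_ball_ne_zero
  have h1 := M.volume_ball_ne_top 1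
  have hv : 0 < (volume (M.ball 1)).toReal := ENNReal.toReal_pos h0 h1
  set c := |Real.log (volume (M.ball 1)).toReal| with hc
  have hc0 : 0 ≤ c := abs_nonneg _
  refine ⟨2 * B + c + 1, by linarith, fun r hr A => ?_⟩
  have e : M.ballR 1 = M.ball 1 := by rw [← M.ballR_nat, Nat.cast_one]
  rw [e]
  refine (M.vd_ruzsa A (M.Qb r) h0 h1).trans (mul_le_mul_left ?_ _)
  have h2 : volume ((M.ball 1)⁻¹ * M.Qb r) ≤ ENNReal.ofReal (Real.exp (B * (r + 1))) := by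
    refine (measure_mono ?_).trans (hb r (by linarith))
    rw [M.inv_ball]
    rintro _ ⟨a, ha, q, hq, rfl⟩
    refine ⟨_, ⟨a, ha, q, ⟨hq.1, fun i => ?_⟩, rfl⟩, 1, M.one_mem_ball 1, mul_one _⟩
    exact (norm_le_pi_norm (M.chi q) i).trans hq.2
  rw [ENNReal.div_le_iff h0 h1, ← ENNReal.ofReal_toReal h1, ← ENNReal.ofReal_mul (Real.exp_pos _).le]
  refine h2.trans (ENNReal.ofReal_le_ofReal ?_)
  rw [← Real.exp_log hv, ← Real.exp_add]
  refine Real.exp_le_exp.2 ?_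
  have h3 := neg_abs_le (Real.log (volume (M.ball 1)).toReal)
  nlinarith
/-- a compact set is covered by finitely many right translates of a neighbourhood `O` of `1` -/
theorem vol_mul_le {S O : Set M.G} (hS : IsCompact S) (hO : O ∈ 𝓝 (1 : M.G)) : ∃ B : ℝ, 1 ≤ B ∧ ∀ A : Set M.G,
    volume (A * S) ≤ ENNReal.ofReal B * volume (A * O) := by
  obtain ⟨O', hO', hsub, hc⟩ := local_compact_nhds hO
  have h0 : volume O' ≠ 0 := (Measure.measure_pos_of_mem_nhds volume hO').ne'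
  have h1 : volume O' ≠ ⊤ := hc.measure_lt_top.ne
  have h2 : volume (O'⁻¹ * S) / volume O' ≠ ⊤ := ENNReal.div_ne_top (hc.inv.mul hS).measure_lt_top.ne h0
  refine ⟨max 1 (volume (O'⁻¹ * S) / volume O').toReal, le_max_left _ _, fun A => ?_⟩
  refine (M.vd_ruzsa A S h0 h1).trans (mul_le_mul' ?_ (measure_mono (mul_subset_mul_left hsub)))
  conv_lhs => rw [← ENNReal.ofReal_toReal h2]
  exact ENNReal.ofReal_le_ofReal (le_max_right _ _)
omit M in
theorem ve_real {D : ℝ≥0∞} (hD : D ≠ ⊤) : ∃ B : ℝ, 1 ≤ B ∧ D ≤ ENNReal.ofReal B :=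
  ⟨max 1 D.toReal, le_max_left _ _, (ENNReal.ofReal_toReal hD).symm.trans_le (ENNReal.ofReal_le_ofReal (le_max_right _ _))⟩
theorem ve_one : M.ballR 1 = M.ball 1 := by simpa using M.ballR_nat 1
/-- `hm_le_vol` -/
theorem hm_le_volR {U : Submodule ℝ (V h)} (hU : M.IsSub U) : ∃ B : ℝ, 1 ≤ B ∧ ∀ A : Set M.G,
    M.hm U A ≤ ENNReal.ofReal B * volume (A * M.ballR 1) := by
  obtain ⟨D, hD, h1⟩ := M.hm_le_vol hU
  obtain ⟨B, hB, h2⟩ := ve_real hD
  exact ⟨B, hB, fun A => (h1 A).trans (by rw [M.ve_one]; gcongr)⟩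
/-- `vol_le_hm` -/
theorem vol_le_hmR {U : Submodule ℝ (V h)} (hU : M.IsSub U) : ∃ B : ℝ, 1 ≤ B ∧ ∀ A ⊆ M.exp '' U,
    volume (A * M.ballR 1) ≤ ENNReal.ofReal B * M.hm U (A * M.exp '' (U ∩ Metric.closedBall 0 1)) := by
  obtain ⟨D, hD, h1⟩ := M.vol_le_hm hU
  obtain ⟨B, hB, h2⟩ := ve_real (ENNReal.mul_ne_top hD
    (ne_top_of_le_ne_top (M.volume_ball_ne_top 2) (measure_mono (M.ball_mul 1 1))))
  refine ⟨B, hB, fun A hA => ?_⟩
  rw [M.ve_one, inter_comm]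
  refine (h1 A (hA.trans Subgroup.subset_closure) _).trans ?_
  rw [mul_right_comm]
  gcongr
/-- QV: `vol_preimage_le`, `QP.lower` -/
theorem vol_le_image (K r : ℝ) : ∃ B : ℝ, 1 ≤ B ∧ ∀ (f : M.QP K) (A : Set M.G),
    volume (A * M.ballR r) ≤ ENNReal.ofReal B * volume (f.φ '' A * M.ballR 1) := by
  obtain ⟨D, hD, h1⟩ := M.vol_preimage_le (3 * K) ⌈r⌉₊
  obtain ⟨B, hB, h2⟩ := ve_real hD
  refine ⟨B, hB, fun f A => ?_⟩
  have h3 := h1 f.φ (fun x y => (f.lower x y).trans (by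
    have := mul_nonneg (zero_le_one.trans f.one_le) (Nat.cast_nonneg (α := ℝ) (M.len ((f.φ x)⁻¹ * f.φ y)))
    linarith)) (f.φ '' A)
  rw [M.ve_one]
  refine le_trans (measure_mono (mul_subset_mul (subset_preimage_image _ _) ?_)) (h3.trans (by gcongr))
  rw [← M.ballR_nat]
  exact M.ballR_mono (Nat.le_ceil r)
/-- multiplicity: `∫ vol {s ∈ ball 1 | φ y * s ∈ T} dy = ∫_T vol {y | φ y ∈ z * ball 1} dz` -/
theorem vol_fibre_le (K : ℝ) : ∃ B : ℝ, 1 ≤ B ∧ ∀ (f : M.QP K) (T : Set M.G), MeasurableSet T →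
    ∫⁻ y, (volume[|M.ballR 1]) {s | f.φ y * s ∈ T} ≤ ENNReal.ofReal B * volume T := by
  have h0 := (M.vol_ballR_pos le_rfl).ne'
  have hB := (M.isCompact_ballR 1).measurableSet
  have h2 : (volume (M.ballR 1))⁻¹ * volume (M.ballR (2 * K + K)) ≠ ⊤ :=
    ENNReal.mul_ne_top (ENNReal.inv_ne_top.2 h0) (M.vol_ballR_lt_top _).ne
  refine ⟨max 1 ((volume (M.ballR 1))⁻¹ * volume (M.ballR (2 * K + K))).toReal, le_max_left _ _, fun f T hT => ?_⟩
  set P : Set (M.G × M.G) := {p | p.2 ∈ T ∧ (f.φ p.1)⁻¹ * p.2 ∈ M.ballR 1} with hP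
  have hPm : MeasurableSet P :=
    (measurable_snd hT).inter (((f.mφ.comp measurable_fst).inv.mul measurable_snd) hB)
  have e1 : ∀ y, (volume[|M.ballR 1]) {s | f.φ y * s ∈ T} = (volume (M.ballR 1))⁻¹ * volume (Prod.mk y ⁻¹' P) := fun y => by
    rw [cond_apply hB, ← measure_preimage_mul volume (f.φ y) (Prod.mk y ⁻¹' P)]
    congr 2
    ext s
    simp only [hP, mem_inter_iff, mem_ofPred_eq, mem_preimage, inv_mul_cancel_left]
    exact and_comm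
  have e2 : ∀ z, volume ((fun y => (y, z)) ⁻¹' P) ≤ T.indicator (fun _ => volume (M.ballR (2 * K + K))) z := fun z => by
    by_cases hz : z ∈ T
    · rw [indicator_of_mem hz, ← measure_preimage_mul volume (f.ψ z)⁻¹ (M.ballR (2 * K + K))]
      refine measure_mono fun y hy => ?_
      have h3 : (M.len ((f.φ y)⁻¹ * z) : ℝ) ≤ 1 := hy.2
      have h4 := f.lψ (f.φ y) z
      have h5 : (f.ψ (f.φ y))⁻¹ * f.ψ z ∈ M.ballR (2 * K) := by
        show (M.len _ : ℝ) ≤ _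
        have := f.one_le
        nlinarith
      have h6 := M.mul_mem_ballR (M.inv_mem_ballR h5) (M.inv_mem_ballR (g := y⁻¹ * f.ψ (f.φ y)) (f.left y))
      simpa only [mem_preimage, _root_.mul_inv_rev, inv_inv, mul_assoc, mul_inv_cancel_left] using h6
    · rw [show (fun y => (y, z)) ⁻¹' P = ∅ from eq_empty_of_forall_notMem fun y hy => hz hy.1, measure_empty]
      exact zero_le
  simp only [e1]
  rw [lintegral_const_mul' _ _ (ENNReal.inv_ne_top.2 h0), ← Measure.prod_apply hPm, Measure.prod_apply_symm hPm]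
  refine (mul_le_mul_right (lintegral_mono e2) _).trans ?_
  rw [lintegral_indicator_const hT, ← mul_assoc]
  refine mul_le_mul_left ?_ _
  conv_lhs => rw [← ENNReal.ofReal_toReal h2]
  exact ENNReal.ofReal_le_ofReal (le_max_right _ _)
/-- AV1 (fibres to volume) -/
theorem vol_le_of_fibre {la : Measure M.G} [IsProbabilityMeasure la] {S Y Y' A : Set M.G} (hS : la Sᶜ = 0) (hA : MeasurableSet A)
    (hY : MeasurableSet Y) (hY' : MeasurableSet Y') (hsub : S⁻¹ * Y ⊆ Y') {a : ℝ≥0∞} (ha : ∀ z ∈ Y', la {x | x * z ∈ A} ≤ a) :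
    volume (Y ∩ A) ≤ a * volume Y' := by
  set P : Set (M.G × M.G) := {p | p.2 ∈ Y' ∧ p.1 * p.2 ∈ A} with hP
  have hPm : MeasurableSet P := (measurable_snd hY').inter ((measurable_fst.mul measurable_snd) hA)
  have e1 : ∀ᵐ x ∂la, volume (Y ∩ A) ≤ volume (Prod.mk x ⁻¹' P) := by
    filter_upwards [show ∀ᵐ x ∂la, x ∈ S from hS] with x hx
    rw [← measure_preimage_mul volume x (Y ∩ A)]
    refine measure_mono fun z hz => ⟨hsub ⟨x⁻¹, Set.inv_mem_inv.2 hx, x * z, hz.1, inv_mul_cancel_left x z⟩, hz.2⟩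
  have e2 : ∀ z, la ((fun x => (x, z)) ⁻¹' P) ≤ Y'.indicator (fun _ => a) z := fun z => by
    by_cases hz : z ∈ Y'
    · rw [indicator_of_mem hz]
      exact (measure_mono fun x hx => hx.2).trans (ha z hz)
    · rw [show (fun x => (x, z)) ⁻¹' P = ∅ from eq_empty_of_forall_notMem fun x hx => hz hx.1, measure_empty]
      exact zero_le
  calc volume (Y ∩ A) = ∫⁻ _, volume (Y ∩ A) ∂la := by rw [lintegral_const, measure_univ, mul_one]
    _ ≤ ∫⁻ x, volume (Prod.mk x ⁻¹' P) ∂la := lintegral_mono_ae e1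
    _ = ∫⁻ z, la ((fun x => (x, z)) ⁻¹' P) := by rw [← Measure.prod_apply hPm, Measure.prod_apply_symm hPm]
    _ ≤ a * volume Y' := by rw [← lintegral_indicator_const hY']; exact lintegral_mono e2

end Model

end Crest.Agent.R182
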